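/-
Lib/PolyTime/Prog: a tiny structured language over Boolean stacks, its timed big-step semantics and
its compilation to `Turing.FinTM2`.  Author: helper82.
-/
import Mathlib
import Crest.Prelude.Def_Complexity
import Crest.Prelude.Def_TimeBound

set_option autoImplicit false

namespace Crest.Agent.Lib.PolyTime

open Function Turing

/-- Structured programs over Boolean stacks indexed by `ℕ`.
`case k p q r` pops stack `k` and runs `p` (it was empty), `q` (popped `false`) or `r` (popped `true`).
`loop k q r` repeats, while stack `k` is nonempty: pop it and run `q` / `r` according to the bit. -/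
inductive Prog : Type
  | skip : Prog
  | push : ℕ → Bool → Prog
  | seq : Prog → Prog → Prog
  | case : ℕ → Prog → Prog → Prog → Prog
  | loop : ℕ → Prog → Prog → Prog

/-- Contents of the stacks. -/
abbrev Store : Type := ℕ → List Bool

/-- `Exec p S S' t`: started on `S`, program `p` ends with `S'` in at most `t` machine steps. -/
inductive Exec : Prog → Store → Store → ℕ → Prop
  | skip (S : Store) : Exec .skip S S 1
  | push (k : ℕ) (b : Bool) (S : Store) : Exec (.push k b) S (update S k (b :: S k)) 1
  | seq {p q : Prog} {S S' S'' : Store} {t t' : ℕ} :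
      Exec p S S' t → Exec q S' S'' t' → Exec (.seq p q) S S'' (t + t')
  | caseNil {k : ℕ} {p q r : Prog} {S S' : Store} {t : ℕ} :
      S k = [] → Exec p S S' t → Exec (.case k p q r) S S' (t + 1)
  | caseFalse {k : ℕ} {p q r : Prog} {S S' : Store} {t : ℕ} {l : List Bool} :
      S k = false :: l → Exec q (update S k l) S' t → Exec (.case k p q r) S S' (t + 1)
  | caseTrue {k : ℕ} {p q r : Prog} {S S' : Store} {t : ℕ} {l : List Bool} :
      S k = true :: l → Exec r (update S k l) S' t → Exec (.case k p q r) S S' (t + 1)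
  | loopNil {k : ℕ} {q r : Prog} {S : Store} : S k = [] → Exec (.loop k q r) S S 1
  | loopFalse {k : ℕ} {q r : Prog} {S S' S'' : Store} {t t' : ℕ} {l : List Bool} :
      S k = false :: l → Exec q (update S k l) S' t → Exec (.loop k q r) S' S'' t' →
      Exec (.loop k q r) S S'' (t + t' + 1)
  | loopTrue {k : ℕ} {q r : Prog} {S S' S'' : Store} {t t' : ℕ} {l : List Bool} :
      S k = true :: l → Exec r (update S k l) S' t → Exec (.loop k q r) S' S'' t' →
      Exec (.loop k q r) S S'' (t + t' + 1)
  | mono {p : Prog} {S S' : Store} {t t' : ℕ} : Exec p S S' t → t ≤ t' → Exec p S S' t'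

theorem Exec.length_le {p : Prog} {S S' : Store} {t : ℕ} (h : Exec p S S' t) (k : ℕ) :
    (S' k).length ≤ (S k).length + t := by
  induction h with
  | skip S => omega
  | push j b S =>
    by_cases hk : k = j
    · subst hk; simp
    · simp [update_of_ne hk]
  | seq _ _ ih1 ih2 => omega
  | caseNil _ _ ih => omega
  | @caseFalse j p q r S S' t l hl _ ih =>
    by_cases hk : k = j
    · subst hk; simp [hl] at ih ⊢; omega
    · simp [update_of_ne hk] at ih; omega
  | @caseTrue j p q r S S' t l hl _ ih =>
    by_cases hk : k = j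
    · subst hk; simp [hl] at ih ⊢; omega
    · simp [update_of_ne hk] at ih; omega
  | loopNil _ => omega
  | @loopFalse j q r S S' S'' t t' l hl _ _ ih1 ih2 =>
    by_cases hk : k = j
    · subst hk; simp [hl] at ih1 ⊢; omega
    · simp [update_of_ne hk] at ih1; omega
  | @loopTrue j q r S S' S'' t t' l hl _ _ ih1 ih2 =>
    by_cases hk : k = j
    · subst hk; simp [hl] at ih1 ⊢; omega
    · simp [update_of_ne hk] at ih1; omega
  | mono _ hle ih => omega

theorem Exec.of_eq {p : Prog} {S S' S'' : Store} {t t' : ℕ} (h : Exec p S S' t) (e : S' = S'')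
    (ht : t ≤ t') : Exec p S S'' t' := e ▸ h.mono ht

theorem Exec.of_eq' {p : Prog} {S₀ S S' : Store} {t : ℕ} (h : Exec p S S' t) (e : S₀ = S) :
    Exec p S₀ S' t := e ▸ h

/-! ### Compilation -/

/-- One more than the largest stack index used. -/
def Prog.bound : Prog → ℕ
  | .skip => 0
  | .push k _ => k + 1
  | .seq p q => max p.bound q.bound
  | .case k p q r => max (k + 1) (max p.bound (max q.bound r.bound))
  | .loop k q r => max (k + 1) (max q.bound r.bound)

/-- Program points. -/
def Prog.Lab : Prog → Type
  | .skip => Unit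
  | .push _ _ => Unit
  | .seq p q => p.Lab ⊕ q.Lab
  | .case _ p q r => Unit ⊕ p.Lab ⊕ q.Lab ⊕ r.Lab
  | .loop _ q r => Unit ⊕ q.Lab ⊕ r.Lab

/-- Finitely many program points. -/
@[reducible] def Prog.labFintype : (p : Prog) → Fintype p.Lab
  | .skip => inferInstanceAs (Fintype Unit)
  | .push _ _ => inferInstanceAs (Fintype Unit)
  | .seq p q =>
    letI := p.labFintype; letI := q.labFintype
    inferInstanceAs (Fintype (p.Lab ⊕ q.Lab))
  | .case _ p q r =>
    letI := p.labFintype; letI := q.labFintype; letI := r.labFintype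
    inferInstanceAs (Fintype (Unit ⊕ p.Lab ⊕ q.Lab ⊕ r.Lab))
  | .loop _ q r =>
    letI := q.labFintype; letI := r.labFintype
    inferInstanceAs (Fintype (Unit ⊕ q.Lab ⊕ r.Lab))

/-- The entry point. -/
def Prog.entry : (p : Prog) → p.Lab
  | .skip => ()
  | .push _ _ => ()
  | .seq p _ => Sum.inl p.entry
  | .case _ _ _ _ => Sum.inl ()
  | .loop _ _ _ => Sum.inl ()

/-- Stack names of the compiled machine: an input stack and `N + 1` Boolean stacks. -/
abbrev KK (N : ℕ) : Type := Option (Fin (N + 1))

/-- Stack alphabets of the compiled machine. -/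
@[reducible] def GG (N : ℕ) (G : Type) : KK N → Type
  | none => G
  | some _ => Bool

/-- Internal states of the compiled machine. -/
abbrev St (G : Type) : Type := Option Bool × Option G

/-- The stack holding register `k`. -/
def reg (N k : ℕ) : Fin (N + 1) := Fin.ofNat (N + 1) k

/-- Machine stacks for a given input-stack content and store. -/
def stk (N : ℕ) {G : Type} (inp : List G) (S : Store) : ∀ k : KK N, List (GG N G k)
  | none => inp
  | some i => S i

theorem stk_reg {N k : ℕ} {G : Type} (inp : List G) (S : Store) (hk : k < N + 1) :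
    stk N inp S (some (reg N k)) = S k := by
  simp [stk, reg, Nat.mod_eq_of_lt hk]

theorem update_stk {N k : ℕ} {G : Type} (inp : List G) (S : Store) (hk : k < N + 1)
    (l : List Bool) :
    update (stk N inp S) (some (reg N k)) l = stk N inp (update S k l) := by
  funext j
  cases j with
  | none => rw [update_of_ne (by simp)]; rfl
  | some i =>
    by_cases h : i = reg N k
    · subst h
      rw [update_self, stk_reg _ _ hk, update_self]
    · rw [update_of_ne (by simpa using h)]
      have : (i : ℕ) ≠ k := by
        intro e; apply h; apply Fin.ext; simp [reg, Nat.mod_eq_of_lt hk, e]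
      simp [stk, update_of_ne this]

theorem update_stk_none {N : ℕ} {G : Type} (inp inp' : List G) (S : Store) :
    update (stk N inp S) none inp' = stk N inp' S := by
  funext j
  cases j with
  | none => rw [update_self]; rfl
  | some i => rw [update_of_ne (by simp)]; rfl

/-- The statements of the compiled program; `cont` is what to do on exit. -/
def code (N : ℕ) (G Λ : Type) : (p : Prog) → (p.Lab → Λ) → TM2.Stmt (GG N G) Λ (St G) →
    p.Lab → TM2.Stmt (GG N G) Λ (St G)
  | .skip, _, cont => fun _ => cont
  | .push k b, _, cont => fun _ => TM2.Stmt.push (some (reg N k)) (fun _ => b) cont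
  | .seq p q, emb, cont => fun l =>
    match l with
    | Sum.inl l => code N G Λ p (fun x => emb (Sum.inl x))
        (TM2.Stmt.goto fun _ => emb (Sum.inr q.entry)) l
    | Sum.inr l => code N G Λ q (fun x => emb (Sum.inr x)) cont l
  | .case k p q r, emb, cont => fun l =>
    match l with
    | Sum.inl _ => TM2.Stmt.pop (some (reg N k)) (fun v a => (a, v.2))
        (TM2.Stmt.goto fun v =>
          match v.1 with
          | none => emb (Sum.inr (Sum.inl p.entry))
          | some false => emb (Sum.inr (Sum.inr (Sum.inl q.entry)))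
          | some true => emb (Sum.inr (Sum.inr (Sum.inr r.entry))))
    | Sum.inr (Sum.inl l) => code N G Λ p (fun x => emb (Sum.inr (Sum.inl x))) cont l
    | Sum.inr (Sum.inr (Sum.inl l)) =>
        code N G Λ q (fun x => emb (Sum.inr (Sum.inr (Sum.inl x)))) cont l
    | Sum.inr (Sum.inr (Sum.inr l)) =>
        code N G Λ r (fun x => emb (Sum.inr (Sum.inr (Sum.inr x)))) cont l
  | .loop k q r, emb, cont => fun l =>
    match l with
    | Sum.inl _ => TM2.Stmt.pop (some (reg N k)) (fun v a => (a, v.2))
        (TM2.Stmt.branch (fun v => v.1.isNone) cont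
          (TM2.Stmt.goto fun v =>
            match v.1 with
            | some true => emb (Sum.inr (Sum.inr r.entry))
            | _ => emb (Sum.inr (Sum.inl q.entry))))
    | Sum.inr (Sum.inl l) => code N G Λ q (fun x => emb (Sum.inr (Sum.inl x)))
        (TM2.Stmt.goto fun _ => emb (Sum.inl ())) l
    | Sum.inr (Sum.inr l) => code N G Λ r (fun x => emb (Sum.inr (Sum.inr x)))
        (TM2.Stmt.goto fun _ => emb (Sum.inl ())) l

/-- `n` steps of the machine `M` lead from `a` to `b`. -/
def Steps {N : ℕ} {G Λ : Type} (M : Λ → TM2.Stmt (GG N G) Λ (St G))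
    (a b : TM2.Cfg (GG N G) Λ (St G)) (n : ℕ) : Prop :=
  (flip bind (TM2.step M))^[n] (some a) = some b

theorem Steps.trans {N : ℕ} {G Λ : Type} {M : Λ → TM2.Stmt (GG N G) Λ (St G)}
    {a b c : TM2.Cfg (GG N G) Λ (St G)} {m n : ℕ} (h1 : Steps M a b m) (h2 : Steps M b c n) :
    Steps M a c (m + n) := by
  unfold Steps at *
  rw [Nat.add_comm m n, iterate_add_apply, h1, h2]

theorem Steps.one {N : ℕ} {G Λ : Type} (M : Λ → TM2.Stmt (GG N G) Λ (St G)) (l : Λ) (v : St G)
    (T : ∀ k : KK N, List (GG N G k)) :
    Steps M ⟨some l, v, T⟩ (TM2.stepAux (M l) v T) 1 := rfl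

theorem compile_correct {N : ℕ} {G Λ : Type} (M : Λ → TM2.Stmt (GG N G) Λ (St G)) (inp : List G)
    {p : Prog} {S S' : Store} {t : ℕ} (h : Exec p S S' t) :
    p.bound ≤ N + 1 → ∀ (emb : p.Lab → Λ) (cont : TM2.Stmt (GG N G) Λ (St G)),
      (∀ l, M (emb l) = code N G Λ p emb cont l) → ∀ v : St G, ∃ (v' : St G) (n : ℕ), n ≤ t ∧
        Steps M ⟨some (emb p.entry), v, stk N inp S⟩ (TM2.stepAux cont v' (stk N inp S')) n := by
  induction h with
  | skip S =>
    intro _ emb cont hM v
    refine ⟨v, 1, le_rfl, ?_⟩
    have := Steps.one M (emb ()) v (stk N inp S)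
    rw [hM ()] at this
    exact this
  | push k b S =>
    intro hb emb cont hM v
    refine ⟨v, 1, le_rfl, ?_⟩
    have := Steps.one M (emb ()) v (stk N inp S)
    rw [hM ()] at this
    have hk : k < N + 1 := hb
    simp only [code, TM2.stepAux] at this
    rw [stk_reg _ _ hk, update_stk _ _ hk] at this
    exact this
  | @seq p q S S' S'' t t' _ _ ih1 ih2 =>
    intro hb emb cont hM v
    have hb1 : p.bound ≤ N + 1 := le_trans (le_max_left _ _) hb
    have hb2 : q.bound ≤ N + 1 := le_trans (le_max_right _ _) hb
    obtain ⟨v1, n1, hn1, h1⟩ := ih1 hb1 (fun x => emb (Sum.inl x))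
      (TM2.Stmt.goto fun _ => emb (Sum.inr q.entry)) (fun l => hM (Sum.inl l)) v
    obtain ⟨v2, n2, hn2, h2⟩ := ih2 hb2 (fun x => emb (Sum.inr x)) cont
      (fun l => hM (Sum.inr l)) v1
    exact ⟨v2, n1 + n2, by omega, h1.trans h2⟩
  | @caseNil k p q r S S' t hl _ ih =>
    intro hb emb cont hM v
    simp only [Prog.bound, max_le_iff] at hb
    have hk : k < N + 1 := hb.1
    have h0 := Steps.one M (emb (Sum.inl ())) v (stk N inp S)
    rw [hM (Sum.inl ())] at h0
    simp only [code, TM2.stepAux] at h0
    rw [stk_reg _ _ hk, update_stk _ _ hk, hl] at h0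
    have e : update S k ([] : List Bool).tail = S := by
      rw [List.tail_nil, ← hl, update_eq_self]
    rw [e] at h0
    obtain ⟨v1, n1, hn1, h1⟩ := ih hb.2.1 (fun x => emb (Sum.inr (Sum.inl x))) cont
      (fun l => hM (Sum.inr (Sum.inl l))) (none, v.2)
    exact ⟨v1, 1 + n1, by omega, h0.trans h1⟩
  | @caseFalse k p q r S S' t l hl _ ih =>
    intro hb emb cont hM v
    simp only [Prog.bound, max_le_iff] at hb
    have hk : k < N + 1 := hb.1
    have h0 := Steps.one M (emb (Sum.inl ())) v (stk N inp S)
    rw [hM (Sum.inl ())] at h0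
    simp only [code, TM2.stepAux] at h0
    rw [stk_reg _ _ hk, update_stk _ _ hk, hl] at h0
    obtain ⟨v1, n1, hn1, h1⟩ := ih hb.2.2.1 (fun x => emb (Sum.inr (Sum.inr (Sum.inl x)))) cont
      (fun l => hM (Sum.inr (Sum.inr (Sum.inl l)))) (some false, v.2)
    exact ⟨v1, 1 + n1, by omega, h0.trans h1⟩
  | @caseTrue k p q r S S' t l hl _ ih =>
    intro hb emb cont hM v
    simp only [Prog.bound, max_le_iff] at hb
    have hk : k < N + 1 := hb.1
    have h0 := Steps.one M (emb (Sum.inl ())) v (stk N inp S)
    rw [hM (Sum.inl ())] at h0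
    simp only [code, TM2.stepAux] at h0
    rw [stk_reg _ _ hk, update_stk _ _ hk, hl] at h0
    obtain ⟨v1, n1, hn1, h1⟩ := ih hb.2.2.2 (fun x => emb (Sum.inr (Sum.inr (Sum.inr x)))) cont
      (fun l => hM (Sum.inr (Sum.inr (Sum.inr l)))) (some true, v.2)
    exact ⟨v1, 1 + n1, by omega, h0.trans h1⟩
  | @loopNil k q r S hl =>
    intro hb emb cont hM v
    simp only [Prog.bound, max_le_iff] at hb
    have hk : k < N + 1 := hb.1
    have h0 := Steps.one M (emb (Sum.inl ())) v (stk N inp S)
    rw [hM (Sum.inl ())] at h0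
    simp only [code, TM2.stepAux] at h0
    rw [stk_reg _ _ hk, update_stk _ _ hk, hl] at h0
    have e : update S k ([] : List Bool).tail = S := by
      rw [List.tail_nil, ← hl, update_eq_self]
    rw [e] at h0
    exact ⟨(none, v.2), 1, le_rfl, h0⟩
  | @loopFalse k q r S S' S'' t t' l hl _ _ ih1 ih2 =>
    intro hb emb cont hM v
    have hb' := hb
    simp only [Prog.bound, max_le_iff] at hb
    have hk : k < N + 1 := hb.1
    have h0 := Steps.one M (emb (Sum.inl ())) v (stk N inp S)
    rw [hM (Sum.inl ())] at h0
    simp only [code, TM2.stepAux] at h0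
    rw [stk_reg _ _ hk, update_stk _ _ hk, hl] at h0
    obtain ⟨v1, n1, hn1, h1⟩ := ih1 hb.2.1 (fun x => emb (Sum.inr (Sum.inl x)))
      (TM2.Stmt.goto fun _ => emb (Sum.inl ())) (fun l => hM (Sum.inr (Sum.inl l)))
      (some false, v.2)
    obtain ⟨v2, n2, hn2, h2⟩ := ih2 hb' emb cont hM v1
    exact ⟨v2, 1 + n1 + n2, by omega, (h0.trans h1).trans h2⟩
  | @loopTrue k q r S S' S'' t t' l hl _ _ ih1 ih2 =>
    intro hb emb cont hM v
    have hb' := hb
    simp only [Prog.bound, max_le_iff] at hb
    have hk : k < N + 1 := hb.1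
    have h0 := Steps.one M (emb (Sum.inl ())) v (stk N inp S)
    rw [hM (Sum.inl ())] at h0
    simp only [code, TM2.stepAux] at h0
    rw [stk_reg _ _ hk, update_stk _ _ hk, hl] at h0
    obtain ⟨v1, n1, hn1, h1⟩ := ih1 hb.2.2 (fun x => emb (Sum.inr (Sum.inr x)))
      (TM2.Stmt.goto fun _ => emb (Sum.inl ())) (fun l => hM (Sum.inr (Sum.inr l)))
      (some true, v.2)
    obtain ⟨v2, n2, hn2, h2⟩ := ih2 hb' emb cont hM v1
    exact ⟨v2, 1 + n1 + n2, by omega, (h0.trans h1).trans h2⟩
  | mono _ hle ih =>
    intro hb emb cont hM v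
    obtain ⟨v1, n1, hn1, h1⟩ := ih hb emb cont hM v
    exact ⟨v1, n1, by omega, h1⟩

/-! ### The top-level machine -/

/-- The store with `x` in register `0` and nothing else. -/
def single (x : List Bool) : Store := update (fun _ => []) 0 x

/-- Statements of the top-level machine: label `none` reads the input stack, writing two bits per
symbol on register `0`; the other labels run the compiled program. -/
def topCode (G : Type) (c1 c2 : G → Bool) (P : Prog) :
    Option P.Lab → TM2.Stmt (GG P.bound G) (Option P.Lab) (St G)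
  | none => TM2.Stmt.pop none (fun v a => (v.1, a))
      (TM2.Stmt.branch (fun v => v.2.isNone) (TM2.Stmt.goto fun _ => some P.entry)
        (TM2.Stmt.push (some (reg P.bound 0)) (fun v => (v.2.map c1).getD false)
          (TM2.Stmt.push (some (reg P.bound 0)) (fun v => (v.2.map c2).getD false)
            (TM2.Stmt.goto fun _ => none))))
  | some l => code P.bound G (Option P.Lab) P some
      (TM2.Stmt.load (fun _ => (none, none)) TM2.Stmt.halt) l

/-- The top-level machine. -/
def topTM (G : Type) [Fintype G] (c1 c2 : G → Bool) (P : Prog) : FinTM2 :=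
  letI := P.labFintype
  { K := KK P.bound
    k₀ := none
    k₁ := some (reg P.bound 0)
    Γ := GG P.bound G
    Λ := Option P.Lab
    main := none
    σ := St G
    initialState := (none, none)
    Γk₀Fin := inferInstanceAs (Fintype G)
    m := topCode G c1 c2 P }

theorem read_steps (G : Type) (c1 c2 : G → Bool) (P : Prog) (inp : List G) :
    ∀ (x : List Bool) (v : St G), ∃ v' : St G,
      Steps (topCode G c1 c2 P) ⟨some none, v, stk P.bound inp (single x)⟩
        ⟨some (some P.entry), v',
          stk P.bound [] (single ((inp.flatMap fun g => [c1 g, c2 g]).reverse ++ x))⟩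
        (inp.length + 1) := by
  induction inp with
  | nil =>
    intro x v
    refine ⟨(v.1, none), ?_⟩
    have h0 := Steps.one (topCode G c1 c2 P) none v (stk P.bound [] (single x))
    simp only [topCode, TM2.stepAux] at h0
    rw [update_stk_none] at h0
    exact h0
  | cons g inp ih =>
    intro x v
    have h0 := Steps.one (topCode G c1 c2 P) none v (stk P.bound (g :: inp) (single x))
    simp only [topCode, TM2.stepAux] at h0
    rw [update_stk_none] at h0
    have hk : 0 < P.bound + 1 := Nat.succ_pos _
    have e1 : (stk P.bound (g :: inp) (single x) none).head? = some g := rfl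
    have e2 : (stk P.bound (g :: inp) (single x) none).tail = inp := rfl
    rw [e1, e2] at h0
    simp only [Option.isNone_some, cond_false, Option.map_some, Option.getD_some] at h0
    rw [stk_reg _ _ hk, update_stk _ _ hk, stk_reg _ _ hk, update_stk _ _ hk] at h0
    have e3 : update (update (single x) 0 (c1 g :: single x 0)) 0
        (c2 g :: update (single x) 0 (c1 g :: single x 0) 0) = single (c2 g :: c1 g :: x) := by
      simp [single]
    rw [e3] at h0
    obtain ⟨v', h1⟩ := ih (c2 g :: c1 g :: x) (v.1, some g)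
    refine ⟨v', ?_⟩
    have := h0.trans h1
    have e4 : ((g :: inp).flatMap fun g => [c1 g, c2 g]).reverse ++ x =
        (inp.flatMap fun g => [c1 g, c2 g]).reverse ++ c2 g :: c1 g :: x := by simp
    rw [e4, List.length_cons, Nat.add_comm (inp.length + 1) 1]
    exact this

theorem topTM_outputs (G : Type) [Fintype G] (c1 c2 : G → Bool) (P : Prog) (inp : List G)
    (y : List Bool) (t : ℕ)
    (h : Exec P (single (inp.flatMap fun g => [c1 g, c2 g]).reverse) (single y) t) :
    Nonempty (TM2OutputsInTime (topTM G c1 c2 P) inp (some y) (t + inp.length + 1)) := by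
  obtain ⟨v1, h1⟩ := read_steps G c1 c2 P inp [] (none, none)
  rw [List.append_nil] at h1
  obtain ⟨v2, n, hn, h2⟩ := compile_correct (N := P.bound) (topCode G c1 c2 P) ([] : List G) h
    (Nat.le_succ _) some (TM2.Stmt.load (fun _ => (none, none)) TM2.Stmt.halt) (fun _ => rfl) v1
  have h3 := h1.trans h2
  refine ⟨⟨⟨inp.length + 1 + n, ?_⟩, by simp only; omega⟩⟩
  have ei : initList (topTM G c1 c2 P) inp =
      (⟨some none, (none, none), stk P.bound inp (single [])⟩ :
        TM2.Cfg (GG P.bound G) (Option P.Lab) (St G)) := by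
    simp only [initList, topTM]
    congr 1
    funext k
    cases k with
    | none => simp [stk]
    | some i => simp [stk, single]
  have eh : haltList (topTM G c1 c2 P) y =
      (⟨none, (none, none), stk P.bound [] (single y)⟩ :
        TM2.Cfg (GG P.bound G) (Option P.Lab) (St G)) := by
    simp only [haltList, topTM]
    congr 1
    funext k
    cases k with
    | none => simp [stk]
    | some i =>
      by_cases hi : i = reg P.bound 0
      · subst hi; simp [stk, single, reg]
      · have : (i : ℕ) ≠ 0 := by
          intro e; apply hi; apply Fin.ext; simp [reg, e]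
        simp [stk, single, hi, update_of_ne this]
  show (flip bind (topTM G c1 c2 P).step)^[inp.length + 1 + n]
    (some (initList (topTM G c1 c2 P) inp)) = some (haltList (topTM G c1 c2 P) y)
  rw [ei, eh]
  exact h3

/-- The compiled machine with its alphabets. -/
def topAux (G : Type) [Fintype G] (c1 c2 : G → Bool) (P : Prog) : TM2ComputableAux G Bool where
  tm := topTM G c1 c2 P
  inputAlphabet := Equiv.refl G
  outputAlphabet := Equiv.refl Bool

theorem timeBoundComputable_of_exec {α β G : Type} [Fintype G] (ea : α → List G)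
    (eb : β → List Bool) (f : α → β) (c1 c2 : G → Bool) (P : Prog) (t : ℕ → ℕ)
    (h : ∀ a, Exec P (single ((ea a).flatMap fun g => [c1 g, c2 g]).reverse) (single (eb (f a)))
      (t (ea a).length)) :
    Crest.DTime.TimeBoundComputable ea eb f (fun n => t n + n + 1) := by
  refine ⟨⟨topAux G c1 c2 P, fun n => t n + n + 1, fun a => ?_⟩, fun _ => le_rfl⟩
  have := (topTM_outputs G c1 c2 P (ea a) (eb (f a)) _ (h a)).some
  have e1 : List.map (topAux G c1 c2 P).inputAlphabet.invFun (ea a) = ea a := List.map_id _
  have e2 : List.map (topAux G c1 c2 P).outputAlphabet.invFun (eb (f a)) = eb (f a) :=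
    List.map_id _
  rw [e1, e2]
  exact this

theorem polyTimeComputable_of_timeBound {α β G G' : Type} {ea : α → List G}
    {eb : β → List G'} {f : α → β} {t : ℕ → ℕ}
    (h : Crest.DTime.TimeBoundComputable ea eb f t) (p : Polynomial ℕ)
    (hp : ∀ n, t n ≤ p.eval n) : Crest.Complexity.PolyTimeComputable ea eb f := by
  obtain ⟨M, hM⟩ := h
  refine ⟨⟨M.toTM2ComputableAux, p, fun a => ?_⟩⟩
  have := M.outputsFun a
  exact ⟨this.toEvalsTo, this.steps_le_m.trans ((hM _).trans (hp _))⟩

theorem timeBoundComputable_mono {α β G G' : Type} {ea : α → List G}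
    {eb : β → List G'} {f : α → β} {t t' : ℕ → ℕ}
    (h : Crest.DTime.TimeBoundComputable ea eb f t) (hp : ∀ n, t n ≤ t' n) :
    Crest.DTime.TimeBoundComputable ea eb f t' := by
  obtain ⟨M, hM⟩ := h
  exact ⟨M, fun n => (hM n).trans (hp n)⟩

end Crest.Agent.Lib.PolyTime
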