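/-
Lib/PolyTime/Tree: binary trees as universal data, timed computations `TC` on tree codes and their
primitive closure properties.  Author: helper82.
-/
import Crest.Agent.Lib.PolyTime.Prog

set_option autoImplicit false

namespace Crest.Agent.Lib.PolyTime

open Function

/-- Binary trees: the universal data type. -/
inductive Tr : Type
  | nil : Tr
  | cons : Tr → Tr → Tr
  deriving DecidableEq, Inhabited

namespace Tr

/-- Prefix code of a tree. -/
def bits : Tr → List Bool
  | nil => [false]
  | cons a b => true :: (a.bits ++ b.bits)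

/-- Number of nodes (leaves included) = length of the code. -/
def size : Tr → ℕ
  | nil => 1
  | cons a b => a.size + b.size + 1

@[simp] theorem size_nil : nil.size = 1 := rfl
@[simp] theorem size_cons (a b : Tr) : (cons a b).size = a.size + b.size + 1 := rfl

@[simp] theorem length_bits (t : Tr) : t.bits.length = t.size := by
  induction t with
  | nil => rfl
  | cons a b iha ihb => simp [bits, iha, ihb]

theorem size_pos (t : Tr) : 0 < t.size := by cases t <;> simp

/-- Tree for a Boolean. -/
def ofBool : Bool → Tr
  | false => nil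
  | true => cons nil nil

theorem size_ofBool_le (b : Bool) : (ofBool b).size ≤ 3 := by cases b <;> simp [ofBool]

/-- Tree for a list of trees. -/
def ofList : List Tr → Tr
  | [] => nil
  | a :: l => cons a (ofList l)

end Tr

/-- Close an equation between updated stores. -/
macro "store_eq" : tactic =>
  `(tactic| (funext k; simp only [Function.update_apply]; split_ifs <;>
    first | rfl | omega | (subst_vars; simp_all; done) | (simp_all; done)))

/-! ### Basic programs -/

/-- Empty stack `k`. -/
def clearP (k : ℕ) : Prog := .loop k .skip .skip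

theorem exec_clear (k : ℕ) (l : List Bool) : ∀ S : Store, S k = l →
    Exec (clearP k) S (update S k []) (2 * l.length + 1) := by
  induction l with
  | nil =>
    intro S h
    exact (Exec.loopNil h).of_eq (by rw [← h, update_eq_self]) (by simp)
  | cons b l ih =>
    intro S h
    have h2 := ih (update S k l) (by simp)
    rw [update_idem] at h2
    cases b
    · exact (Exec.loopFalse h (Exec.skip _) h2).mono (by simp; omega)
    · exact (Exec.loopTrue h (Exec.skip _) h2).mono (by simp; omega)

/-- Move stack `a` onto stack `b` (reversing it). -/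
def moveP (a b : ℕ) : Prog := .loop a (.push b false) (.push b true)

theorem exec_move {a b : ℕ} (hab : a ≠ b) (l : List Bool) : ∀ (S : Store), S a = l →
    Exec (moveP a b) S (update (update S a []) b (l.reverse ++ S b)) (2 * l.length + 1) := by
  induction l with
  | nil =>
    intro S h
    exact (Exec.loopNil h).of_eq (by store_eq) (by simp)
  | cons c l ih =>
    intro S h
    have h2 := ih (update (update S a l) b (c :: update S a l b))
      (by rw [update_of_ne hab]; simp)
    cases c
    · exact (Exec.loopFalse h (Exec.push _ _ _) h2).of_eq (by store_eq) (by simp; omega)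
    · exact (Exec.loopTrue h (Exec.push _ _ _) h2).of_eq (by store_eq) (by simp; omega)

/-- Move stack `a` onto both stacks `b` and `c` (reversing it). -/
def dupP (a b c : ℕ) : Prog :=
  .loop a (.seq (.push b false) (.push c false)) (.seq (.push b true) (.push c true))

theorem exec_dup {a b c : ℕ} (hab : a ≠ b) (hac : a ≠ c) (hbc : b ≠ c) (l : List Bool) :
    ∀ (S : Store), S a = l →
    Exec (dupP a b c) S
      (update (update (update S a []) b (l.reverse ++ S b)) c (l.reverse ++ S c))
      (3 * l.length + 1) := by
  induction l with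
  | nil =>
    intro S h
    exact (Exec.loopNil h).of_eq (by store_eq) (by simp)
  | cons x l ih =>
    intro S h
    have h2 := ih (update (update (update S a l) b (x :: update S a l b)) c
      (x :: update (update S a l) b (x :: update S a l b) c))
      (by rw [update_of_ne hac, update_of_ne hab]; simp)
    cases x
    · exact (Exec.loopFalse h ((Exec.push _ _ _).seq (Exec.push _ _ _)) h2).of_eq
        (by store_eq) (by simp; omega)
    · exact (Exec.loopTrue h ((Exec.push _ _ _).seq (Exec.push _ _ _)) h2).of_eq
        (by store_eq) (by simp; omega)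

/-- One round of the subtree mover. -/
def treeBody : Prog :=
  .case 0 .skip (.push 2 false) (.seq (.push 2 true) (.seq (.push 1 true) (.push 1 true)))

/-- The subtree mover loop: counter in register `1`, destination register `2`. -/
def treeLoop : Prog := .loop 1 treeBody treeBody

theorem exec_treeLoop (t : Tr) : ∀ (S S'' : Store) (rest cs : List Bool) (τ : ℕ),
    S 0 = t.bits ++ rest → S 1 = true :: cs →
    Exec treeLoop (update (update (update S 0 rest) 1 cs) 2 (t.bits.reverse ++ S 2)) S'' τ →
    Exec treeLoop S S'' (τ + 5 * t.size) := by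
  induction t with
  | nil =>
    intro S S'' rest cs τ h0 h1 h
    have hb : Exec treeBody (update S 1 cs) _ _ :=
      Exec.caseFalse (l := rest) (by simpa [Tr.bits] using h0) (Exec.push _ _ _)
    refine (Exec.loopTrue h1 hb (h.of_eq' ?_)).mono (by simp; omega)
    simp only [Tr.bits]; store_eq
  | cons a b iha ihb =>
    intro S S'' rest cs τ h0 h1 h
    have hb : Exec treeBody (update S 1 cs) _ _ :=
      Exec.caseTrue (l := a.bits ++ b.bits ++ rest) (by simpa [Tr.bits] using h0)
        ((Exec.push _ _ _).seq ((Exec.push _ _ _).seq (Exec.push _ _ _)))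
    refine (Exec.loopTrue h1 hb (t' := τ + 5 * b.size + 5 * a.size) ?_).mono (by simp; omega)
    refine iha _ _ (b.bits ++ rest) (true :: cs) _ (by simp) (by simp) ?_
    refine ihb _ _ rest cs _ (by simp) (by simp) (h.of_eq' ?_)
    simp only [Tr.bits]; store_eq

/-- Move the first subtree of register `0` (reversed) to register `2`. -/
def moveTreeP : Prog := .seq (.push 1 true) treeLoop

theorem exec_moveTree (t : Tr) (S : Store) (rest : List Bool) (h0 : S 0 = t.bits ++ rest)
    (h1 : S 1 = []) :
    Exec moveTreeP S (update (update S 0 rest) 2 (t.bits.reverse ++ S 2)) (5 * t.size + 2) := by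
  have h := exec_treeLoop t (update S 1 (true :: S 1)) _ rest [] 1 (by simpa using h0)
    (by simp [h1]) (Exec.loopNil (by simp))
  exact ((Exec.push _ _ _).seq h).of_eq (by store_eq) (by omega)

/-- Pop one symbol of register `k`. -/
def popP (k : ℕ) : Prog := .case k .skip .skip .skip

theorem exec_pop (k : ℕ) (S : Store) (b : Bool) (l : List Bool) (h : S k = b :: l) :
    Exec (popP k) S (update S k l) 2 := by
  cases b
  · exact Exec.caseFalse h (Exec.skip _)
  · exact Exec.caseTrue h (Exec.skip _)

/-! ### Timed computations on trees -/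

/-- `P` maps `x` to `y` in register `0` within `t` steps, using registers below `n` as (initially
and finally empty) scratch space and leaving all others alone. -/
def Runs (P : Prog) (n : ℕ) (x y : List Bool) (t : ℕ) : Prop :=
  ∀ S : Store, S 0 = x → (∀ k, 0 < k → k < n → S k = []) → Exec P S (update S 0 y) t

theorem Runs.mono {P : Prog} {n n' : ℕ} {x y : List Bool} {t t' : ℕ} (h : Runs P n x y t)
    (hn : n ≤ n') (ht : t ≤ t') : Runs P n' x y t' :=
  fun S h0 h1 => (h S h0 fun k hk hk' => h1 k hk (by omega)).mono ht

theorem Runs.seq {P Q : Prog} {n : ℕ} {x y z : List Bool} {t t' : ℕ} (h : Runs P n x y t)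
    (h' : Runs Q n y z t') : Runs (.seq P Q) n x z (t + t') := by
  intro S h0 h1
  have := h' (update S 0 y) (by simp) (fun k hk hk' => by
    rw [update_of_ne (by omega)]; exact h1 k hk hk')
  rw [update_idem] at this
  exact (h S h0 h1).seq this

theorem Runs.length_le {P : Prog} {n : ℕ} {x y : List Bool} {t : ℕ} (h : Runs P n x y t) :
    y.length ≤ x.length + t := by
  have := (h (single x) (by simp [single]) (fun k hk _ => by
    simp [single, update_of_ne (Nat.pos_iff_ne_zero.mp hk)])).length_le 0
  simpa [single] using this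

/-- `TC ea eb t`: one program maps the code of `ea a` to the code of `eb a` within `t a` steps, for
every index `a`. -/
def TC {α : Sort*} (ea eb : α → Tr) (t : α → ℕ) : Prop :=
  ∃ (P : Prog) (n : ℕ), ∀ a, Runs P n (ea a).bits (eb a).bits (t a)

namespace TC

variable {α β : Sort*}

theorem mono {ea eb : α → Tr} {t t' : α → ℕ} (h : TC ea eb t) (ht : ∀ a, t a ≤ t' a) :
    TC ea eb t' := by
  obtain ⟨P, n, h⟩ := h
  exact ⟨P, n, fun a => (h a).mono le_rfl (ht a)⟩

theorem congr {ea eb ea' eb' : α → Tr} {t : α → ℕ} (h : TC ea eb t) (h1 : ∀ a, ea' a = ea a)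
    (h2 : ∀ a, eb' a = eb a) : TC ea' eb' t := by
  rw [funext h1, funext h2]; exact h

theorem reindex {ea eb : α → Tr} {t : α → ℕ} (h : TC ea eb t) (φ : β → α) :
    TC (fun b => ea (φ b)) (fun b => eb (φ b)) (fun b => t (φ b)) := by
  obtain ⟨P, n, h⟩ := h
  exact ⟨P, n, fun b => h (φ b)⟩

theorem size_le {ea eb : α → Tr} {t : α → ℕ} (h : TC ea eb t) (a : α) :
    (eb a).size ≤ (ea a).size + t a := by
  obtain ⟨P, n, h⟩ := h
  simpa using (h a).length_le

theorem id (e : α → Tr) : TC e e (fun _ => 1) :=
  ⟨.skip, 0, fun a S h0 _ => (Exec.skip S).of_eq (by rw [← h0, update_eq_self]) le_rfl⟩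

theorem comp {e1 e2 e3 : α → Tr} {t t' : α → ℕ} (h : TC e1 e2 t) (h' : TC e2 e3 t') :
    TC e1 e3 (fun a => t a + t' a) := by
  obtain ⟨P, n, h⟩ := h
  obtain ⟨Q, m, h'⟩ := h'
  exact ⟨.seq P Q, max n m, fun a =>
    ((h a).mono (le_max_left _ _) le_rfl).seq ((h' a).mono (le_max_right _ _) le_rfl)⟩

theorem nil (e : α → Tr) : TC e (fun _ => Tr.nil) (fun a => 2 * (e a).size + 2) := by
  refine ⟨.seq (clearP 0) (.push 0 false), 0, fun a S h0 _ => ?_⟩
  exact ((exec_clear 0 _ S h0).seq (Exec.push _ _ _)).of_eq (by simp [Tr.bits]) (by simp)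

theorem fst (f g : α → Tr) :
    TC (fun a => Tr.cons (f a) (g a)) f (fun a => 7 * ((f a).size + (g a).size + 1)) := by
  refine ⟨.seq (popP 0) (.seq moveTreeP (.seq (clearP 0) (moveP 2 0))), 3, fun a S h0 h1 => ?_⟩
  have e1 : S 1 = [] := h1 1 (by omega) (by omega)
  have e2 : S 2 = [] := h1 2 (by omega) (by omega)
  have s1 := exec_pop 0 S true _ h0
  have s2 := exec_moveTree (f a) (update S 0 ((f a).bits ++ (g a).bits)) (g a).bits (by simp)
    (by simpa using e1)
  have s3 := exec_clear 0 (g a).bits (update (update (update S 0 ((f a).bits ++ (g a).bits)) 0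
    (g a).bits) 2 ((f a).bits.reverse ++ update S 0 ((f a).bits ++ (g a).bits) 2)) (by simp)
  have s4 := exec_move (a := 2) (b := 0) (by omega) (f a).bits.reverse (update (update (update
    (update S 0 ((f a).bits ++ (g a).bits)) 0 (g a).bits) 2
    ((f a).bits.reverse ++ update S 0 ((f a).bits ++ (g a).bits) 2)) 0 []) (by simp [e2])
  exact (s1.seq (s2.seq (s3.seq s4))).of_eq (by store_eq) (by simp; omega)

theorem snd (f g : α → Tr) :
    TC (fun a => Tr.cons (f a) (g a)) g (fun a => 7 * ((f a).size + (g a).size + 1)) := by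
  refine ⟨.seq (popP 0) (.seq moveTreeP (clearP 2)), 3, fun a S h0 h1 => ?_⟩
  have e1 : S 1 = [] := h1 1 (by omega) (by omega)
  have e2 : S 2 = [] := h1 2 (by omega) (by omega)
  have s1 := exec_pop 0 S true _ h0
  have s2 := exec_moveTree (f a) (update S 0 ((f a).bits ++ (g a).bits)) (g a).bits (by simp)
    (by simpa using e1)
  have s3 := exec_clear 2 (f a).bits.reverse (update (update (update S 0
    ((f a).bits ++ (g a).bits)) 0 (g a).bits) 2
    ((f a).bits.reverse ++ update S 0 ((f a).bits ++ (g a).bits) 2)) (by simp [e2])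
  have := (g a).size_pos
  exact (s1.seq (s2.seq s3)).of_eq (by store_eq) (by simp; omega)

theorem pair {e f g : α → Tr} {t t' : α → ℕ} (h : TC e f t) (h' : TC e g t') :
    TC e (fun a => Tr.cons (f a) (g a))
      (fun a => t a + t' a + 7 * (e a).size + 4 * (f a).size + 4 * (g a).size + 8) := by
  obtain ⟨P, n, h⟩ := h
  obtain ⟨Q, m, h'⟩ := h'
  obtain ⟨r, hr0, hrn, hrm⟩ : ∃ r, 0 < r ∧ n ≤ r ∧ m ≤ r := ⟨n + m + 1, by omega, by omega, by omega⟩
  refine ⟨.seq (dupP 0 r (r + 1)) (.seq (moveP r 0) (.seq Q (.seq (moveP 0 r)
    (.seq (moveP (r + 1) 0) (.seq P (.seq (moveP 0 (r + 1)) (.seq (moveP r 0)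
    (.seq (moveP (r + 1) 0) (.push 0 true))))))))), r + 2, fun a S h0 h1 => ?_⟩
  have e1 : S r = [] := h1 r (by omega) (by omega)
  have e2 : S (r + 1) = [] := h1 (r + 1) (by omega) (by omega)
  -- name the successive stores
  let mk : List Bool → List Bool → List Bool → Store := fun x y z =>
    update (update (update S 0 x) r y) (r + 1) z
  have mk0 : ∀ x y z, mk x y z 0 = x := fun x y z => by
    simp only [mk]; rw [update_of_ne (by omega), update_of_ne (by omega), update_self]
  have mk1 : ∀ x y z, mk x y z r = y := fun x y z => by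
    simp only [mk]; rw [update_of_ne (by omega), update_self]
  have mk2 : ∀ x y z, mk x y z (r + 1) = z := fun x y z => by simp only [mk]; rw [update_self]
  have mkf : ∀ x y z k, 0 < k → k < r → mk x y z k = [] := fun x y z k hk hk' => by
    simp only [mk]
    rw [update_of_ne (by omega), update_of_ne (by omega), update_of_ne (by omega)]
    exact h1 k hk (by omega)
  have u0 : ∀ x y z w, update (mk x y z) 0 w = mk w y z := fun x y z w => by
    simp only [mk]; store_eq
  have u1 : ∀ x y z w, update (mk x y z) r w = mk x w z := fun x y z w => by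
    simp only [mk]; store_eq
  have u2 : ∀ x y z w, update (mk x y z) (r + 1) w = mk x y w := fun x y z w => by
    simp only [mk]; store_eq
  have s1 : Exec _ S (mk [] (e a).bits.reverse (e a).bits.reverse) _ :=
    (exec_dup (a := 0) (b := r) (c := r + 1) (by omega) (by omega) (by omega) _ S h0).of_eq
      (by simp [mk, e1, e2]) le_rfl
  have s2 : Exec _ _ (mk (e a).bits [] (e a).bits.reverse) _ :=
    (exec_move (a := r) (b := 0) (by omega) _ (mk [] (e a).bits.reverse (e a).bits.reverse)
      (mk1 _ _ _)).of_eq (by simp [u0, u1, mk0]) le_rfl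
  have s3 : Exec _ _ (mk (g a).bits [] (e a).bits.reverse) _ :=
    (h' a (mk (e a).bits [] (e a).bits.reverse) (mk0 _ _ _)
      (fun k hk hk' => mkf _ _ _ k hk (by omega))).of_eq (u0 _ _ _ _) le_rfl
  have s4 : Exec _ _ (mk [] (g a).bits.reverse (e a).bits.reverse) _ :=
    (exec_move (a := 0) (b := r) (by omega) _ (mk (g a).bits [] (e a).bits.reverse)
      (mk0 _ _ _)).of_eq (by simp [u0, u1, mk1]) le_rfl
  have s5 : Exec _ _ (mk (e a).bits (g a).bits.reverse []) _ :=
    (exec_move (a := r + 1) (b := 0) (by omega) _ (mk [] (g a).bits.reverse (e a).bits.reverse)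
      (mk2 _ _ _)).of_eq (by simp [u0, u2, mk0]) le_rfl
  have s6 : Exec _ _ (mk (f a).bits (g a).bits.reverse []) _ :=
    (h a (mk (e a).bits (g a).bits.reverse []) (mk0 _ _ _)
      (fun k hk hk' => mkf _ _ _ k hk (by omega))).of_eq (u0 _ _ _ _) le_rfl
  have s7 : Exec _ _ (mk [] (g a).bits.reverse (f a).bits.reverse) _ :=
    (exec_move (a := 0) (b := r + 1) (by omega) _ (mk (f a).bits (g a).bits.reverse [])
      (mk0 _ _ _)).of_eq (by simp [u0, u2, mk2]) le_rfl
  have s8 : Exec _ _ (mk (g a).bits [] (f a).bits.reverse) _ :=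
    (exec_move (a := r) (b := 0) (by omega) _ (mk [] (g a).bits.reverse (f a).bits.reverse)
      (mk1 _ _ _)).of_eq (by simp [u0, u1, mk0]) le_rfl
  have s9 : Exec _ _ (mk ((f a).bits ++ (g a).bits) [] []) _ :=
    (exec_move (a := r + 1) (b := 0) (by omega) _ (mk (g a).bits [] (f a).bits.reverse)
      (mk2 _ _ _)).of_eq (by simp [u0, u2, mk0]) le_rfl
  have s10 := Exec.push 0 true (mk ((f a).bits ++ (g a).bits) [] [])
  refine (s1.seq (s2.seq (s3.seq (s4.seq (s5.seq (s6.seq (s7.seq (s8.seq
    (s9.seq s10))))))))).of_eq ?_ (by simp; omega)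
  rw [mk0, u0]
  simp only [mk, Tr.bits]; store_eq

/-- Test for the leaf. -/
theorem isCons (e : α → Tr) :
    TC e (fun a => Tr.ofBool (decide (e a ≠ Tr.nil))) (fun a => 2 * (e a).size + 5) := by
  refine ⟨.case 0 .skip (.push 0 false) (.seq (clearP 0) (.seq (.push 0 false)
    (.seq (.push 0 false) (.push 0 true)))), 0, fun a S h0 _ => ?_⟩
  dsimp only at h0 ⊢
  generalize e a = tr at h0 ⊢
  cases tr with
  | nil =>
    exact (Exec.caseFalse h0 (Exec.push _ _ _)).of_eq (by simp [Tr.ofBool, Tr.bits]) (by simp)
  | cons x y =>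
    have s1 := exec_clear 0 (x.bits ++ y.bits) (update S 0 (x.bits ++ y.bits)) (by simp)
    exact (Exec.caseTrue h0 (s1.seq ((Exec.push _ _ _).seq ((Exec.push _ _ _).seq
      (Exec.push _ _ _))))).of_eq (by simp [Tr.ofBool, Tr.bits]) (by simp)

/-- Branch on a Boolean tag; each branch only has to work on its part of the domain. -/
theorem cond {e out : α → Tr} (tag : α → Bool) {t : α → ℕ}
    (h1 : TC (fun a : {a // tag a = true} => e a.1) (fun a => out a.1) (fun a => t a.1))
    (h2 : TC (fun a : {a // tag a = false} => e a.1) (fun a => out a.1) (fun a => t a.1)) :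
    TC (fun a => Tr.cons (Tr.ofBool (tag a)) (e a)) out (fun a => t a + 7) := by
  obtain ⟨P, n, h1⟩ := h1
  obtain ⟨Q, m, h2⟩ := h2
  refine ⟨.seq (popP 0) (.case 0 .skip Q (.seq (popP 0) (.seq (popP 0) P))), max n m,
    fun a S h0 hS => ?_⟩
  have s1 := exec_pop 0 S true _ h0
  cases ht : tag a with
  | false =>
    rw [ht] at s1
    have s2 := h2 ⟨a, ht⟩ (update (update S 0 ((Tr.ofBool false).bits ++ (e a).bits)) 0 (e a).bits)
      (by simp) (fun k hk hk' => by
        rw [update_of_ne (by omega), update_of_ne (by omega)]; exact hS k hk (by omega))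
    exact (s1.seq (Exec.caseFalse (by simp [Tr.ofBool, Tr.bits]) s2)).of_eq (by simp)
      (by simp only; omega)
  | true =>
    rw [ht] at s1
    have s2 := exec_pop 0 (update (update S 0 ((Tr.ofBool true).bits ++ (e a).bits)) 0
      (false :: false :: (e a).bits)) false (false :: (e a).bits) (by simp)
    have s3 := exec_pop 0 (update (update (update S 0 ((Tr.ofBool true).bits ++ (e a).bits)) 0
      (false :: false :: (e a).bits)) 0 (false :: (e a).bits)) false (e a).bits (by simp)
    have s4 := h1 ⟨a, ht⟩ (update (update (update (update S 0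
      ((Tr.ofBool true).bits ++ (e a).bits)) 0 (false :: false :: (e a).bits)) 0
      (false :: (e a).bits)) 0 (e a).bits) (by simp) (fun k hk hk' => by
        rw [update_of_ne (by omega), update_of_ne (by omega), update_of_ne (by omega),
          update_of_ne (by omega)]
        exact hS k hk (by omega))
    exact (s1.seq (Exec.caseTrue (by simp [Tr.ofBool, Tr.bits]) (s2.seq (s3.seq s4)))).of_eq
      (by simp) (by simp only; omega)

/-- Do-while loop: the body maps state `s a i` to the pair (continue?, state `s a (i+1)`), and the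
flag is `true` exactly for `i < N a`. -/
theorem doWhile (s : α → ℕ → Tr) (N : α → ℕ) (τ : α → ℕ → ℕ)
    (h : TC (fun p : (a : α) ×' {i : ℕ // i ≤ N a} => s p.1 p.2.1)
      (fun p => Tr.cons (Tr.ofBool (decide (p.2.1 < N p.1))) (s p.1 (p.2.1 + 1)))
      (fun p => τ p.1 p.2.1)) :
    TC (fun a => s a 0) (fun a => s a (N a + 1))
      (fun a => (∑ i ∈ Finset.range (N a + 1), (τ a i + 9)) + 2) := by
  obtain ⟨P, n, h⟩ := h
  obtain ⟨r, hr0, hrn⟩ : ∃ r, 0 < r ∧ n ≤ r := ⟨n + 1, by omega, by omega⟩
  let body : Prog := .seq P (.seq (popP 0) (.case 0 .skip .skip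
    (.seq (popP 0) (.seq (popP 0) (.push r true)))))
  refine ⟨.seq (.push r true) (.loop r body body), r + 1, fun a S h0 hS => ?_⟩
  have er : S r = [] := hS r hr0 (by omega)
  let mk : List Bool → List Bool → Store := fun x y => update (update S 0 x) r y
  have mk0 : ∀ x y, mk x y 0 = x := fun x y => by
    simp only [mk]; rw [update_of_ne (by omega), update_self]
  have mk1 : ∀ x y, mk x y r = y := fun x y => by simp only [mk]; rw [update_self]
  have mkf : ∀ x y k, 0 < k → k < r → mk x y k = [] := fun x y k hk hk' => by
    simp only [mk]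
    rw [update_of_ne (by omega), update_of_ne (by omega)]
    exact hS k hk (by omega)
  have u0 : ∀ x y w, update (mk x y) 0 w = mk w y := fun x y w => by simp only [mk]; store_eq
  have u1 : ∀ x y w, update (mk x y) r w = mk x w := fun x y w => by simp only [mk]; store_eq
  have key : ∀ j i, i + j = N a →
      Exec (.loop r body body) (mk (s a i).bits [true]) (mk (s a (N a + 1)).bits [])
        ((∑ i' ∈ Finset.Ico i (N a + 1), (τ a i' + 9)) + 1) := by
    intro j
    induction j with
    | zero =>
      intro i hi
      have hi' : i = N a := by omega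
      subst hi'
      have s1 := (h ⟨a, ⟨N a, le_rfl⟩⟩ (mk (s a (N a)).bits []) (mk0 _ _)
        (fun k hk hk' => mkf _ _ k hk (by omega)))
      simp only [lt_irrefl, decide_false, u0] at s1
      have s2 := exec_pop 0 _ true _ (mk0 (Tr.cons (Tr.ofBool false) (s a (N a + 1))).bits [])
      rw [u0] at s2
      have s3 : Exec (.case 0 .skip .skip (.seq (popP 0) (.seq (popP 0) (.push r true))))
          (mk ((Tr.ofBool false).bits ++ (s a (N a + 1)).bits) []) _ _ :=
        Exec.caseFalse (l := (s a (N a + 1)).bits) (by simp [mk0, Tr.ofBool, Tr.bits])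
          (Exec.skip _)
      rw [u0] at s3
      have hb : Exec body (update (mk (s a (N a)).bits [true]) r []) _ _ :=
        (s1.seq (s2.seq s3)).of_eq' (u1 _ _ _)
      exact (Exec.loopTrue (mk1 _ _) hb (Exec.loopNil (mk1 _ _))).mono (by simp)
    | succ j ih =>
      intro i hi
      have hlt : i < N a := by omega
      have s1 := (h ⟨a, ⟨i, hlt.le⟩⟩ (mk (s a i).bits []) (mk0 _ _)
        (fun k hk hk' => mkf _ _ k hk (by omega)))
      simp only [hlt, decide_true, u0] at s1
      have s2 := exec_pop 0 _ true _ (mk0 (Tr.cons (Tr.ofBool true) (s a (i + 1))).bits [])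
      rw [u0] at s2
      have s4 := exec_pop 0 _ false _ (mk0 (false :: false :: (s a (i + 1)).bits) [])
      rw [u0] at s4
      have s5 := exec_pop 0 _ false _ (mk0 (false :: (s a (i + 1)).bits) [])
      rw [u0] at s5
      have s6 := Exec.push r true (mk (s a (i + 1)).bits [])
      rw [mk1, u1] at s6
      have s3 : Exec (.case 0 .skip .skip (.seq (popP 0) (.seq (popP 0) (.push r true))))
          (mk ((Tr.ofBool true).bits ++ (s a (i + 1)).bits) []) _ _ :=
        Exec.caseTrue (l := false :: false :: (s a (i + 1)).bits)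
          (by simp [mk0, Tr.ofBool, Tr.bits]) ((s4.seq (s5.seq s6)).of_eq' (u0 _ _ _))
      have hb : Exec body (update (mk (s a i).bits [true]) r []) _ _ :=
        (s1.seq (s2.seq s3)).of_eq' (u1 _ _ _)
      refine (Exec.loopTrue (mk1 _ _) hb (ih (i + 1) (by omega))).mono ?_
      rw [Finset.sum_eq_sum_Ico_succ_bot (by omega : i < N a + 1)]
      omega
  have s0 : Exec (.push r true) S (mk (s a 0).bits [true]) 1 :=
    (Exec.push r true S).of_eq (by simp only [mk, er, ← h0]; store_eq) le_rfl
  refine (s0.seq (key (N a) 0 (by omega))).of_eq ?_ ?_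
  · simp only [mk]; store_eq
  · simp only [Finset.range_eq_Ico]; omega

end TC

/-! ### Raw input and output -/

/-- Tree of a bit string. -/
def bitsTr (l : List Bool) : Tr := Tr.ofList (l.map Tr.ofBool)

/-- Convert the raw string in register `0` to the code of its tree. -/
def inP : Prog := .seq (moveP 0 1) (.seq (.push 0 false) (.loop 1
  (.seq (.push 0 false) (.push 0 true))
  (.seq (.push 0 false) (.seq (.push 0 false) (.seq (.push 0 true) (.push 0 true))))))

theorem runs_inP (x : List Bool) : Runs inP 2 x (bitsTr x).bits (7 * x.length + 3) := by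
  intro S h0 hS
  have e1 : S 1 = [] := hS 1 (by omega) (by omega)
  have key : ∀ (l acc : List Bool) (S : Store), S 1 = l → S 0 = (bitsTr acc).bits →
      Exec (.loop 1 (.seq (.push 0 false) (.push 0 true))
        (.seq (.push 0 false) (.seq (.push 0 false) (.seq (.push 0 true) (.push 0 true))))) S
        (update (update S 1 []) 0 (bitsTr (l.reverse ++ acc)).bits) (5 * l.length + 1) := by
    intro l
    induction l with
    | nil =>
      intro acc S h1 h0
      exact (Exec.loopNil h1).of_eq (by simp only [List.reverse_nil, List.nil_append]; store_eq)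
        (by simp)
    | cons b l ih =>
      intro acc S h1 h0
      cases b
      · refine (Exec.loopFalse h1 ((Exec.push _ _ _).seq (Exec.push _ _ _))
          (ih (false :: acc) _ (by simp) ?_)).of_eq (by store_eq) (by simp; omega)
        simp [h0, bitsTr, Tr.ofList, Tr.ofBool, Tr.bits]
      · refine (Exec.loopTrue h1 ((Exec.push _ _ _).seq ((Exec.push _ _ _).seq
          ((Exec.push _ _ _).seq (Exec.push _ _ _))))
          (ih (true :: acc) _ (by simp) ?_)).of_eq (by store_eq) (by simp; omega)
        simp [h0, bitsTr, Tr.ofList, Tr.ofBool, Tr.bits]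
  have s1 := exec_move (a := 0) (b := 1) (by omega) x S h0
  have s2 := Exec.push 0 false (update (update S 0 []) 1 (x.reverse ++ S 1))
  have s3 := key x.reverse [] (update (update (update S 0 []) 1 (x.reverse ++ S 1)) 0
    (false :: update (update S 0 []) 1 (x.reverse ++ S 1) 0)) (by simp [e1])
    (by simp [bitsTr, Tr.ofList, Tr.bits])
  exact (s1.seq (s2.seq s3)).of_eq (by store_eq) (by simp; omega)

/-- Convert the code of the tree of a bit string back to the raw string. -/
def outP : Prog := .seq (.loop 0 .skip (.case 0 .skip (.push 1 false)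
  (.seq (popP 0) (.seq (popP 0) (.push 1 true))))) (moveP 1 0)

theorem runs_outP (y : List Bool) : Runs outP 2 (bitsTr y).bits y (9 * y.length + 4) := by
  intro S h0 hS
  have e1 : S 1 = [] := hS 1 (by omega) (by omega)
  have key : ∀ (l : List Bool) (S : Store), S 0 = (bitsTr l).bits →
      Exec (.loop 0 .skip (.case 0 .skip (.push 1 false)
        (.seq (popP 0) (.seq (popP 0) (.push 1 true))))) S
        (update (update S 0 []) 1 (l.reverse ++ S 1)) (7 * l.length + 3) := by
    intro l
    induction l with
    | nil =>
      intro S h0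
      exact (Exec.loopFalse (l := []) h0 (Exec.skip _) (Exec.loopNil (by simp))).of_eq
        (by store_eq) (by simp)
    | cons b l ih =>
      intro S h0
      cases b
      · refine (Exec.loopTrue (l := false :: (bitsTr l).bits) h0
          (Exec.caseFalse (l := (bitsTr l).bits) (by simp) (Exec.push _ _ _))
          (ih _ (by simp))).of_eq (by store_eq) (by simp; omega)
      · refine (Exec.loopTrue (l := true :: false :: false :: (bitsTr l).bits) h0
          (Exec.caseTrue (l := false :: false :: (bitsTr l).bits) (by simp)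
            ((exec_pop 0 _ false (false :: (bitsTr l).bits) (by simp)).seq
              ((exec_pop 0 _ false (bitsTr l).bits (by simp)).seq (Exec.push _ _ _))))
          (ih _ (by simp))).of_eq (by store_eq) (by simp; omega)
  have s1 := key y S h0
  have s2 := exec_move (a := 1) (b := 0) (by omega) y.reverse
    (update (update S 0 []) 1 (y.reverse ++ S 1)) (by simp [e1])
  exact (s1.seq s2).of_eq (by store_eq) (by simp; omega)

/-- From a tree computation to a machine: the program receives the reversed two-bits-per-symbol
transcription of the input and returns the output string. -/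
theorem timeBoundComputable_of_TC {α β G : Type} [Fintype G] (ea : α → List G)
    (eb : β → List Bool) (f : α → β) (c1 c2 : G → Bool) (t : α → ℕ) (T : ℕ → ℕ)
    (h : TC (fun a => bitsTr ((ea a).flatMap fun g => [c1 g, c2 g]).reverse)
      (fun a => bitsTr (eb (f a))) t)
    (hT : ∀ a, t a + 9 * (eb (f a)).length ≤ T (ea a).length) :
    Crest.DTime.TimeBoundComputable ea eb f (fun n => T n + 15 * n + 8) := by
  obtain ⟨P, n, h⟩ := h
  refine timeBoundComputable_mono (timeBoundComputable_of_exec ea eb f c1 c2
    (.seq inP (.seq P outP)) (fun n => T n + 14 * n + 7) fun a => ?_) (fun n => by omega)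
  have r := ((runs_inP ((ea a).flatMap fun g => [c1 g, c2 g]).reverse).mono
    (le_max_right n 2) le_rfl).seq (((h a).mono (le_max_left n 2) le_rfl).seq
      ((runs_outP (eb (f a))).mono (le_max_right n 2) le_rfl))
  have := r (single ((ea a).flatMap fun g => [c1 g, c2 g]).reverse) (by simp [single])
    (fun k hk _ => by
    simp [single, update_of_ne (Nat.pos_iff_ne_zero.mp hk)])
  refine this.of_eq (by simp [single]) ?_
  have hl : ((ea a).flatMap fun g => [c1 g, c2 g]).reverse.length = 2 * (ea a).length := by
    simp [List.length_flatMap, Nat.mul_comm]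
  have := hT a
  rw [hl]; omega

end Crest.Agent.Lib.PolyTime
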