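/-
Lib/PolyTime/Basic: encodable types `Enc`, encoded size `esize`, polynomial bounds `PB`,
polynomial-time functions `PT` and their core closure properties.  Author: helper82.

`PT` and `PB` are `fun_prop` properties: most goals close with `fun_prop`.
-/
import Crest.Agent.Lib.PolyTime.Tree

set_option autoImplicit false

namespace Crest.Agent.Lib.PolyTime

open Function

/-- Types with an injective encoding into binary trees. -/
class Enc (α : Type) where
  /-- the encoding -/
  enc : α → Tr
  /-- injectivity -/
  inj : Function.Injective enc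

export Enc (enc)

/-- Size of the code of a value. -/
def esize {α : Type} [Enc α] (a : α) : ℕ := (enc a).size

theorem Tr.ofBool_injective : Function.Injective Tr.ofBool := by
  intro a b h; cases a <;> cases b <;> simp_all [Tr.ofBool]

theorem Tr.ofList_injective : Function.Injective Tr.ofList := by
  intro a
  induction a with
  | nil => intro b h; cases b <;> simp_all [Tr.ofList]
  | cons x a ih =>
    intro b h
    cases b with
    | nil => simp [Tr.ofList] at h
    | cons y b =>
      simp only [Tr.ofList, Tr.cons.injEq] at h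
      rw [h.1, ih h.2]

/-- The number with the given binary digits (least significant first). -/
def ofBits (l : List Bool) : ℕ := l.foldr Nat.bit 0

@[simp] theorem ofBits_nil : ofBits [] = 0 := rfl
@[simp] theorem ofBits_cons (b : Bool) (l : List Bool) : ofBits (b :: l) = Nat.bit b (ofBits l) :=
  rfl

@[simp] theorem ofBits_bits (n : ℕ) : ofBits n.bits = n := by
  induction n using Nat.binaryRec' with
  | zero => simp
  | bit b n h ih => rw [Nat.bits_append_bit n b h, ofBits_cons, ih]

theorem bits_injective : Function.Injective Nat.bits := fun a b h => by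
  rw [← ofBits_bits a, h, ofBits_bits]

/-- Transport an encoding along an injective map. -/
@[reducible] def Enc.ofInj {α β : Type} [Enc β] (f : α → β) (hf : Function.Injective f) : Enc α :=
  ⟨fun a => enc (f a), Enc.inj.comp hf⟩

instance : Enc Tr := ⟨id, injective_id⟩
instance : Enc Unit := ⟨fun _ => Tr.nil, fun _ _ _ => rfl⟩
instance : Enc Bool := ⟨Tr.ofBool, Tr.ofBool_injective⟩
instance {α β : Type} [Enc α] [Enc β] : Enc (α × β) :=
  ⟨fun p => Tr.cons (enc p.1) (enc p.2), fun p q h => by
    simp only [Tr.cons.injEq] at h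
    exact Prod.ext (Enc.inj h.1) (Enc.inj h.2)⟩
instance {α : Type} [Enc α] : Enc (List α) :=
  ⟨fun l => Tr.ofList (l.map enc), fun _ _ h =>
    List.map_injective_iff.mpr Enc.inj (Tr.ofList_injective h)⟩
instance {α : Type} [Enc α] : Enc (Option α) :=
  Enc.ofInj Option.toList (fun a b h => by cases a <;> cases b <;> simp_all)
instance {α β : Type} [Enc α] [Enc β] : Enc (α ⊕ β) :=
  ⟨fun s => match s with
    | Sum.inl a => Tr.cons (Tr.ofBool false) (enc a)
    | Sum.inr b => Tr.cons (Tr.ofBool true) (enc b), fun s s' h => by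
    cases s <;> cases s' <;> simp only [Tr.cons.injEq, Tr.ofBool] at h
    · rw [Enc.inj h.2]
    · simp at h
    · simp at h
    · rw [Enc.inj h.2]⟩
/-- Numbers are lists of digits `(b, !b)`, so that the size only depends on the number of digits. -/
instance : Enc ℕ := Enc.ofInj (fun n => n.bits.map fun b => (b, !b)) (fun _ _ h =>
  bits_injective (List.map_injective_iff.mpr (fun _ _ e => (Prod.mk.inj e).1) h))
instance : Enc ℤ := Enc.ofInj (fun z => ((decide (z < 0), !decide (z < 0)), z.natAbs))
  (fun a b h => by simp only [Prod.mk.injEq, decide_eq_decide] at h; omega)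
instance : Enc ℚ := Enc.ofInj (fun q => (q.num, q.den)) (fun a b h => by
  simp only [Prod.mk.injEq] at h; exact Rat.ext h.1 h.2)
instance {α : Type} [Enc α] {p : α → Prop} : Enc {a // p a} :=
  Enc.ofInj Subtype.val Subtype.val_injective
instance {n : ℕ} : Enc (Fin n) := Enc.ofInj Fin.val Fin.val_injective
noncomputable instance : Enc Prop :=
  Enc.ofInj (fun p => @decide p (Classical.dec p)) (fun a b h => by simpa using h)

section sizes
variable {α β : Type} [Enc α] [Enc β]

theorem esize_pos (a : α) : 0 < esize a := Tr.size_pos _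
@[simp] theorem esize_unit (a : Unit) : esize a = 1 := rfl
theorem esize_bool_le (b : Bool) : esize b ≤ 3 := Tr.size_ofBool_le b
theorem esize_prop_le (p : Prop) : esize p ≤ 3 := Tr.size_ofBool_le _
@[simp] theorem esize_pair (a : α) (b : β) : esize (a, b) = esize a + esize b + 1 := rfl
theorem esize_prod (p : α × β) : esize p = esize p.1 + esize p.2 + 1 := rfl
@[simp] theorem esize_nil : esize ([] : List α) = 1 := rfl
@[simp] theorem esize_cons (a : α) (l : List α) : esize (a :: l) = esize a + esize l + 1 := rfl
@[simp] theorem esize_none : esize (none : Option α) = 1 := rfl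
@[simp] theorem esize_some (a : α) : esize (some a) = esize a + 2 := rfl
@[simp] theorem esize_inl (a : α) : esize (Sum.inl a : α ⊕ β) = esize a + 2 := by
  show 1 + esize a + 1 = _; omega
@[simp] theorem esize_inr (b : β) : esize (Sum.inr b : α ⊕ β) = esize b + 4 := by
  show 3 + esize b + 1 = _; omega
@[simp] theorem esize_subtype {p : α → Prop} (a : {a // p a}) : esize a = esize a.1 := rfl
@[simp] theorem esize_fin {n : ℕ} (a : Fin n) : esize a = esize a.1 := rfl
theorem esize_digit (b : Bool) : esize (b, !b) = 5 := by cases b <;> rfl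
theorem esize_int (z : ℤ) : esize z = esize z.natAbs + 6 := by
  show esize (decide (z < 0), !decide (z < 0)) + esize z.natAbs + 1 = _
  rw [esize_digit]; omega
theorem esize_rat (q : ℚ) : esize q = esize q.num + esize q.den + 1 := rfl

theorem esize_list (l : List α) : esize l = (l.map fun a => esize a + 1).sum + 1 := by
  induction l with
  | nil => rfl
  | cons a l ih => simp [ih]; omega

theorem length_lt_esize (l : List α) : l.length < esize l := by
  induction l with
  | nil => simp
  | cons a l ih => simp; omega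

theorem two_mul_length_lt_esize (l : List α) : 2 * l.length < esize l := by
  induction l with
  | nil => simp
  | cons a l ih => have := esize_pos a; simp; omega

theorem esize_lt_of_mem {a : α} {l : List α} (h : a ∈ l) : esize a < esize l := by
  induction l with
  | nil => simp at h
  | cons b l ih =>
    rcases List.mem_cons.mp h with rfl | h
    · simp
    · have := ih h; simp; omega

@[simp] theorem esize_append (l l' : List α) : esize (l ++ l') + 1 = esize l + esize l' := by
  induction l with
  | nil => simp; omega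
  | cons a l ih => simp; omega

theorem esize_append_le (l l' : List α) : esize (l ++ l') ≤ esize l + esize l' := by
  have := esize_append l l'; omega

@[simp] theorem esize_reverse (l : List α) : esize l.reverse = esize l := by
  simp [esize_list, List.sum_reverse]

theorem esize_perm {l l' : List α} (h : l.Perm l') : esize l = esize l' := by
  rw [esize_list, esize_list, (h.map _).sum_eq]

theorem esize_sublist {l l' : List α} (h : l.Sublist l') : esize l ≤ esize l' := by
  induction h with
  | slnil => simp
  | cons a _ ih => simp; omega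
  | cons_cons a _ ih => simp; omega

theorem esize_list_le {l : List α} {B : ℕ} (h : ∀ a ∈ l, esize a ≤ B) :
    esize l ≤ l.length * (B + 1) + 1 := by
  induction l with
  | nil => simp
  | cons a l ih =>
    have h1 := h a (by simp)
    have h2 := ih fun x hx => h x (by simp [hx])
    simp only [esize_cons, List.length_cons]
    nlinarith

theorem esize_boolList_le (l : List Bool) : esize l ≤ 4 * l.length + 1 := by
  have := esize_list_le (l := l) (B := 3) fun a _ => esize_bool_le a
  omega

theorem esize_nat (n : ℕ) : esize n = 6 * n.size + 1 := by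
  show esize (n.bits.map fun b => (b, !b)) = _
  rw [← Nat.size_eq_bits_len]
  generalize n.bits = l
  induction l with
  | nil => rfl
  | cons b l ih => rw [List.map_cons, esize_cons, ih, esize_digit, List.length_cons]; omega

theorem size_lt_esize (n : ℕ) : n.size < esize n := by rw [esize_nat]; omega

theorem lt_two_pow_esize (n : ℕ) : n < 2 ^ esize n :=
  (Nat.lt_size_self n).trans_le (Nat.pow_le_pow_right (by omega) (size_lt_esize n).le)

theorem esize_nat_le_of_lt_two_pow {n k : ℕ} (h : n < 2 ^ k) : esize n ≤ 6 * k + 1 := by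
  have := esize_nat n
  have := Nat.size_le.mpr h
  omega

theorem esize_nat_le_of_le_two_pow {n k : ℕ} (h : n ≤ 2 ^ k) : esize n ≤ 6 * k + 7 := by
  have : n < 2 ^ (k + 1) := by
    have : 0 < 2 ^ k := by positivity
    rw [pow_succ]; omega
  have := esize_nat_le_of_lt_two_pow this
  omega

theorem esize_nat_le_self (n : ℕ) : esize n ≤ 6 * n + 1 :=
  esize_nat_le_of_lt_two_pow Nat.lt_two_pow_self

@[gcongr] theorem esize_nat_mono {m n : ℕ} (h : m ≤ n) : esize m ≤ esize n := by
  have := Nat.size_le_size h
  rw [esize_nat, esize_nat]; omega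

@[simp] theorem esize_nat_zero : esize (0 : ℕ) = 1 := by simp [esize_nat]
@[simp] theorem esize_nat_one : esize (1 : ℕ) = 7 := by simp [esize_nat]

theorem natSize_mul_le (a b : ℕ) : (a * b).size ≤ a.size + b.size := by
  rw [Nat.size_le, pow_add]
  exact Nat.mul_lt_mul'' (Nat.lt_size_self a) (Nat.lt_size_self b)

theorem natSize_add_le_max (a b : ℕ) : (a + b).size ≤ max a.size b.size + 1 := by
  rw [Nat.size_le, pow_succ]
  have h1 := (Nat.lt_size_self a).trans_le
    (Nat.pow_le_pow_right (by omega) (le_max_left a.size b.size))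
  have h2 := (Nat.lt_size_self b).trans_le
    (Nat.pow_le_pow_right (by omega) (le_max_right a.size b.size))
  omega

theorem natSize_add_le (a b : ℕ) : (a + b).size ≤ a.size + b.size := by
  rcases Nat.eq_zero_or_pos a with rfl | ha
  · simp
  rcases Nat.eq_zero_or_pos b with rfl | hb
  · simp
  have h1 := Nat.size_pos.mpr ha
  have h2 := Nat.size_pos.mpr hb
  have := natSize_add_le_max a b
  omega

theorem esize_nat_add_le (a b : ℕ) : esize (a + b) ≤ esize a + esize b := by
  have := natSize_add_le a b
  simp only [esize_nat]; omega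

theorem esize_nat_mul_le (a b : ℕ) : esize (a * b) ≤ esize a + esize b := by
  have := natSize_mul_le a b
  simp only [esize_nat]; omega

theorem esize_nat_succ_le (a : ℕ) : esize (a + 1) ≤ esize a + 6 := by
  have := natSize_add_le a 1
  simp only [esize_nat, Nat.size_one] at *; omega

theorem esize_int_mono {a b : ℤ} (h : a.natAbs ≤ b.natAbs) : esize a ≤ esize b := by
  have := esize_nat_mono h
  simp only [esize_int]; omega

theorem esize_int_add_le (a b : ℤ) : esize (a + b) ≤ esize a + esize b := by
  have h1 := esize_nat_mono (Int.natAbs_add_le a b)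
  have h2 := esize_nat_add_le a.natAbs b.natAbs
  simp only [esize_int]; omega

theorem esize_int_sub_le (a b : ℤ) : esize (a - b) ≤ esize a + esize b := by
  have h1 := esize_nat_mono (Int.natAbs_sub_le a b)
  have h2 := esize_nat_add_le a.natAbs b.natAbs
  simp only [esize_int]; omega

theorem esize_int_mul_le (a b : ℤ) : esize (a * b) ≤ esize a + esize b := by
  have h2 := esize_nat_mul_le a.natAbs b.natAbs
  simp only [esize_int, Int.natAbs_mul]; omega

@[simp] theorem esize_int_neg (a : ℤ) : esize (-a) = esize a := by simp [esize_int]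

@[simp] theorem esize_int_natCast (n : ℕ) : esize (n : ℤ) = esize n + 6 := by simp [esize_int]

theorem natAbs_lt_two_pow_esize (z : ℤ) : z.natAbs < 2 ^ esize z :=
  (lt_two_pow_esize _).trans_le (Nat.pow_le_pow_right (by omega) (by rw [esize_int]; omega))

end sizes

/-! ### Polynomial bounds -/

/-- `g` is bounded by a polynomial in the size of its argument. -/
@[fun_prop] def PB {α : Type} [Enc α] (g : α → ℕ) : Prop :=
  ∃ k : ℕ, ∀ a, g a ≤ (esize a + 1) ^ k

/-- `f` is computable in polynomial time (on codes). -/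
@[fun_prop] def PT {α β : Type} [Enc α] [Enc β] (f : α → β) : Prop :=
  ∃ t : α → ℕ, PB t ∧ TC enc (fun a => enc (f a)) t

section PB
variable {α β : Type} [Enc α] [Enc β]

theorem pow_le_pow_esize (a : α) {k k' : ℕ} (h : k ≤ k') :
    (esize a + 1) ^ k ≤ (esize a + 1) ^ k' := Nat.pow_le_pow_right (by omega) h

theorem PB.mono {g g' : α → ℕ} (h : PB g') (hg : ∀ a, g a ≤ g' a) : PB g := by
  obtain ⟨k, h⟩ := h
  exact ⟨k, fun a => (hg a).trans (h a)⟩

@[fun_prop] theorem PB.const (c : ℕ) : PB (fun _ : α => c) :=
  ⟨c, fun a => Nat.lt_two_pow_self.le.trans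
    (Nat.pow_le_pow_left (by have := esize_pos a; omega) c)⟩

@[fun_prop] theorem PB.add {f g : α → ℕ} (hf : PB f) (hg : PB g) : PB (fun a => f a + g a) := by
  obtain ⟨k, hf⟩ := hf
  obtain ⟨l, hg⟩ := hg
  refine ⟨max k l + 1, fun a => ?_⟩
  have h1 := (hf a).trans (pow_le_pow_esize a (le_max_left k l))
  have h2 := (hg a).trans (pow_le_pow_esize a (le_max_right k l))
  have h3 := esize_pos a
  rw [pow_succ]
  nlinarith

@[fun_prop] theorem PB.mul {f g : α → ℕ} (hf : PB f) (hg : PB g) : PB (fun a => f a * g a) := by
  obtain ⟨k, hf⟩ := hf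
  obtain ⟨l, hg⟩ := hg
  exact ⟨k + l, fun a => by rw [pow_add]; exact Nat.mul_le_mul (hf a) (hg a)⟩

@[fun_prop] theorem PB.pow {f : α → ℕ} (hf : PB f) (m : ℕ) : PB (fun a => f a ^ m) := by
  obtain ⟨k, hf⟩ := hf
  exact ⟨k * m, fun a => by rw [pow_mul]; exact Nat.pow_le_pow_left (hf a) m⟩

@[fun_prop] theorem PB.succ {f : α → ℕ} (hf : PB f) : PB (fun a => (f a).succ) :=
  hf.add (PB.const 1)

@[fun_prop] theorem PB.sub {f g : α → ℕ} (hf : PB f) : PB (fun a => f a - g a) :=
  hf.mono fun _ => Nat.sub_le _ _

@[fun_prop] theorem PB.div {f g : α → ℕ} (hf : PB f) : PB (fun a => f a / g a) :=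
  hf.mono fun _ => Nat.div_le_self _ _

@[fun_prop] theorem PB.max {f g : α → ℕ} (hf : PB f) (hg : PB g) : PB (fun a => max (f a) (g a)) :=
  (hf.add hg).mono fun _ => by omega

@[fun_prop] theorem PB.min_left {f g : α → ℕ} (hf : PB f) : PB (fun a => min (f a) (g a)) :=
  hf.mono fun _ => by omega

@[fun_prop] theorem PB.min_right {f g : α → ℕ} (hg : PB g) : PB (fun a => min (f a) (g a)) :=
  hg.mono fun _ => by omega

@[fun_prop] theorem PB.ite {c : α → Prop} [∀ a, Decidable (c a)] {f g : α → ℕ} (hf : PB f)
    (hg : PB g) : PB (fun a => if c a then f a else g a) :=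
  (hf.add hg).mono fun _ => by split_ifs <;> omega

@[fun_prop] theorem PB.eval (p : Polynomial ℕ) {f : α → ℕ} (hf : PB f) :
    PB (fun a => p.eval (f a)) := by
  induction p using Polynomial.induction_on' with
  | add p q hp hq => simpa using hp.add hq
  | monomial n c => simpa using (PB.const c).mul (hf.pow n)

theorem PB.esize_id : PB (fun a : α => esize a) := ⟨1, fun a => by simp⟩

/-- A polynomial bound in terms of a bound on the size. -/
theorem PB.exists_bound {g : β → ℕ} (hg : PB g) {s : α → ℕ} (hs : PB s) :
    ∃ B : α → ℕ, PB B ∧ ∀ a b, esize b ≤ s a → g b ≤ B a := by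
  obtain ⟨k, hg⟩ := hg
  exact ⟨fun a => (s a + 1) ^ k, (hs.add (PB.const 1)).pow k, fun a b h =>
    (hg b).trans (Nat.pow_le_pow_left (by omega) k)⟩

theorem PB.comp_of_esize {g : β → ℕ} {f : α → β} (hg : PB g) (hf : PB fun a => esize (f a)) :
    PB (fun a => g (f a)) := by
  obtain ⟨B, hB, h⟩ := hg.exists_bound hf
  exact hB.mono fun a => h a _ le_rfl

@[fun_prop] theorem PB.esize {f : α → β} (hf : PT f) : PB (fun a => esize (f a)) := by
  obtain ⟨t, ht, h⟩ := hf
  exact (PB.esize_id.add ht).mono fun a => h.size_le a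

@[fun_prop] theorem PB.comp {g : β → ℕ} {f : α → β} (hg : PB g) (hf : PT f) :
    PB (fun a => g (f a)) := hg.comp_of_esize (PB.esize hf)

@[fun_prop] theorem PB.length {l : α → List β} (hl : PT l) : PB (fun a => (l a).length) :=
  (PB.esize hl).mono fun _ => (length_lt_esize _).le

@[fun_prop] theorem PB.natSize {f : α → ℕ} (hf : PT f) : PB (fun a => (f a).size) :=
  (PB.esize hf).mono fun _ => (size_lt_esize _).le

end PB

/-! ### Core closure properties of `PT` -/

namespace PT
variable {α β γ δ : Type} [Enc α] [Enc β] [Enc γ] [Enc δ]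

theorem of_eq {f g : α → β} (h : PT f) (e : ∀ a, f a = g a) : PT g := funext e ▸ h

/-- A map that does not change codes. -/
theorem of_enc_eq {f : α → β} (e : ∀ a, enc (f a) = enc a) : PT f :=
  ⟨_, PB.const 1, (TC.id _).congr (fun _ => rfl) e⟩

@[fun_prop] theorem id' : PT (fun a : α => a) := of_enc_eq fun _ => rfl

@[fun_prop] theorem comp {f : β → γ} {g : α → β} (hf : PT f) (hg : PT g) :
    PT (fun a => f (g a)) := by
  have hs := PB.esize hg
  obtain ⟨t, ht, hf⟩ := hf
  obtain ⟨t', ht', hg⟩ := hg
  exact ⟨_, ht'.add (ht.comp_of_esize hs), hg.comp (hf.reindex g)⟩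

/-- Same output codes. -/
theorem of_enc_eq_out {f : α → β} {g : α → γ} (h : PT f) (e : ∀ a, enc (g a) = enc (f a)) :
    PT g := by
  obtain ⟨t, ht, h⟩ := h
  exact ⟨t, ht, h.congr (fun _ => rfl) e⟩

@[fun_prop] theorem prodMk {f : α → β} {g : α → γ} (hf : PT f) (hg : PT g) :
    PT (fun a => (f a, g a)) := by
  have hs := PB.esize hf
  have hs' := PB.esize hg
  have hi : PB (fun a : α => esize a) := PB.esize_id
  obtain ⟨t, ht, hf⟩ := hf
  obtain ⟨t', ht', hg⟩ := hg
  refine ⟨fun a => t a + t' a + 7 * esize a + 4 * esize (f a) + 4 * esize (g a) + 8, ?_,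
    hf.pair hg⟩
  fun_prop

theorem fst' : PT (Prod.fst : α × β → α) :=
  ⟨fun p => 7 * esize p, (PB.const 7).mul PB.esize_id,
    TC.fst (fun p : α × β => enc p.1) (fun p => enc p.2)⟩

theorem snd' : PT (Prod.snd : α × β → β) :=
  ⟨fun p => 7 * esize p, (PB.const 7).mul PB.esize_id,
    TC.snd (fun p : α × β => enc p.1) (fun p => enc p.2)⟩

@[fun_prop] theorem fst {f : α → β × γ} (hf : PT f) : PT (fun a => (f a).1) := fst'.comp hf
@[fun_prop] theorem snd {f : α → β × γ} (hf : PT f) : PT (fun a => (f a).2) := snd'.comp hf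

theorem const_tr (c : Tr) : PT (fun _ : α => c) := by
  induction c with
  | nil =>
    exact ⟨fun a => 2 * esize a + 2, ((PB.const 2).mul PB.esize_id).add (PB.const 2), TC.nil _⟩
  | cons x y ihx ihy => exact (ihx.prodMk ihy).of_enc_eq_out fun _ => rfl

@[fun_prop] theorem const (c : β) : PT (fun _ : α => c) :=
  (const_tr (enc c)).of_enc_eq_out fun _ => rfl

@[fun_prop] theorem enc' {f : α → β} (hf : PT f) : PT (fun a => enc (f a)) :=
  hf.of_enc_eq_out fun _ => rfl

@[fun_prop] theorem subtypeVal {p : β → Prop} {f : α → {b // p b}} (hf : PT f) :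
    PT (fun a => (f a).1) := hf.of_enc_eq_out fun _ => rfl

@[fun_prop] theorem subtypeMk {p : β → Prop} {f : α → β} (hf : PT f) (h : ∀ a, p (f a)) :
    PT (fun a => (⟨f a, h a⟩ : {b // p b})) := hf.of_enc_eq_out fun _ => rfl

@[fun_prop] theorem finVal {n : ℕ} {f : α → Fin n} (hf : PT f) : PT (fun a => (f a).1) :=
  hf.of_enc_eq_out fun _ => rfl

@[fun_prop] theorem finMk {n : ℕ} {f : α → ℕ} (hf : PT f) (h : ∀ a, f a < n) :
    PT (fun a => (⟨f a, h a⟩ : Fin n)) := hf.of_enc_eq_out fun _ => rfl

/-- Restrict to a subtype. -/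
theorem restrict {f : α → β} (hf : PT f) (p : α → Prop) : PT (fun a : {a // p a} => f a.1) :=
  hf.comp (subtypeVal id')

@[fun_prop] theorem decide {p : α → Prop} [∀ a, Decidable (p a)] (hp : PT p) :
    PT (fun a => decide (p a)) :=
  hp.of_enc_eq_out fun a => by
    show Tr.ofBool _ = Tr.ofBool _
    congr

theorem of_decide {p : α → Prop} [∀ a, Decidable (p a)] (hp : PT fun a => Decidable.decide (p a)) :
    PT p :=
  hp.of_enc_eq_out fun a => by
    show Tr.ofBool _ = Tr.ofBool _
    congr 1
    simp

/-- A predicate decided by a polynomial-time test. -/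
theorem of_bool {p : α → Prop} {f : α → Bool} (hf : PT f) (h : ∀ a, p a ↔ f a = true) : PT p :=
  hf.of_enc_eq_out fun a => by
    show Tr.ofBool _ = Tr.ofBool _
    congr
    cases hfa : f a <;> simp [h, hfa]

theorem of_iff {p q : α → Prop} (hp : PT p) (h : ∀ a, p a ↔ q a) : PT q :=
  hp.of_eq fun a => propext (h a)

/-- Branch on a Boolean test; each branch only has to be polynomial-time on its part. -/
theorem cond_sub {c : α → Bool} {out : α → β} (hc : PT c)
    (h1 : PT fun a : {a // c a = true} => out a.1)
    (h2 : PT fun a : {a // c a = false} => out a.1) : PT out := by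
  obtain ⟨t1, ⟨k1, ht1⟩, h1⟩ := h1
  obtain ⟨t2, ⟨k2, ht2⟩, h2⟩ := h2
  obtain ⟨t, ht, h⟩ := hc.prodMk (id' (α := α))
  have hi : PB (fun a : α => esize a) := PB.esize_id
  refine ⟨fun a => t a + ((esize a + 1) ^ (max k1 k2) + 7), by fun_prop, h.comp
    (TC.cond (e := enc) (out := fun a => enc (out a)) c
      (t := fun a => (esize a + 1) ^ (max k1 k2)) (h1.mono fun a => ?_) (h2.mono fun a => ?_))⟩
  · exact (ht1 a).trans (pow_le_pow_esize a (le_max_left _ _))
  · exact (ht2 a).trans (pow_le_pow_esize a (le_max_right _ _))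

/-- Case distinction on a polynomial-time predicate; each branch only has to be polynomial-time on
its part of the domain. -/
theorem cases_sub {c : α → Prop} {out : α → β} (hc : PT c)
    (h1 : PT fun a : {a // c a} => out a.1) (h2 : PT fun a : {a // ¬ c a} => out a.1) :
    PT out := by
  classical
  refine cond_sub (c := fun a => Decidable.decide (c a)) hc.decide ?_ ?_
  · exact h1.comp (g := fun a : {a // Decidable.decide (c a) = true} =>
      (⟨a.1, by simpa using a.2⟩ : {a // c a})) (of_enc_eq fun _ => rfl)
  · exact h2.comp (g := fun a : {a // Decidable.decide (c a) = false} =>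
      (⟨a.1, by simpa using a.2⟩ : {a // ¬ c a})) (of_enc_eq fun _ => rfl)

@[fun_prop] theorem ite {c : α → Prop} [∀ a, Decidable (c a)] {f g : α → β} (hc : PT c)
    (hf : PT f) (hg : PT g) : PT (fun a => if c a then f a else g a) :=
  cases_sub hc ((hf.restrict _).of_eq fun a => by simp [a.2])
    ((hg.restrict _).of_eq fun a => by simp [a.2])

theorem dite {c : α → Prop} [∀ a, Decidable (c a)] {f : ∀ a, c a → β} {g : ∀ a, ¬ c a → β}
    (hc : PT c) (hf : PT fun a : {a // c a} => f a.1 a.2)
    (hg : PT fun a : {a // ¬ c a} => g a.1 a.2) :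
    PT (fun a => if h : c a then f a h else g a h) :=
  cases_sub hc (hf.of_eq fun a => by simp [a.2]) (hg.of_eq fun a => by simp [a.2])

@[fun_prop] theorem cond {c : α → Bool} {f g : α → β} (hc : PT c) (hf : PT f) (hg : PT g) :
    PT (fun a => cond (c a) (f a) (g a)) :=
  cond_sub hc ((hf.restrict _).of_eq fun a => by simp [a.2])
    ((hg.restrict _).of_eq fun a => by simp [a.2])

theorem eq_true {c : α → Bool} (hc : PT c) : PT (fun a => c a = true) := hc.of_bool fun _ => Iff.rfl

@[fun_prop] theorem not {p : α → Prop} (hp : PT p) : PT (fun a => ¬ p a) := by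
  classical
  exact (hp.ite (const False) (const True)).of_iff fun a => by by_cases h : p a <;> simp [h]

@[fun_prop] theorem and {p q : α → Prop} (hp : PT p) (hq : PT q) : PT (fun a => p a ∧ q a) := by
  classical
  exact (hp.ite hq (const False)).of_iff fun a => by by_cases h : p a <;> simp [h]

@[fun_prop] theorem or {p q : α → Prop} (hp : PT p) (hq : PT q) : PT (fun a => p a ∨ q a) := by
  classical
  exact (hp.ite (const True) hq).of_iff fun a => by by_cases h : p a <;> simp [h]

@[fun_prop] theorem iff {p q : α → Prop} (hp : PT p) (hq : PT q) : PT (fun a => p a ↔ q a) := by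
  classical
  exact (hp.ite hq hq.not).of_iff fun a => by by_cases h : p a <;> simp [h]

theorem imp {p q : α → Prop} (hp : PT p) (hq : PT q) : PT (fun a => p a → q a) :=
  (hp.not.or hq).of_iff fun a => by tauto

@[fun_prop] theorem bnot {f : α → Bool} (hf : PT f) : PT (fun a => !f a) :=
  (hf.cond (const false) (const true)).of_eq fun a => by cases f a <;> rfl

@[fun_prop] theorem band {f g : α → Bool} (hf : PT f) (hg : PT g) : PT (fun a => f a && g a) :=
  (hf.cond hg (const false)).of_eq fun a => by cases f a <;> rfl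

@[fun_prop] theorem bor {f g : α → Bool} (hf : PT f) (hg : PT g) : PT (fun a => f a || g a) :=
  (hf.cond (const true) hg).of_eq fun a => by cases f a <;> rfl

@[fun_prop] theorem bxor {f g : α → Bool} (hf : PT f) (hg : PT g) : PT (fun a => xor (f a) (g a)) :=
  (hf.cond hg.bnot hg).of_eq fun a => by cases f a <;> cases g a <;> rfl

/-- Is the code a leaf? -/
theorem enc_eq_nil {f : α → β} (hf : PT f) : PT (fun a => enc (f a) = Tr.nil) := by
  have h : PT (fun b : β => Decidable.decide (enc b ≠ Tr.nil)) :=
    ⟨fun b => 2 * esize b + 5, ((PB.const 2).mul PB.esize_id).add (PB.const 5), TC.isCons _⟩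
  exact ((h.comp hf).bnot).of_bool fun a => by simp

/-! #### Loops -/

/-- Explicit running time of a while loop with polynomial-time test and body. -/
theorem whileLoop_time {step : γ → γ} {cont : γ → Bool} (hstep : PT step) (hcont : PT cont) :
    ∃ k : ℕ, ∀ {ι : Type} (ini : ι → γ) (N B : ι → ℕ),
      (∀ a i, i < N a → cont (step^[i] (ini a)) = true) →
      (∀ a, cont (step^[N a] (ini a)) = false) →
      (∀ a i, i ≤ N a → esize (step^[i] (ini a)) ≤ B a) →
      TC (fun a => enc (ini a)) (fun a => enc (step^[N a] (ini a)))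
        (fun a => (N a + 1) * ((B a + 1) ^ k + 9) + 2) := by
  obtain ⟨t, ⟨k, ht⟩, h⟩ := hcont.prodMk (hcont.cond hstep id')
  refine ⟨k, fun {ι} ini N B h1 h2 hsz => ?_⟩
  have := TC.doWhile (fun a i => enc (step^[min i (N a)] (ini a))) N (fun a _ => (B a + 1) ^ k)
    (((h.reindex (fun p : (a : ι) ×' {i : ℕ // i ≤ N a} => step^[p.2.1] (ini p.1))).mono
      fun p => (ht _).trans (Nat.pow_le_pow_left (by have := hsz p.1 p.2.1 p.2.2; omega) k)).congr
      (fun p => by rw [min_eq_left p.2.2]) (fun p => ?_))
  · refine (this.congr (fun a => by simp) (fun a => by simp)).mono fun a => by simp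
  · obtain ⟨a, i, hi⟩ := p
    show _ = Tr.cons (Tr.ofBool _) (enc _)
    rcases hi.lt_or_eq with hlt | rfl
    · simp only [h1 a i hlt, hlt, decide_true, cond_true]
      rw [min_eq_left (by omega), iterate_succ_apply']
    · simp [h2 a]

/-- While loop: `N a` rounds are executed, the states have size at most `B a`. -/
theorem whileLoop {step : γ → γ} {cont : γ → Bool} {ini : α → γ} {N : α → ℕ} (B : α → ℕ)
    (hstep : PT step) (hcont : PT cont) (hini : PT ini) (hN : PB N) (hB : PB B)
    (h1 : ∀ a i, i < N a → cont (step^[i] (ini a)) = true)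
    (h2 : ∀ a, cont (step^[N a] (ini a)) = false)
    (hsz : ∀ a i, i ≤ N a → esize (step^[i] (ini a)) ≤ B a) :
    PT fun a => step^[N a] (ini a) := by
  obtain ⟨k, h⟩ := whileLoop_time hstep hcont
  obtain ⟨t, ht, hini⟩ := hini
  exact ⟨_, by fun_prop, hini.comp (h ini N B h1 h2 hsz)⟩

end PT

end Crest.Agent.Lib.PolyTime
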