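/-
Lib/PolyTime/List: lists, options, sums, folds and equality are polynomial-time.
Author: helper82.
-/
import Crest.Agent.Lib.PolyTime.Basic

set_option autoImplicit false

namespace Crest.Agent.Lib.PolyTime

open Function

namespace PT
variable {α β γ δ : Type} [Enc α] [Enc β] [Enc γ] [Enc δ]

@[fun_prop] theorem cons {f : α → β} {l : α → List β} (hf : PT f) (hl : PT l) :
    PT (fun a => f a :: l a) := (hf.prodMk hl).of_enc_eq_out fun _ => rfl

theorem eq_nil {l : α → List β} (hl : PT l) : PT (fun a => l a = []) :=
  hl.enc_eq_nil.of_iff fun a => by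
    cases l a with
    | nil => exact ⟨fun _ => rfl, fun _ => rfl⟩
    | cons x xs => exact ⟨fun h => (by cases h), fun h => (by cases h)⟩

@[fun_prop] theorem isEmpty {l : α → List β} (hl : PT l) : PT (fun a => (l a).isEmpty) :=
  hl.eq_nil.decide.of_eq fun a => by cases l a <;> simp

@[fun_prop] theorem list_casesOn {l : α → List β} {f : α → γ} {g : α → β → List β → γ}
    (hl : PT l) (hf : PT f) (hg : PT fun p : α × β × List β => g p.1 p.2.1 p.2.2) :
    PT fun a => List.casesOn (motive := fun _ => γ) (l a) (f a) (g a) := by
  refine cases_sub hl.eq_nil ((hf.restrict _).of_eq fun a => by rw [a.2]) ?_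
  have h : PT fun a : {a // ¬ l a = []} => ((l a.1).head a.2, (l a.1).tail) :=
    (hl.restrict _).of_enc_eq_out fun a => by
      have : ∀ (x : List β) (hx : x ≠ []), enc (x.head hx, x.tail) = enc x := by
        intro x hx
        cases x with
        | nil => exact absurd rfl hx
        | cons x xs => rfl
      exact this _ a.2
  refine (hg.comp ((subtypeVal id').prodMk h)).of_eq fun a => ?_
  have : ∀ (x : List β) (hx : x ≠ []), g a.1 (x.head hx) x.tail =
      List.casesOn (motive := fun _ => γ) x (f a.1) (g a.1) := by
    intro x hx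
    cases x with
    | nil => exact absurd rfl hx
    | cons x xs => rfl
  exact this _ a.2

@[fun_prop] theorem tail {l : α → List β} (hl : PT l) : PT (fun a => (l a).tail) :=
  (hl.list_casesOn (const []) (g := fun _ _ xs => xs) (by fun_prop)).of_eq fun a => by
    cases l a <;> rfl

@[fun_prop] theorem headD {l : α → List β} {d : α → β} (hl : PT l) (hd : PT d) :
    PT (fun a => (l a).headD (d a)) :=
  (hl.list_casesOn hd (g := fun _ x _ => x) (by fun_prop)).of_eq fun a => by cases l a <;> rfl

@[fun_prop] theorem headI [Inhabited β] {l : α → List β} (hl : PT l) :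
    PT (fun a => (l a).headI) :=
  (hl.headD (const default)).of_eq fun a => by cases l a <;> rfl

/-! #### Options and sums -/

@[fun_prop] theorem some {f : α → β} (hf : PT f) : PT (fun a => Option.some (f a)) :=
  (hf.cons (const [])).of_enc_eq_out fun _ => rfl

@[fun_prop] theorem toList {o : α → Option β} (ho : PT o) : PT (fun a => (o a).toList) :=
  ho.of_enc_eq_out fun _ => rfl

@[fun_prop] theorem option_casesOn {o : α → Option β} {f : α → γ} {g : α → β → γ}
    (ho : PT o) (hf : PT f) (hg : PT fun p : α × β => g p.1 p.2) :
    PT fun a => Option.casesOn (motive := fun _ => γ) (o a) (f a) (g a) :=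
  (ho.toList.list_casesOn hf (g := fun a x _ => g a x)
    (hg.comp (g := fun p : α × β × List β => (p.1, p.2.1)) (by fun_prop))).of_eq fun a => by
      cases o a <;> rfl

@[fun_prop] theorem head? {l : α → List β} (hl : PT l) : PT (fun a => (l a).head?) :=
  (hl.list_casesOn (const none) (g := fun _ x _ => Option.some x) (by fun_prop)).of_eq fun a => by
    cases l a <;> rfl

@[fun_prop] theorem option_elim {o : α → Option β} {f : α → γ} {g : α → β → γ}
    (ho : PT o) (hf : PT f) (hg : PT fun p : α × β => g p.1 p.2) :
    PT fun a => (o a).elim (f a) (g a) :=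
  (ho.option_casesOn hf hg).of_eq fun a => by cases o a <;> rfl

@[fun_prop] theorem option_getD {o : α → Option β} {d : α → β} (ho : PT o) (hd : PT d) :
    PT fun a => (o a).getD (d a) :=
  (ho.option_casesOn hd (g := fun _ x => x) (by fun_prop)).of_eq fun a => by cases o a <;> rfl

@[fun_prop] theorem option_map {o : α → Option β} {g : α → β → γ} (ho : PT o)
    (hg : PT fun p : α × β => g p.1 p.2) : PT fun a => (o a).map (g a) :=
  (ho.option_casesOn (const none) (g := fun a x => Option.some (g a x)) hg.some).of_eq fun a => by
    cases o a <;> rfl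

@[fun_prop] theorem option_bind {o : α → Option β} {g : α → β → Option γ} (ho : PT o)
    (hg : PT fun p : α × β => g p.1 p.2) : PT fun a => (o a).bind (g a) :=
  (ho.option_casesOn (const none) hg).of_eq fun a => by cases o a <;> rfl

@[fun_prop] theorem isSome {o : α → Option β} (ho : PT o) : PT fun a => (o a).isSome :=
  ho.toList.isEmpty.bnot.of_eq fun a => by cases o a <;> rfl

@[fun_prop] theorem isNone {o : α → Option β} (ho : PT o) : PT fun a => (o a).isNone :=
  ho.toList.isEmpty.of_eq fun a => by cases o a <;> rfl

@[fun_prop] theorem inl {f : α → β} (hf : PT f) : PT (fun a => (Sum.inl (f a) : β ⊕ γ)) :=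
  ((const false).prodMk hf).of_enc_eq_out fun _ => rfl

@[fun_prop] theorem inr {f : α → γ} (hf : PT f) : PT (fun a => (Sum.inr (f a) : β ⊕ γ)) :=
  ((const true).prodMk hf).of_enc_eq_out fun _ => rfl

theorem sum_split {s : α → β ⊕ γ} (hs : PT s) :
    PT (fun a => ((s a).isRight, (s a).elim enc enc)) :=
  hs.of_enc_eq_out fun a => by cases s a <;> rfl

@[fun_prop] theorem isRight {s : α → β ⊕ γ} (hs : PT s) : PT (fun a => (s a).isRight) :=
  hs.sum_split.fst

@[fun_prop] theorem isLeft {s : α → β ⊕ γ} (hs : PT s) : PT (fun a => (s a).isLeft) :=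
  hs.isRight.bnot.of_eq fun a => by cases s a <;> rfl

@[fun_prop] theorem sum_casesOn {s : α → β ⊕ γ} {f : α → β → δ} {g : α → γ → δ} (hs : PT s)
    (hf : PT fun p : α × β => f p.1 p.2) (hg : PT fun p : α × γ => g p.1 p.2) :
    PT fun a => Sum.casesOn (motive := fun _ => δ) (s a) (f a) (g a) := by
  refine cond_sub hs.isRight ?_ ?_
  · have h : PT fun a : {a // (s a).isRight = true} => (s a.1).getRight a.2 :=
      (hs.sum_split.snd.restrict _).of_enc_eq_out fun a => by
        have : ∀ (x : β ⊕ γ) (hx : x.isRight = true),
            enc (x.getRight hx) = enc (x.elim enc enc : Tr) := by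
          intro x hx
          cases x with
          | inl x => simp at hx
          | inr x => rfl
        exact this _ a.2
    refine (hg.comp ((subtypeVal id').prodMk h)).of_eq fun a => ?_
    have : ∀ (x : β ⊕ γ) (hx : x.isRight = true), g a.1 (x.getRight hx) =
        Sum.casesOn (motive := fun _ => δ) x (f a.1) (g a.1) := by
      intro x hx
      cases x with
      | inl x => simp at hx
      | inr x => rfl
    exact this _ a.2
  · have h : PT fun a : {a // (s a).isRight = false} =>
        (s a.1).getLeft (by simpa using a.2) :=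
      (hs.sum_split.snd.restrict _).of_enc_eq_out fun a => by
        have : ∀ (x : β ⊕ γ) (hx : x.isLeft = true),
            enc (x.getLeft hx) = enc (x.elim enc enc : Tr) := by
          intro x hx
          cases x with
          | inl x => rfl
          | inr x => simp at hx
        exact this _ _
    refine (hf.comp ((subtypeVal id').prodMk h)).of_eq fun a => ?_
    have : ∀ (x : β ⊕ γ) (hx : x.isLeft = true), f a.1 (x.getLeft hx) =
        Sum.casesOn (motive := fun _ => δ) x (f a.1) (g a.1) := by
      intro x hx
      cases x with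
      | inl x => rfl
      | inr x => simp at hx
    exact this _ _

@[fun_prop] theorem sum_elim {s : α → β ⊕ γ} {f : α → β → δ} {g : α → γ → δ} (hs : PT s)
    (hf : PT fun p : α × β => f p.1 p.2) (hg : PT fun p : α × γ => g p.1 p.2) :
    PT fun a => (s a).elim (f a) (g a) :=
  (hs.sum_casesOn hf hg).of_eq fun a => by cases s a <;> rfl

theorem prod_casesOn {s : α → β × γ} {f : α → β → γ → δ} (hs : PT s)
    (hf : PT fun p : α × β × γ => f p.1 p.2.1 p.2.2) :
    PT fun a => Prod.casesOn (motive := fun _ => δ) (s a) (f a) :=
  (hf.comp (id'.prodMk hs)).of_eq fun a => by cases s a; rfl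

@[fun_prop] theorem bool_casesOn {c : α → Bool} {f g : α → β} (hc : PT c) (hf : PT f)
    (hg : PT g) : PT fun a => Bool.casesOn (motive := fun _ => β) (c a) (f a) (g a) :=
  (hc.cond hg hf).of_eq fun a => by cases c a <;> rfl

@[fun_prop] theorem swap {s : α → β × γ} (hs : PT s) : PT fun a => (s a).swap :=
  hs.snd.prodMk hs.fst

@[fun_prop] theorem prod_map {ε ζ : Type} [Enc ε] [Enc ζ] {s : α → β × γ} {f : α → β → ε}
    {g : α → γ → ζ} (hs : PT s) (hf : PT fun p : α × β => f p.1 p.2)
    (hg : PT fun p : α × γ => g p.1 p.2) : PT fun a => Prod.map (f a) (g a) (s a) :=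
  (hf.comp (id'.prodMk hs.fst)).prodMk (hg.comp (id'.prodMk hs.snd))

/-! #### Folds -/

/-- Left fold; `B` bounds the sizes of all intermediate accumulators. -/
theorem foldl {l : α → List β} {ini : α → γ} {f : α → γ → β → γ} (B : α → ℕ)
    (hl : PT l) (hini : PT ini) (hf : PT fun p : α × γ × β => f p.1 p.2.1 p.2.2) (hB : PB B)
    (hsz : ∀ a i, esize (((l a).take i).foldl (f a) (ini a)) ≤ B a) :
    PT fun a => (l a).foldl (f a) (ini a) := by
  let step : α × List β × γ → α × List β × γ := fun s =>
    List.casesOn (motive := fun _ => α × List β × γ) s.2.1 s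
      (fun x xs => (s.1, xs, f s.1 s.2.2 x))
  have hstep : PT step := by
    refine list_casesOn (by fun_prop) id' ?_
    refine prodMk (by fun_prop) (prodMk (by fun_prop) ?_)
    exact hf.comp (g := fun p : (α × List β × γ) × β × List β => (p.1.1, p.1.2.2, p.2.1))
      (by fun_prop)
  have key : ∀ a i, i ≤ (l a).length → step^[i] (a, l a, ini a) =
      (a, (l a).drop i, ((l a).take i).foldl (f a) (ini a)) := by
    intro a i
    induction i with
    | zero => simp
    | succ i ih =>
      intro hi
      rw [iterate_succ_apply', ih (by omega), List.drop_eq_getElem_cons (by omega : i < _),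
        List.take_succ_eq_append_getElem (by omega : i < _), List.foldl_append]
      rfl
  have hi : PB (fun a : α => esize a) := PB.esize_id
  have := whileLoop (step := step) (cont := fun s => !s.2.1.isEmpty)
    (ini := fun a => (a, l a, ini a)) (N := fun a => (l a).length)
    (fun a => esize a + esize (l a) + B a + 2) hstep (by fun_prop) (by fun_prop) (by fun_prop)
    (by fun_prop) (fun a i hi => by rw [key a i hi.le]; simpa using hi)
    (fun a => by rw [key a _ le_rfl]; simp)
    (fun a i hi => by
      rw [key a i hi]
      have h1 := hsz a i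
      have h2 := esize_sublist (List.drop_sublist i (l a))
      simp only [esize_pair]; omega)
  exact this.snd.snd.of_eq fun a => by rw [key a _ le_rfl]; simp

/-- Left fold with an invariant that bounds the size of the accumulator. -/
theorem foldl_inv {l : α → List β} {ini : α → γ} {f : α → γ → β → γ} (B : α → ℕ)
    (I : α → γ → Prop) (hl : PT l) (hini : PT ini)
    (hf : PT fun p : α × γ × β => f p.1 p.2.1 p.2.2) (hB : PB B)
    (h0 : ∀ a, I a (ini a)) (hs : ∀ a c x, x ∈ l a → I a c → I a (f a c x))
    (hsz : ∀ a c, I a c → esize c ≤ B a) : PT fun a => (l a).foldl (f a) (ini a) := by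
  refine foldl B hl hini hf hB fun a i => hsz a _ ?_
  have : ∀ (m : List β) (c : γ), (∀ x ∈ m, x ∈ l a) → I a c → I a (m.foldl (f a) c) := by
    intro m
    induction m with
    | nil => intro c _ h; exact h
    | cons x m ih =>
      intro c hm h
      exact ih _ (fun y hy => hm y (by simp [hy])) (hs a c x (hm x (by simp)) h)
  exact this _ _ (fun x hx => List.mem_of_mem_take hx) (h0 a)

/-- Left fold whose step increases the size of the accumulator by at most a polynomial in the
parameter and the list element. -/
theorem foldl_grow {l : α → List β} {ini : α → γ} {f : α → γ → β → γ} (g : α × β → ℕ)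
    (hl : PT l) (hini : PT ini) (hf : PT fun p : α × γ × β => f p.1 p.2.1 p.2.2) (hg : PB g)
    (h : ∀ a c x, x ∈ l a → esize (f a c x) ≤ esize c + g (a, x)) :
    PT fun a => (l a).foldl (f a) (ini a) := by
  have hi : PB (fun a : α => esize a) := PB.esize_id
  obtain ⟨G, hG, hGg⟩ := hg.exists_bound (s := fun a => esize a + esize (l a) + 1) (by fun_prop)
  refine foldl (fun a => esize (ini a) + (l a).length * G a) hl hini hf (by fun_prop) fun a i => ?_
  have : ∀ (m : List β) (c : γ), (∀ x ∈ m, x ∈ l a) →
      esize (m.foldl (f a) c) ≤ esize c + m.length * G a := by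
    intro m
    induction m with
    | nil => intro c _; simp
    | cons x m ih =>
      intro c hm
      have hx := hm x (by simp)
      have h1 := ih (f a c x) (fun y hy => hm y (by simp [hy]))
      have h2 := h a c x hx
      have h3 := hGg a (a, x) (by have := esize_lt_of_mem hx; simp only [esize_pair]; omega)
      simp only [List.foldl_cons, List.length_cons]
      nlinarith
  refine (this _ _ fun x hx => List.mem_of_mem_take hx).trans ?_
  have : ((l a).take i).length ≤ (l a).length := by simp
  gcongr

/-- Left fold whose results have size bounded by a polynomial in the parameter and the list element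
alone. -/
theorem foldl_bdd {l : α → List β} {ini : α → γ} {f : α → γ → β → γ} (g : α × β → ℕ)
    (hl : PT l) (hini : PT ini) (hf : PT fun p : α × γ × β => f p.1 p.2.1 p.2.2) (hg : PB g)
    (h : ∀ a c x, x ∈ l a → esize (f a c x) ≤ g (a, x)) :
    PT fun a => (l a).foldl (f a) (ini a) :=
  foldl_grow g hl hini hf hg fun a c x hx => (h a c x hx).trans (Nat.le_add_left _ _)

@[fun_prop] theorem reverseAux {l m : α → List β} (hl : PT l) (hm : PT m) :
    PT fun a => (l a).reverseAux (m a) :=
  (foldl_grow (f := fun _ c x => x :: c) (fun p => esize p.2 + 1) hl hm (by fun_prop)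
    (by fun_prop) (fun a c x _ => by simp; omega)).of_eq fun a => by
      generalize l a = x; generalize m a = y
      induction x generalizing y with
      | nil => rfl
      | cons b x ih => exact ih _

@[fun_prop] theorem reverse {l : α → List β} (hl : PT l) : PT fun a => (l a).reverse :=
  hl.reverseAux (const [])

@[fun_prop] theorem append {l m : α → List β} (hl : PT l) (hm : PT m) :
    PT fun a => l a ++ m a :=
  (hl.reverse.reverseAux hm).of_eq fun a => by simp [List.reverseAux_eq]

@[fun_prop] theorem concat {l : α → List β} {f : α → β} (hl : PT l) (hf : PT f) :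
    PT fun a => (l a).concat (f a) :=
  (hl.append (hf.cons (const []))).of_eq fun a => by simp

/-- Right fold; `B` bounds the sizes of all intermediate accumulators. -/
theorem foldr {l : α → List β} {ini : α → γ} {f : α → β → γ → γ} (B : α → ℕ)
    (hl : PT l) (hini : PT ini) (hf : PT fun p : α × β × γ => f p.1 p.2.1 p.2.2) (hB : PB B)
    (hsz : ∀ a i, esize (((l a).drop i).foldr (f a) (ini a)) ≤ B a) :
    PT fun a => (l a).foldr (f a) (ini a) :=
  (foldl (f := fun a c x => f a x c) B hl.reverse hini
    (hf.comp (g := fun p : α × γ × β => (p.1, p.2.2, p.2.1)) (by fun_prop)) hB fun a i => by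
      rw [List.take_reverse, List.foldl_reverse]; exact hsz a _).of_eq fun a => by
    rw [List.foldl_reverse]

theorem foldr_inv {l : α → List β} {ini : α → γ} {f : α → β → γ → γ} (B : α → ℕ)
    (I : α → γ → Prop) (hl : PT l) (hini : PT ini)
    (hf : PT fun p : α × β × γ => f p.1 p.2.1 p.2.2) (hB : PB B)
    (h0 : ∀ a, I a (ini a)) (hs : ∀ a x c, x ∈ l a → I a c → I a (f a x c))
    (hsz : ∀ a c, I a c → esize c ≤ B a) : PT fun a => (l a).foldr (f a) (ini a) :=
  (foldl_inv (f := fun a c x => f a x c) B I hl.reverse hini
    (hf.comp (g := fun p : α × γ × β => (p.1, p.2.2, p.2.1)) (by fun_prop)) hB h0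
    (fun a c x hx => hs a x c (by simpa using hx)) hsz).of_eq fun a => by rw [List.foldl_reverse]

theorem foldr_grow {l : α → List β} {ini : α → γ} {f : α → β → γ → γ} (g : α × β → ℕ)
    (hl : PT l) (hini : PT ini) (hf : PT fun p : α × β × γ => f p.1 p.2.1 p.2.2) (hg : PB g)
    (h : ∀ a x c, x ∈ l a → esize (f a x c) ≤ esize c + g (a, x)) :
    PT fun a => (l a).foldr (f a) (ini a) :=
  (foldl_grow (f := fun a c x => f a x c) g hl.reverse hini
    (hf.comp (g := fun p : α × γ × β => (p.1, p.2.2, p.2.1)) (by fun_prop)) hg
    (fun a c x hx => h a x c (by simpa using hx))).of_eq fun a => by rw [List.foldl_reverse]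

@[fun_prop] theorem flatMap {l : α → List β} {f : α → β → List γ} (hl : PT l)
    (hf : PT fun p : α × β => f p.1 p.2) : PT fun a => (l a).flatMap (f a) :=
  (foldr_grow (f := fun a x c => f a x ++ c) (fun p => esize (f p.1 p.2)) hl (const [])
    ((hf.comp (g := fun p : α × β × List γ => (p.1, p.2.1)) (by fun_prop)).append (by fun_prop))
    (PB.esize hf) (fun a x c _ => by have := esize_append (f a x) c; simp only; omega)).of_eq
    fun a => by
      generalize l a = x
      induction x with
      | nil => rfl
      | cons b x ih => simp [ih]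

@[fun_prop] theorem map {l : α → List β} {f : α → β → γ} (hl : PT l)
    (hf : PT fun p : α × β => f p.1 p.2) : PT fun a => (l a).map (f a) :=
  (hl.flatMap (f := fun a x => [f a x]) (hf.cons (const []))).of_eq fun a => by
    rw [List.map_eq_flatMap]

@[fun_prop] theorem flatten {l : α → List (List β)} (hl : PT l) : PT fun a => (l a).flatten :=
  (hl.flatMap (f := fun _ x => x) (by fun_prop)).of_eq fun a => by simp [List.flatMap_id']

@[fun_prop] theorem filterMap {l : α → List β} {f : α → β → Option γ} (hl : PT l)
    (hf : PT fun p : α × β => f p.1 p.2) : PT fun a => (l a).filterMap (f a) :=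
  (hl.flatMap (f := fun a x => (f a x).toList) hf.toList).of_eq fun a => by
    generalize l a = x
    induction x with
    | nil => rfl
    | cons b x ih => cases h : f a b <;> simp [h, ih]

@[fun_prop] theorem filter {l : α → List β} {f : α → β → Bool} (hl : PT l)
    (hf : PT fun p : α × β => f p.1 p.2) : PT fun a => (l a).filter (f a) :=
  (hl.flatMap (f := fun a x => bif f a x then [x] else []) (by fun_prop)).of_eq fun a => by
    generalize l a = x
    induction x with
    | nil => rfl
    | cons b x ih => cases h : f a b <;> simp [h, ih]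

@[fun_prop] theorem find? {l : α → List β} {f : α → β → Bool} (hl : PT l)
    (hf : PT fun p : α × β => f p.1 p.2) : PT fun a => (l a).find? (f a) :=
  (hl.filter hf).head?.of_eq fun a => by simp [List.head?_filter]

@[fun_prop] theorem findSome? {l : α → List β} {f : α → β → Option γ} (hl : PT l)
    (hf : PT fun p : α × β => f p.1 p.2) : PT fun a => (l a).findSome? (f a) :=
  (hl.filterMap hf).head?.of_eq fun a => by simp [List.head?_filterMap]

@[fun_prop] theorem any {l : α → List β} {f : α → β → Bool} (hl : PT l)
    (hf : PT fun p : α × β => f p.1 p.2) : PT fun a => (l a).any (f a) :=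
  (hl.filter hf).isEmpty.bnot.of_eq fun a => by
    rw [Bool.eq_iff_iff]; simp [List.filter_eq_nil_iff]

@[fun_prop] theorem all {l : α → List β} {f : α → β → Bool} (hl : PT l)
    (hf : PT fun p : α × β => f p.1 p.2) : PT fun a => (l a).all (f a) :=
  (hl.any (f := fun a x => !f a x) hf.bnot).bnot.of_eq fun a => by
    rw [Bool.eq_iff_iff]; simp

theorem forall_mem {l : α → List β} {p : α → β → Prop} (hl : PT l)
    (hp : PT fun x : α × β => p x.1 x.2) : PT fun a => ∀ x ∈ l a, p a x := by
  classical
  exact (hl.all (f := fun a x => Decidable.decide (p a x)) hp.decide).of_bool fun a => by simp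

@[fun_prop] theorem exists_mem {l : α → List β} {p : α → β → Prop} (hl : PT l)
    (hp : PT fun x : α × β => p x.1 x.2) : PT fun a => ∃ x ∈ l a, p a x := by
  classical
  exact (hl.any (f := fun a x => Decidable.decide (p a x)) hp.decide).of_bool fun a => by simp

@[fun_prop] theorem getLast? {l : α → List β} (hl : PT l) : PT (fun a => (l a).getLast?) :=
  hl.reverse.head?.of_eq fun a => by simp

@[fun_prop] theorem getLastD {l : α → List β} {d : α → β} (hl : PT l) (hd : PT d) :
    PT (fun a => (l a).getLastD (d a)) :=
  (hl.getLast?.option_getD hd).of_eq fun a => by simp [List.getLastD_eq_getLast?]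

@[fun_prop] theorem dropLast {l : α → List β} (hl : PT l) : PT (fun a => (l a).dropLast) :=
  hl.reverse.tail.reverse.of_eq fun a => by simp

/-! #### Equality -/

theorem encBits {f : α → β} (hf : PT f) : PT fun a => (enc (f a)).bits := by
  have h : PT fun b : β => (enc b).bits :=
    ⟨fun b => 7 * esize b + 3, ((PB.const 7).mul PB.esize_id).add (PB.const 3), inP, 2, fun b => by
      have := runs_inP (enc b).bits
      rw [Tr.length_bits] at this
      exact this⟩
  exact h.comp hf

theorem _root_.Crest.Agent.Lib.PolyTime.Tr.bits_append_inj (s : Tr) :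
    ∀ (t : Tr) (r r' : List Bool), s.bits ++ r = t.bits ++ r' → s = t ∧ r = r' := by
  induction s with
  | nil => intro t r r' h; cases t <;> simp_all [Tr.bits]
  | cons a b iha ihb =>
    intro t r r' h
    cases t with
    | nil => simp [Tr.bits] at h
    | cons c d =>
      simp only [Tr.bits, List.cons_append, List.cons.injEq, true_and, List.append_assoc] at h
      obtain ⟨e1, h1⟩ := iha _ _ _ h
      obtain ⟨e2, h2⟩ := ihb _ _ _ h1
      exact ⟨by rw [e1, e2], h2⟩

theorem boolList_eq {l m : α → List Bool} (hl : PT l) (hm : PT m) : PT fun a => l a = m a := by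
  have h := foldl_grow (ini := fun a => (true, m a))
    (f := fun _ (s : Bool × List Bool) x =>
      (s.1 && !s.2.isEmpty && !(xor x (s.2.headD false)), s.2.tail))
    (fun _ => 3) hl (by fun_prop) (by fun_prop) (by fun_prop) (fun a c x _ => by
      have h1 := esize_sublist (List.tail_sublist c.2)
      have h2 := esize_bool_le (c.1 && !c.2.isEmpty && !(xor x (c.2.headD false)))
      rw [esize_pair, esize_prod c]; omega)
  refine (h.fst.band h.snd.isEmpty).of_bool fun a => ?_
  have key : ∀ (x y : List Bool) (b : Bool),
      ((x.foldl (fun (s : Bool × List Bool) x =>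
        (s.1 && !s.2.isEmpty && !(xor x (s.2.headD false)), s.2.tail)) (b, y)).1 &&
      (x.foldl (fun (s : Bool × List Bool) x =>
        (s.1 && !s.2.isEmpty && !(xor x (s.2.headD false)), s.2.tail)) (b, y)).2.isEmpty) = true ↔
        (b = true ∧ x = y) := by
    intro x
    induction x with
    | nil => intro y b; cases y <;> simp
    | cons c x ih =>
      intro y b
      rw [List.foldl_cons, ih]
      cases y with
      | nil => simp
      | cons d y => cases c <;> cases d <;> simp
  rw [key]; simp

@[fun_prop] theorem eq {f g : α → β} (hf : PT f) (hg : PT g) : PT fun a => f a = g a :=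
  (hf.encBits.boolList_eq hg.encBits).of_iff fun a =>
    ⟨fun h => Enc.inj (Tr.bits_append_inj _ _ [] [] (by simpa using h)).1, fun h => by rw [h]⟩

@[fun_prop] theorem ne {f g : α → β} (hf : PT f) (hg : PT g) : PT fun a => f a ≠ g a :=
  (hf.eq hg).not

@[fun_prop] theorem beq [BEq β] [LawfulBEq β] {f g : α → β} (hf : PT f) (hg : PT g) :
    PT fun a => f a == g a := by
  classical
  exact (hf.eq hg).decide.of_eq fun a => by rw [Bool.eq_iff_iff]; simp

@[fun_prop] theorem bne [BEq β] [LawfulBEq β] {f g : α → β} (hf : PT f) (hg : PT g) :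
    PT fun a => f a != g a := (hf.beq hg).bnot

@[fun_prop] theorem mem_list {f : α → β} {l : α → List β} (hf : PT f) (hl : PT l) :
    PT fun a => f a ∈ l a :=
  (hl.exists_mem (p := fun a x => x = f a) (by fun_prop)).of_iff fun a => by simp

@[fun_prop] theorem contains [BEq β] [LawfulBEq β] {f : α → β} {l : α → List β} (hl : PT l)
    (hf : PT f) : PT fun a => (l a).contains (f a) := by
  classical
  exact (hf.mem_list hl).decide.of_eq fun a => by rw [Bool.eq_iff_iff]; simp

@[fun_prop] theorem elem [BEq β] [LawfulBEq β] {f : α → β} {l : α → List β} (hf : PT f)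
    (hl : PT l) : PT fun a => (l a).elem (f a) := hl.contains hf

@[fun_prop] theorem subset {l m : α → List β} (hl : PT l) (hm : PT m) :
    PT fun a => l a ⊆ m a :=
  (hl.forall_mem (p := fun a x => x ∈ m a) (by fun_prop)).of_iff fun _ => Iff.rfl

/-- Any map out of a finite type is polynomial-time. -/
theorem of_finite [Finite α] (f : α → β) : PT f := by
  classical
  cases isEmpty_or_nonempty α with
  | inl h => exact of_enc_eq fun a => isEmptyElim a
  | inr h =>
    obtain ⟨a0⟩ := h
    have := Fintype.ofFinite α
    let tab : List (α × β) := (Finset.univ.toList).map fun a => (a, f a)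
    have h : PT fun a : α => ((tab.find? fun p => p.1 == a).getD (a0, f a0)).2 := by fun_prop
    refine h.of_eq fun a => ?_
    have hex : (tab.find? fun p => p.1 == a).isSome := by
      rw [List.find?_isSome]
      exact ⟨(a, f a), by simp [tab], by simp⟩
    obtain ⟨q, hq⟩ := Option.isSome_iff_exists.mp hex
    have h1 := List.find?_some hq
    have h2 := List.mem_of_find?_eq_some hq
    simp only [tab, List.mem_map] at h2
    obtain ⟨b, -, rfl⟩ := h2
    rw [hq]
    simp only [beq_iff_eq] at h1
    simp [h1]

end PT

end Crest.Agent.Lib.PolyTime
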