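/-
Lib/PolyTime/Nat: binary arithmetic, indexing, `range`, `replicate`, iteration.
Author: helper82.
-/
import Crest.Agent.Lib.PolyTime.List

set_option autoImplicit false

namespace Crest.Agent.Lib.PolyTime

open Function

theorem ofBits_lt (l : List Bool) : ofBits l < 2 ^ l.length := by
  induction l with
  | nil => simp
  | cons b l ih => cases b <;> simp [Nat.bit_val, pow_succ] <;> omega

theorem ofBits_append_false (l : List Bool) {β : Type} (m : List β) :
    ofBits (l ++ m.map fun _ => false) = ofBits l := by
  induction l with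
  | nil =>
    induction m with
    | nil => rfl
    | cons x m ih => simp at ih ⊢; simp [ih]
  | cons b l ih => simp only [List.cons_append, ofBits_cons, ih]

theorem ofBits_drop_lt (l : List Bool) (i : ℕ) : ofBits (l.drop i) < 2 ^ l.length :=
  (ofBits_lt _).trans_le (Nat.pow_le_pow_right (by omega) (by simp))

namespace PT
variable {α β γ δ : Type} [Enc α] [Enc β] [Enc γ] [Enc δ]

@[fun_prop] theorem bits {f : α → ℕ} (hf : PT f) : PT fun a => (f a).bits := by
  have h : PT fun a => (f a).bits.map fun b => (b, !b) := hf.of_enc_eq_out fun _ => rfl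
  exact (h.map (f := fun _ p => p.1) (by fun_prop)).of_eq fun a => by simp [Function.comp_def]

@[fun_prop] theorem bit {b : α → Bool} {f : α → ℕ} (hb : PT b) (hf : PT f) :
    PT fun a => Nat.bit (b a) (f a) := by
  have h0 : PT fun a => (f a).bits.map fun b => (b, !b) := hf.of_enc_eq_out fun _ => rfl
  have h : PT fun a => if f a = 0 ∧ b a = false then [] else
      (b a, !b a) :: (f a).bits.map fun b => (b, !b) :=
    ite (by fun_prop) (const _) (cons (by fun_prop) h0)
  refine h.of_enc_eq_out fun a => ?_
  show enc ((Nat.bit (b a) (f a)).bits.map fun b => (b, !b)) = _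
  split_ifs with hc
  · rw [hc.1, hc.2]; simp
  · rw [Nat.bits_append_bit _ _ (by intro h0; simpa [h0] using hc)]; rfl

@[fun_prop] theorem ofBits' {l : α → List Bool} (hl : PT l) : PT fun a => ofBits (l a) :=
  foldr (f := fun _ b n => Nat.bit b n) (fun a => 6 * (l a).length + 1) hl (const 0)
    (by fun_prop) (by fun_prop) fun _ i => esize_nat_le_of_lt_two_pow (ofBits_drop_lt _ i)

@[fun_prop] theorem bodd {f : α → ℕ} (hf : PT f) : PT fun a => (f a).bodd :=
  hf.bits.headI.of_eq fun a => (Nat.bodd_eq_bits_head _).symm

@[fun_prop] theorem div2 {f : α → ℕ} (hf : PT f) : PT fun a => (f a).div2 :=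
  hf.bits.tail.ofBits'.of_eq fun a => by rw [← Nat.div2_bits_eq_tail, ofBits_bits]

/-- Recursion on the binary digits of a number, with a parameter. -/
theorem binRec {f : α → ℕ} {g : α → ℕ → γ} {step : α → Bool → γ → γ} (B : α → ℕ) (hf : PT f)
    (h0 : PT fun a => g a 0) (hstep : PT fun p : α × Bool × γ => step p.1 p.2.1 p.2.2)
    (hg : ∀ a x n, g a (Nat.bit x n) = step a x (g a n)) (hB : PB B)
    (hsz : ∀ a n, n < 2 ^ (f a).size → esize (g a n) ≤ B a) : PT fun a => g a (f a) := by
  have key : ∀ a (l : List Bool), l.foldr (step a) (g a 0) = g a (ofBits l) := by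
    intro a l
    induction l with
    | nil => rfl
    | cons b l ih => rw [List.foldr_cons, ih, ofBits_cons, hg]
  refine (foldr B hf.bits h0 hstep hB fun a i => ?_).of_eq fun a => by rw [key, ofBits_bits]
  rw [key]
  exact hsz a _ (by rw [← Nat.size_eq_bits_len]; exact ofBits_drop_lt _ i)

@[fun_prop] theorem succ {f : α → ℕ} (hf : PT f) : PT fun a => (f a).succ :=
  (binRec (g := fun _ n => (n, n + 1))
    (step := fun _ b p => (Nat.bit b p.1, bif b then Nat.bit false p.2 else Nat.bit true p.1))
    (fun a => 12 * (f a).size + 9) hf (const _) (by fun_prop)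
    (fun a x n => by cases x <;> simp [Nat.bit_val]; omega) (by fun_prop) (fun a n hn => by
      have h1 := esize_nat_le_of_lt_two_pow hn
      have h2 := esize_nat_succ_le n
      simp only [esize_pair]; omega)).snd

@[fun_prop] theorem pred {f : α → ℕ} (hf : PT f) : PT fun a => (f a).pred :=
  (binRec (g := fun _ n => (n, n - 1))
    (step := fun _ b p => (Nat.bit b p.1,
      bif b then Nat.bit false p.1 else if p.1 = 0 then 0 else Nat.bit true p.2))
    (fun a => 12 * (f a).size + 3) hf (const _) (by fun_prop)
    (fun a x n => by cases x <;> simp [Nat.bit_val]; split_ifs <;> omega) (by fun_prop)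
    (fun a n hn => by
      have h1 := esize_nat_le_of_lt_two_pow hn
      have h2 := esize_nat_mono (Nat.sub_le n 1)
      simp only [esize_pair]; omega)).snd

@[fun_prop] theorem length {l : α → List β} (hl : PT l) : PT fun a => (l a).length := by
  have key : ∀ (l : List β), l.foldr (fun _ n => Nat.succ n) 0 = l.length := by
    intro l; induction l <;> simp_all
  refine (foldr (f := fun _ _ n => Nat.succ n) (fun a => 6 * (l a).length + 1) hl (const 0)
    (by fun_prop) (by fun_prop) fun a i => ?_).of_eq fun a => key _
  rw [key]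
  exact (esize_nat_le_self _).trans (by simp)

@[fun_prop] theorem natSize {f : α → ℕ} (hf : PT f) : PT fun a => (f a).size :=
  hf.bits.length.of_eq fun _ => Nat.size_eq_bits_len _

@[fun_prop] theorem zip {l : α → List β} {m : α → List γ} (hl : PT l) (hm : PT m) :
    PT fun a => (l a).zip (m a) := by
  let step : List γ × List (β × γ) → β → List γ × List (β × γ) := fun s x =>
    List.casesOn (motive := fun _ => List γ × List (β × γ)) s.1 s (fun y ys => (ys, (x, y) :: s.2))
  have key : ∀ (l : List β) (m : List γ) (acc : List (β × γ)),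
      (l.foldl step (m, acc)).2 = (l.zip m).reverse ++ acc := by
    intro l
    induction l with
    | nil => simp
    | cons x l ih =>
      intro m acc
      cases m with
      | nil => simpa [step] using ih [] acc
      | cons y m => simpa [step] using ih m ((x, y) :: acc)
  have h := foldl_grow (f := fun _ s x => step s x) (ini := fun a => (m a, []))
    (fun p => esize p.2 + 1) hl (by fun_prop)
    (list_casesOn (by fun_prop) (by fun_prop) (by fun_prop)) (by fun_prop)
    (fun a c x _ => by
      obtain ⟨c1, c2⟩ := c
      cases c1 <;> simp [step]; omega)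
  exact h.snd.reverse.of_eq fun a => by rw [key]; simp

/-- Simultaneous recursion on the binary digits of two numbers. -/
theorem binRec₂ {f f' : α → ℕ} (g : ℕ → ℕ → γ) (step : Bool → Bool → γ → γ) (c : ℕ) (hf : PT f)
    (hf' : PT f') (hstep : PT fun p : Bool × Bool × γ => step p.1 p.2.1 p.2.2)
    (hg : ∀ x y m n, g (Nat.bit x m) (Nat.bit y n) = step x y (g m n))
    (hsz : ∀ k m n, m < 2 ^ k → n < 2 ^ k → esize (g m n) ≤ c * k + c) :
    PT fun a => g (f a) (f' a) := by
  have key : ∀ (l l' : List Bool), l.length = l'.length →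
      (l.zip l').foldr (fun p => step p.1 p.2) (g 0 0) = g (ofBits l) (ofBits l') := by
    intro l
    induction l with
    | nil => intro l' h; cases l' <;> simp_all
    | cons b l ih =>
      intro l' h
      cases l' with
      | nil => simp at h
      | cons b' l' =>
        rw [List.zip_cons_cons, List.foldr_cons, ih l' (by simpa using h), ofBits_cons,
          ofBits_cons, hg]
  have hlen : ∀ a, ((f a).bits ++ (f' a).bits.map fun _ => false).length =
      ((f' a).bits ++ (f a).bits.map fun _ => false).length := fun a => by simp [Nat.add_comm]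
  refine (foldr (l := fun a => ((f a).bits ++ (f' a).bits.map fun _ => false).zip
      ((f' a).bits ++ (f a).bits.map fun _ => false)) (f := fun _ p => step p.1 p.2)
    (fun a => c * ((f a).bits ++ (f' a).bits.map fun _ => false).length + c) (by fun_prop)
    (const (g 0 0)) (hstep.comp (g := fun p : α × (Bool × Bool) × γ => (p.2.1.1, p.2.1.2, p.2.2))
      (by fun_prop)) (by fun_prop) fun a i => ?_).of_eq fun a => ?_
  · rw [List.zip, List.drop_zipWith, ← List.zip, key _ _ (by simp; omega)]
    exact hsz _ _ _ (ofBits_drop_lt _ _) (by rw [hlen]; exact ofBits_drop_lt _ _)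
  · rw [key _ _ (hlen a), ofBits_append_false, ofBits_append_false, ofBits_bits, ofBits_bits]

@[fun_prop] theorem nat_add {f g : α → ℕ} (hf : PT f) (hg : PT g) : PT fun a => f a + g a :=
  binRec₂ (fun m n => m + n)
    (fun x y s => bif x && y then Nat.bit false s.succ else Nat.bit (x || y) s) 7 hf hg
    (by fun_prop) (fun x y m n => by cases x <;> cases y <;> simp [Nat.bit_val] <;> omega)
    (fun k m n hm hn => by
      have : m + n < 2 ^ (k + 1) := by rw [pow_succ]; omega
      have := esize_nat_le_of_lt_two_pow this
      omega)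

theorem nat_sub_lt {f g : α → ℕ} (hf : PT f) (hg : PT g) :
    PT fun a => (f a - g a, Decidable.decide (f a < g a)) :=
  binRec₂ (fun m n => (m - n, Decidable.decide (m < n)))
    (fun x y s => bif s.2 then (0, true) else
      bif !x && y then (if s.1 = 0 then (0, true) else (Nat.bit true s.1.pred, false))
      else (Nat.bit (x && !y) s.1, false)) 6 hf hg (by fun_prop)
    (fun x y m n => by
      by_cases h : m < n
      · cases x <;> cases y <;> simp [Nat.bit_val, h] <;> omega
      · cases x <;> cases y <;> simp [Nat.bit_val, h]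
        · omega
        · split_ifs with h'
          · simp; omega
          · simp; omega
        · omega
        · omega)
    (fun k m n hm hn => by
      have h1 := esize_nat_le_of_lt_two_pow ((Nat.sub_le m n).trans_lt hm)
      have h2 := esize_bool_le (Decidable.decide (m < n))
      simp only [esize_pair]; omega)

@[fun_prop] theorem nat_sub {f g : α → ℕ} (hf : PT f) (hg : PT g) : PT fun a => f a - g a :=
  (nat_sub_lt hf hg).fst

@[fun_prop] theorem nat_lt {f g : α → ℕ} (hf : PT f) (hg : PT g) : PT fun a => f a < g a :=
  (nat_sub_lt hf hg).snd.of_decide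

@[fun_prop] theorem nat_le {f g : α → ℕ} (hf : PT f) (hg : PT g) : PT fun a => f a ≤ g a :=
  (nat_lt hg hf).not.of_iff fun _ => not_lt

@[fun_prop] theorem nat_gt {f g : α → ℕ} (hf : PT f) (hg : PT g) : PT fun a => f a > g a :=
  nat_lt hg hf

@[fun_prop] theorem nat_ge {f g : α → ℕ} (hf : PT f) (hg : PT g) : PT fun a => f a ≥ g a :=
  nat_le hg hf

@[fun_prop] theorem nat_max {f g : α → ℕ} (hf : PT f) (hg : PT g) :
    PT fun a => max (f a) (g a) :=
  ((nat_le hf hg).ite hg hf).of_eq fun _ => (max_def _ _).symm

@[fun_prop] theorem nat_min {f g : α → ℕ} (hf : PT f) (hg : PT g) :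
    PT fun a => min (f a) (g a) :=
  ((nat_le hf hg).ite hf hg).of_eq fun _ => (min_def _ _).symm

@[fun_prop] theorem nat_mul {f g : α → ℕ} (hf : PT f) (hg : PT g) : PT fun a => f a * g a :=
  binRec (g := fun a n => n * g a) (step := fun a b s => Nat.bit false s + bif b then g a else 0)
    (fun a => 6 * (f a).size + 1 + esize (g a)) hf (by simpa using const 0) (by fun_prop)
    (fun a x n => by cases x <;> simp [Nat.bit_val] <;> ring) (by fun_prop) (fun a n hn => by
      have h1 := esize_nat_le_of_lt_two_pow hn
      have h2 := esize_nat_mul_le n (g a)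
      omega)

theorem nat_div_mod {f g : α → ℕ} (hf : PT f) (hg : PT g) :
    PT fun a => (f a / g a, f a % g a) :=
  binRec (g := fun a n => (n / g a, n % g a))
    (step := fun a b s => if g a ≠ 0 ∧ g a ≤ Nat.bit b s.2 then
      (Nat.bit true s.1, Nat.bit b s.2 - g a) else (Nat.bit false s.1, Nat.bit b s.2))
    (fun a => 12 * (f a).size + 3) hf (by simpa using const (0, 0)) (by fun_prop)
    (fun a x n => by
      generalize g a = d
      rcases Nat.eq_zero_or_pos d with rfl | hd
      · simp
      have h1 := Nat.div_add_mod n d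
      have h2 := Nat.mod_lt n hd
      have hx : x.toNat ≤ 1 := Bool.toNat_le x
      simp only [Nat.bit_val, Bool.toNat_true, Bool.toNat_false, ne_eq, hd.ne', not_false_eq_true,
        true_and]
      generalize n / d = q at *
      generalize n % d = r at *
      subst h1
      split_ifs with h
      · have := (Nat.div_mod_unique (a := 2 * (d * q + r) + x.toNat) (d := 2 * q + 1)
          (c := 2 * r + x.toNat - d) hd).mpr ⟨by
            obtain ⟨e, he⟩ := Nat.exists_eq_add_of_le h
            rw [he, Nat.add_sub_cancel_left]; nlinarith, by omega⟩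
        rw [this.1, this.2]
      · have := (Nat.div_mod_unique (a := 2 * (d * q + r) + x.toNat) (d := 2 * q + 0)
          (c := 2 * r + x.toNat) hd).mpr ⟨by ring, by omega⟩
        rw [this.1, this.2])
    (by fun_prop) (fun a n hn => by
      have h1 := esize_nat_le_of_lt_two_pow ((Nat.div_le_self n (g a)).trans_lt hn)
      have h2 := esize_nat_le_of_lt_two_pow ((Nat.mod_le n (g a)).trans_lt hn)
      simp only [esize_pair]; omega)

@[fun_prop] theorem nat_div {f g : α → ℕ} (hf : PT f) (hg : PT g) : PT fun a => f a / g a :=
  (nat_div_mod hf hg).fst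

@[fun_prop] theorem nat_mod {f g : α → ℕ} (hf : PT f) (hg : PT g) : PT fun a => f a % g a :=
  (nat_div_mod hf hg).snd

@[fun_prop] theorem nat_dvd {f g : α → ℕ} (hf : PT f) (hg : PT g) : PT fun a => f a ∣ g a :=
  ((nat_mod hg hf).eq (const 0)).of_iff fun _ => (Nat.dvd_iff_mod_eq_zero ..).symm

@[fun_prop] theorem nat_even {f : α → ℕ} (hf : PT f) : PT fun a => Even (f a) :=
  ((nat_mod hf (const 2)).eq (const 0)).of_iff fun _ => Nat.even_iff.symm

@[fun_prop] theorem nat_odd {f : α → ℕ} (hf : PT f) : PT fun a => Odd (f a) :=
  ((nat_mod hf (const 2)).eq (const 1)).of_iff fun _ => Nat.odd_iff.symm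

@[fun_prop] theorem toNat {b : α → Bool} (hb : PT b) : PT fun a => (b a).toNat :=
  (hb.cond (const 1) (const 0)).of_eq fun a => by cases b a <;> rfl

@[fun_prop] theorem nat_casesOn {n : α → ℕ} {f : α → γ} {g : α → ℕ → γ} (hn : PT n) (hf : PT f)
    (hg : PT fun p : α × ℕ => g p.1 p.2) :
    PT fun a => Nat.casesOn (motive := fun _ => γ) (n a) (f a) (g a) :=
  ((hn.eq (const 0)).ite hf (hg.comp (id'.prodMk hn.pred))).of_eq fun a => by
    cases n a <;> simp

/-! #### Unary loops -/

@[fun_prop] theorem replicate {n : α → ℕ} {x : α → β} (hn : PT n) (hn' : PB n) (hx : PT x) :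
    PT fun a => List.replicate (n a) (x a) := by
  let step : ℕ × β × List β → ℕ × β × List β := fun s => (s.1 - 1, s.2.1, s.2.1 :: s.2.2)
  have key : ∀ a i, step^[i] (n a, x a, []) = (n a - i, x a, List.replicate i (x a)) := by
    intro a i
    induction i with
    | zero => simp
    | succ i ih => rw [iterate_succ_apply', ih]; simp [step, List.replicate_succ, Nat.sub_sub]
  have := whileLoop (step := step) (cont := fun s => Decidable.decide (s.1 ≠ 0))
    (ini := fun a => (n a, x a, ([] : List β))) (N := n)
    (fun a => esize (n a) + esize (x a) + n a * (esize (x a) + 1) + 3) (by fun_prop) (by fun_prop)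
    (by fun_prop) hn' (by fun_prop) (fun a i hi => by rw [key]; simp; omega)
    (fun a => by rw [key]; simp) (fun a i hi => by
      rw [key]
      have h1 := esize_nat_mono (Nat.sub_le (n a) i)
      have h2 := esize_list_le (l := List.replicate i (x a)) (B := esize (x a))
        (fun y hy => by rw [List.eq_of_mem_replicate hy])
      have h3 : i * (esize (x a) + 1) ≤ n a * (esize (x a) + 1) := Nat.mul_le_mul_right _ hi
      simp only [esize_pair, List.length_replicate] at *; omega)
  exact this.snd.snd.of_eq fun a => by rw [key]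

theorem foldl_replicate_unit {σ : Type} (f : σ → σ) (n : ℕ) (x : σ) :
    (List.replicate n ()).foldl (fun c _ => f c) x = f^[n] x := by
  induction n generalizing x with
  | zero => rfl
  | succ n ih => rw [List.replicate_succ, List.foldl_cons, ih, iterate_succ_apply]

/-- Iteration a polynomially bounded number of times; `B` bounds the sizes of the iterates. -/
theorem iterate {n : α → ℕ} {x : α → γ} {f : α → γ → γ} (B : α → ℕ) (hn : PT n) (hn' : PB n)
    (hx : PT x) (hf : PT fun p : α × γ => f p.1 p.2) (hB : PB B)
    (hsz : ∀ a i, i ≤ n a → esize ((f a)^[i] (x a)) ≤ B a) :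
    PT fun a => (f a)^[n a] (x a) :=
  (foldl (l := fun a => List.replicate (n a) ()) (f := fun a c _ => f a c) B
    (by fun_prop) hx (hf.comp (g := fun p : α × γ × Unit => (p.1, p.2.1)) (by fun_prop)) hB
    fun a i => by
      rw [List.take_replicate, foldl_replicate_unit]; exact hsz a _ (min_le_right _ _)).of_eq
    fun a => foldl_replicate_unit _ _ _

theorem iterate_inv {n : α → ℕ} {x : α → γ} {f : α → γ → γ} (B : α → ℕ) (I : α → γ → Prop)
    (hn : PT n) (hn' : PB n) (hx : PT x) (hf : PT fun p : α × γ => f p.1 p.2) (hB : PB B)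
    (h0 : ∀ a, I a (x a)) (hs : ∀ a c, I a c → I a (f a c))
    (hsz : ∀ a c, I a c → esize c ≤ B a) : PT fun a => (f a)^[n a] (x a) :=
  iterate B hn hn' hx hf hB fun a i _ => hsz a _ (Function.Iterate.rec (I a) (h0 a) (hs a) i)

theorem iterate_grow {n : α → ℕ} {x : α → γ} {f : α → γ → γ} (g : α → ℕ) (hn : PT n)
    (hn' : PB n) (hx : PT x) (hf : PT fun p : α × γ => f p.1 p.2) (hg : PB g)
    (h : ∀ a c, esize (f a c) ≤ esize c + g a) : PT fun a => (f a)^[n a] (x a) := by
  refine iterate (fun a => esize (x a) + n a * g a) hn hn' hx hf (by fun_prop) fun a i hi => ?_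
  have : ∀ i, esize ((f a)^[i] (x a)) ≤ esize (x a) + i * g a := by
    intro i
    induction i with
    | zero => simp
    | succ i ih => rw [iterate_succ_apply']; have := h a ((f a)^[i] (x a)); nlinarith
  exact (this i).trans (by gcongr)

@[fun_prop] theorem range' {s n : α → ℕ} (hs : PT s) (hn : PT n) (hn' : PB n) :
    PT fun a => List.range' (s a) (n a) := by
  let step : ℕ × List ℕ → ℕ × List ℕ := fun p => (p.1 + 1, p.1 :: p.2)
  have key : ∀ s i, step^[i] (s, []) = (s + i, (List.range' s i).reverse) := by
    intro s i
    induction i with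
    | zero => simp
    | succ i ih => rw [iterate_succ_apply', ih]; simp [step, List.range'_concat, Nat.add_assoc]
  have := iterate (x := fun a => (s a, ([] : List ℕ))) (f := fun _ => step)
    (fun a => (n a + 1) * (esize (s a + n a) + 1) + 1) hn hn' (by fun_prop) (by fun_prop)
    (by fun_prop) (fun a i hi => by
      rw [key]
      have h1 : esize (s a + i) ≤ esize (s a + n a) := esize_nat_mono (by omega)
      have h2 := esize_list_le (l := List.range' (s a) i) (B := esize (s a + n a))
        (fun y hy => esize_nat_mono (by rw [List.mem_range'_1] at hy; omega))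
      have h3 : i * (esize (s a + n a) + 1) ≤ n a * (esize (s a + n a) + 1) :=
        Nat.mul_le_mul_right _ hi
      simp only [esize_pair, List.length_range', esize_reverse] at *; nlinarith)
  exact this.snd.reverse.of_eq fun a => by rw [key]; simp

@[fun_prop] theorem range {n : α → ℕ} (hn : PT n) (hn' : PB n) : PT fun a => List.range (n a) :=
  (range' (const 0) hn hn').of_eq fun _ => List.range_eq_range'.symm

@[fun_prop] theorem nat_pow {f k : α → ℕ} (hf : PT f) (hk : PT k) (hk' : PB k) :
    PT fun a => f a ^ k a :=
  (iterate_grow (x := fun _ => 1) (f := fun a c => c * f a) (fun a => esize (f a)) hk hk'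
    (const 1) (by fun_prop) (by fun_prop) fun a c => esize_nat_mul_le _ _).of_eq fun a => by
      generalize k a = m
      induction m with
      | zero => simp
      | succ m ih => rw [iterate_succ_apply', ih, pow_succ]

@[fun_prop] theorem shiftLeft {f k : α → ℕ} (hf : PT f) (hk : PT k) (hk' : PB k) :
    PT fun a => f a <<< k a :=
  (hf.nat_mul ((const 2).nat_pow hk hk')).of_eq fun _ => (Nat.shiftLeft_eq _ _).symm

@[fun_prop] theorem nat_sum {l : α → List ℕ} (hl : PT l) : PT fun a => (l a).sum :=
  (foldr_grow (f := fun _ x c => x + c) (fun p => esize p.2) hl (const 0) (by fun_prop)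
    (by fun_prop) fun a x c _ => by have := esize_nat_add_le x c; simp only; omega).of_eq
    fun _ => rfl

@[fun_prop] theorem nat_prod {l : α → List ℕ} (hl : PT l) : PT fun a => (l a).prod :=
  (foldr_grow (f := fun _ x c => x * c) (fun p => esize p.2) hl (const 1) (by fun_prop)
    (by fun_prop) fun a x c _ => by have := esize_nat_mul_le x c; simp only; omega).of_eq
    fun _ => rfl

@[fun_prop] theorem factorial {n : α → ℕ} (hn : PT n) (hn' : PB n) :
    PT fun a => (n a).factorial :=
  ((range hn hn').map (f := fun _ i => i + 1) (by fun_prop)).nat_prod.of_eq fun a => by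
    generalize n a = m
    induction m with
    | zero => simp
    | succ m ih => rw [List.range_succ, List.map_append, List.prod_append, ih]; simp [Nat.factorial_succ, Nat.mul_comm]

@[fun_prop] theorem descFactorial {n k : α → ℕ} (hn : PT n) (hk : PT k) (hk' : PB k) :
    PT fun a => (n a).descFactorial (k a) :=
  ((range hk hk').map (f := fun a i => n a - i) (by fun_prop)).nat_prod.of_eq fun a => by
    generalize k a = m
    induction m with
    | zero => simp
    | succ m ih => rw [List.range_succ, List.map_append, List.prod_append, ih]; simp [Nat.mul_comm]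

@[fun_prop] theorem choose {n k : α → ℕ} (hn : PT n) (hk : PT k) (hk' : PB k) :
    PT fun a => (n a).choose (k a) :=
  ((descFactorial hn hk hk').nat_div (factorial hk hk')).of_eq fun _ =>
    (Nat.choose_eq_descFactorial_div_factorial _ _).symm

@[fun_prop] theorem nat_gcd {f g : α → ℕ} (hf : PT f) (hg : PT g) :
    PT fun a => Nat.gcd (f a) (g a) := by
  let step : ℕ × ℕ → ℕ × ℕ := fun p => if p.1 = 0 then p else (p.2 % p.1, p.1)
  have fix : ∀ n y, step^[n] (0, y) = (0, y) := fun n y => iterate_fixed (by simp [step]) n
  have key : ∀ n x y, x < 2 ^ n → step^[2 * n] (x, y) = (0, Nat.gcd x y) := by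
    intro n
    induction n with
    | zero => intro x y h; obtain rfl : x = 0 := by simpa using h
              simp
    | succ n ih =>
      intro x y h
      rcases Nat.eq_zero_or_pos x with rfl | hx
      · simp [fix]
      rw [show 2 * (n + 1) = 2 * n + 1 + 1 by ring, iterate_succ_apply, iterate_succ_apply]
      have e1 : step (x, y) = (y % x, x) := by simp [step, hx.ne']
      rw [e1]
      rcases Nat.eq_zero_or_pos (y % x) with h0 | h0
      · rw [h0, ← iterate_succ_apply, fix, Nat.gcd_rec x y, h0, Nat.gcd_zero_left]
      · have e2 : step (y % x, x) = (x % (y % x), y % x) := by simp [step, h0.ne']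
        rw [e2, ih, ← Nat.gcd_rec, ← Nat.gcd_rec]
        have h1 := Nat.mod_lt y hx
        have h2 := Nat.mod_lt x h0
        have h3 := Nat.div_add_mod x (y % x)
        have h4 : 1 ≤ x / (y % x) := (Nat.one_le_div_iff h0).mpr h1.le
        rw [pow_succ] at h
        nlinarith
  have := iterate_inv (n := fun a => 2 * (f a).size) (x := fun a => (f a, g a))
    (f := fun _ => step) (fun a => 2 * esize (f a + g a) + 1)
    (fun a p => p.1 ≤ f a + g a ∧ p.2 ≤ f a + g a) (by fun_prop) (by fun_prop) (by fun_prop)
    (by fun_prop) (by fun_prop) (fun a => by simp) (fun a c hc => by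
      simp only [step]
      split_ifs
      · exact hc
      · exact ⟨(Nat.mod_le _ _).trans hc.2, hc.1⟩)
    (fun a c hc => by
      have h1 := esize_nat_mono hc.1
      have h2 := esize_nat_mono hc.2
      rw [esize_prod]; omega)
  exact this.snd.of_eq fun a => by rw [key _ _ _ (Nat.lt_size_self _)]

@[fun_prop] theorem nat_lcm {f g : α → ℕ} (hf : PT f) (hg : PT g) :
    PT fun a => Nat.lcm (f a) (g a) := (hf.nat_mul hg).nat_div (hf.nat_gcd hg)

@[fun_prop] theorem coprime {f g : α → ℕ} (hf : PT f) (hg : PT g) :
    PT fun a => Nat.Coprime (f a) (g a) := (hf.nat_gcd hg).eq (const 1)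

/-! #### Indexing -/

@[fun_prop] theorem drop {n : α → ℕ} {l : α → List β} (hn : PT n) (hl : PT l) :
    PT fun a => (l a).drop (n a) :=
  (iterate_grow (n := fun a => min (n a) (l a).length) (f := fun _ c => List.tail c) (fun _ => 0)
    (by fun_prop) (by fun_prop) hl (by fun_prop) (by fun_prop)
    fun a c => esize_sublist (List.tail_sublist c)).of_eq fun a => by
      have : ∀ (k : ℕ) (m : List β), List.tail^[k] m = m.drop k := by
        intro k
        induction k with
        | zero => simp
        | succ k ih => intro m; rw [iterate_succ_apply', ih]; simp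
      rw [this]
      rcases le_total (n a) (l a).length with h | h
      · rw [min_eq_left h]
      · rw [min_eq_right h, List.drop_length, List.drop_eq_nil_of_le h]

@[fun_prop] theorem take {n : α → ℕ} {l : α → List β} (hn : PT n) (hl : PT l) :
    PT fun a => (l a).take (n a) :=
  (drop (hl.length.nat_sub hn) hl.reverse).reverse.of_eq fun a => by
    rw [← List.reverse_take, List.reverse_reverse]

@[fun_prop] theorem getElem? {n : α → ℕ} {l : α → List β} (hl : PT l) (hn : PT n) :
    PT fun a => (l a)[n a]? := (drop hn hl).head?.of_eq fun a => by simp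

@[fun_prop] theorem getD {n : α → ℕ} {l : α → List β} {d : α → β} (hl : PT l) (hn : PT n)
    (hd : PT d) : PT fun a => (l a).getD (n a) (d a) :=
  ((getElem? hl hn).option_getD hd).of_eq fun a => by simp

@[fun_prop] theorem getI [Inhabited β] {n : α → ℕ} {l : α → List β} (hl : PT l) (hn : PT n) :
    PT fun a => (l a).getI (n a) := getD hl hn (const default)

@[fun_prop] theorem getElem! [Inhabited β] {n : α → ℕ} {l : α → List β} (hl : PT l) (hn : PT n) :
    PT fun a => (l a)[n a]! := (getD hl hn (const default)).of_eq fun a => by simp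

@[fun_prop] theorem option_get {o : α → Option β} (ho : PT o) (h : ∀ a, (o a).isSome) :
    PT fun a => (o a).get (h a) := by
  have : PT fun a => ((o a).get (h a), ()) := ho.of_enc_eq_out fun a => by
    have : ∀ (x : Option β) (hx : x.isSome), enc (x.get hx, ()) = enc x := by
      intro x hx
      cases x with
      | none => simp at hx
      | some x => rfl
    exact this _ _
  exact this.fst

@[fun_prop] theorem getElem {n : α → ℕ} {l : α → List β} (hl : PT l) (hn : PT n)
    (h : ∀ a, n a < (l a).length) : PT fun a => (l a)[n a]'(h a) :=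
  ((getElem? hl hn).option_get fun a => by simp [h a]).of_eq fun a => by simp

@[fun_prop] theorem head {l : α → List β} (hl : PT l) (h : ∀ a, l a ≠ []) :
    PT fun a => (l a).head (h a) :=
  (hl.head?.option_get fun a => by simp [h a]).of_eq fun a => by
    simp [List.head?_eq_some_head (h a)]

@[fun_prop] theorem getLast {l : α → List β} (hl : PT l) (h : ∀ a, l a ≠ []) :
    PT fun a => (l a).getLast (h a) :=
  (hl.getLast?.option_get fun a => by simp [h a]).of_eq fun a => by
    simp [List.getLast?_eq_some_getLast (h a)]

@[fun_prop] theorem testBit {f i : α → ℕ} (hf : PT f) (hi : PT i) :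
    PT fun a => (f a).testBit (i a) :=
  (getI hf.bits hi).of_eq fun _ => (Nat.testBit_eq_inth _ _).symm

@[fun_prop] theorem shiftRight {f k : α → ℕ} (hf : PT f) (hk : PT k) :
    PT fun a => f a >>> k a :=
  (drop hk hf.bits).ofBits'.of_eq fun a => by
    generalize k a = m
    induction m with
    | zero => simp
    | succ m ih =>
      rw [Nat.shiftRight_succ, ← ih, ← List.tail_drop]
      cases (f a).bits.drop m with
      | nil => simp
      | cons b l => cases b <;> simp [Nat.bit_val]; omega

@[fun_prop] theorem zipWith {l : α → List β} {m : α → List γ} {f : α → β → γ → δ} (hl : PT l)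
    (hm : PT m) (hf : PT fun p : α × β × γ => f p.1 p.2.1 p.2.2) :
    PT fun a => List.zipWith (f a) (l a) (m a) :=
  ((hl.zip hm).map (f := fun a p => f a p.1 p.2) hf).of_eq fun a => by
    simp [List.zip, List.map_zipWith]

@[fun_prop] theorem zipIdx {l : α → List β} {n : α → ℕ} (hl : PT l) (hn : PT n) :
    PT fun a => (l a).zipIdx (n a) :=
  (hl.zip (range' hn hl.length (PB.length hl))).of_eq fun _ => List.zipIdx_eq_zip_range'.symm

@[fun_prop] theorem mapIdx {l : α → List β} {f : α → ℕ → β → γ} (hl : PT l)
    (hf : PT fun p : α × ℕ × β => f p.1 p.2.1 p.2.2) : PT fun a => (l a).mapIdx (f a) :=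
  ((zipIdx hl (const 0)).map (f := fun a p => f a p.2 p.1)
    (hf.comp (g := fun p : α × β × ℕ => (p.1, p.2.2, p.2.1)) (by fun_prop))).of_eq fun a => by
      rw [List.mapIdx_eq_zipIdx_map]

@[fun_prop] theorem set {l : α → List β} {n : α → ℕ} {x : α → β} (hl : PT l) (hn : PT n)
    (hx : PT x) : PT fun a => (l a).set (n a) (x a) :=
  (hl.mapIdx (f := fun a i y => if i = n a then x a else y) (by fun_prop)).of_eq fun a => by
    apply List.ext_getElem
    · simp
    · intro i h1 h2
      simp [List.getElem_set, eq_comm]

@[fun_prop] theorem eraseIdx {l : α → List β} {n : α → ℕ} (hl : PT l) (hn : PT n) :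
    PT fun a => (l a).eraseIdx (n a) :=
  ((take hn hl).append (drop hn.succ hl)).of_eq fun _ => (List.eraseIdx_eq_take_drop_succ _ _).symm

@[fun_prop] theorem countP {l : α → List β} {f : α → β → Bool} (hl : PT l)
    (hf : PT fun p : α × β => f p.1 p.2) : PT fun a => (l a).countP (f a) :=
  (hl.filter hf).length.of_eq fun _ => List.countP_eq_length_filter.symm

@[fun_prop] theorem count [BEq β] [LawfulBEq β] {l : α → List β} {x : α → β} (hx : PT x)
    (hl : PT l) : PT fun a => (l a).count (x a) :=
  hl.countP (f := fun a y => y == x a) (by fun_prop)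

@[fun_prop] theorem findIdx {l : α → List β} {f : α → β → Bool} (hl : PT l)
    (hf : PT fun p : α × β => f p.1 p.2) : PT fun a => (l a).findIdx (f a) := by
  have key : ∀ a (m : List β),
      m.foldr (fun x c => bif f a x then 0 else c + 1) 0 = m.findIdx (f a) := by
    intro a m
    induction m with
    | nil => rfl
    | cons x m ih => rw [List.foldr_cons, ih, List.findIdx_cons]
  exact (foldr_grow (f := fun a x c => bif f a x then 0 else c + 1) (fun _ => 6) hl (const 0)
    (by fun_prop) (by fun_prop) fun a x c _ => by
      have := esize_nat_succ_le c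
      have := esize_pos c
      cases f a x <;> (simp; try omega)).of_eq fun a => key a _

@[fun_prop] theorem idxOf [BEq β] [LawfulBEq β] {l : α → List β} {x : α → β} (hx : PT x)
    (hl : PT l) : PT fun a => (l a).idxOf (x a) :=
  hl.findIdx (f := fun a y => y == x a) (by fun_prop)

@[fun_prop] theorem takeWhile {l : α → List β} {f : α → β → Bool} (hl : PT l)
    (hf : PT fun p : α × β => f p.1 p.2) : PT fun a => (l a).takeWhile (f a) :=
  (take (hl.findIdx (f := fun a x => !f a x) hf.bnot) hl).of_eq fun _ =>
    List.takeWhile_eq_take_findIdx_not.symm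

@[fun_prop] theorem dropWhile {l : α → List β} {f : α → β → Bool} (hl : PT l)
    (hf : PT fun p : α × β => f p.1 p.2) : PT fun a => (l a).dropWhile (f a) :=
  (drop (hl.findIdx (f := fun a x => !f a x) hf.bnot) hl).of_eq fun _ =>
    List.dropWhile_eq_drop_findIdx_not.symm

@[fun_prop] theorem isPrefix {l m : α → List β} (hl : PT l) (hm : PT m) :
    PT fun a => l a <+: m a :=
  (hl.eq (take hl.length hm)).of_iff fun _ => List.prefix_iff_eq_take.symm

@[fun_prop] theorem isSuffix {l m : α → List β} (hl : PT l) (hm : PT m) :
    PT fun a => l a <:+ m a :=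
  (hl.reverse.isPrefix hm.reverse).of_iff fun _ => List.reverse_prefix

@[fun_prop] theorem tails {l : α → List β} (hl : PT l) : PT fun a => (l a).tails :=
  ((range hl.length.succ (PB.length hl).succ).map (f := fun a i => (l a).drop i)
    (by fun_prop)).of_eq fun a => by
    apply List.ext_getElem
    · simp
    · intro i h1 h2
      simp

@[fun_prop] theorem inits {l : α → List β} (hl : PT l) : PT fun a => (l a).inits :=
  ((range hl.length.succ (PB.length hl).succ).map (f := fun a i => (l a).take i)
    (by fun_prop)).of_eq fun a => by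
    apply List.ext_getElem
    · simp
    · intro i h1 h2
      simp

@[fun_prop] theorem isInfix {l m : α → List β} (hl : PT l) (hm : PT m) :
    PT fun a => l a <:+: m a :=
  (hm.tails.exists_mem (p := fun a t => l a <+: t) (by fun_prop)).of_iff fun a => by
    simp only [List.mem_tails, List.infix_iff_prefix_suffix]
    exact ⟨fun ⟨t, h1, h2⟩ => ⟨t, h2, h1⟩, fun ⟨t, h1, h2⟩ => ⟨t, h2, h1⟩⟩

theorem forall_lt {n : α → ℕ} {p : α → ℕ → Prop} (hn : PT n) (hn' : PB n)
    (hp : PT fun x : α × ℕ => p x.1 x.2) : PT fun a => ∀ i < n a, p a i :=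
  ((range hn hn').forall_mem hp).of_iff fun a => by simp

@[fun_prop] theorem exists_lt {n : α → ℕ} {p : α → ℕ → Prop} (hn : PT n) (hn' : PB n)
    (hp : PT fun x : α × ℕ => p x.1 x.2) : PT fun a => ∃ i < n a, p a i :=
  ((range hn hn').exists_mem hp).of_iff fun a => by simp

end PT

end Crest.Agent.Lib.PolyTime
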