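/-
Lib/PolyTime/Bridge: from `PT` / `CT` to the notions of the Prelude (`PolyTime`, `PolyTimePred`,
`InP`, `InNP`, `RandPolyTime`, `TimeBound`, ...).  Author: helper82.
-/
import Crest.Agent.Lib.PolyTime.Nat
import Crest.Prelude.Def_Randomized
import Crest.Prelude.Def_ExpTime

set_option autoImplicit false

namespace Crest.Agent.Lib.PolyTime

open Function Crest.Complexity Crest.DTime

/-- `g` is bounded by a polynomial in the measure `μ`. -/
def PolyIn {α : Type} (μ g : α → ℕ) : Prop := ∃ k : ℕ, ∀ a, g a ≤ (μ a + 2) ^ k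

namespace PolyIn
variable {α : Type} {μ f g : α → ℕ}

theorem mono (h : PolyIn μ g) (hf : ∀ a, f a ≤ g a) : PolyIn μ f := by
  obtain ⟨k, h⟩ := h
  exact ⟨k, fun a => (hf a).trans (h a)⟩

theorem self : PolyIn μ μ := ⟨1, fun a => by simp⟩

theorem of_le (h : ∀ a, f a ≤ μ a) : PolyIn μ f := self.mono h

theorem const (c : ℕ) : PolyIn μ (fun _ => c) :=
  ⟨c, fun _ => Nat.lt_two_pow_self.le.trans (Nat.pow_le_pow_left (by omega) c)⟩

theorem add (hf : PolyIn μ f) (hg : PolyIn μ g) : PolyIn μ (fun a => f a + g a) := by
  obtain ⟨k, hf⟩ := hf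
  obtain ⟨l, hg⟩ := hg
  refine ⟨max k l + 1, fun a => ?_⟩
  have h1 := (hf a).trans (Nat.pow_le_pow_right (by omega) (le_max_left k l))
  have h2 := (hg a).trans (Nat.pow_le_pow_right (by omega) (le_max_right k l))
  rw [pow_succ]
  nlinarith

theorem mul (hf : PolyIn μ f) (hg : PolyIn μ g) : PolyIn μ (fun a => f a * g a) := by
  obtain ⟨k, hf⟩ := hf
  obtain ⟨l, hg⟩ := hg
  exact ⟨k + l, fun a => by rw [pow_add]; exact Nat.mul_le_mul (hf a) (hg a)⟩

theorem pow (hf : PolyIn μ f) (m : ℕ) : PolyIn μ (fun a => f a ^ m) := by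
  obtain ⟨k, hf⟩ := hf
  exact ⟨k * m, fun a => by rw [pow_mul]; exact Nat.pow_le_pow_left (hf a) m⟩

end PolyIn

/-- Prove `PolyIn μ g` for `g` built by `+`, `*`, `^` from constants and hypotheses. -/
macro "poly_in" : tactic =>
  `(tactic| repeat' (first
    | assumption | exact PolyIn.const _ | apply PolyIn.add | apply PolyIn.mul | apply PolyIn.pow))

/-- `f` is computable within time `t` (explicit-time version of `PT`). -/
def CT {α β : Type} [Enc α] [Enc β] (f : α → β) (t : α → ℕ) : Prop :=
  TC enc (fun a => enc (f a)) t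

section CT
variable {α β γ : Type} [Enc α] [Enc β] [Enc γ]

theorem CT.mono {f : α → β} {t t' : α → ℕ} (h : CT f t) (ht : ∀ a, t a ≤ t' a) : CT f t' :=
  TC.mono h ht

theorem CT.of_eq {f g : α → β} {t : α → ℕ} (h : CT f t) (e : ∀ a, f a = g a) : CT g t :=
  funext e ▸ h

theorem CT.comp {f : β → γ} {g : α → β} {t : β → ℕ} {t' : α → ℕ} (hf : CT f t) (hg : CT g t') :
    CT (fun a => f (g a)) (fun a => t' a + t (g a)) := TC.comp hg (TC.reindex hf g)

theorem CT.esize_le {f : α → β} {t : α → ℕ} (h : CT f t) (a : α) :
    esize (f a) ≤ esize a + t a := TC.size_le h a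

theorem PT.exists_CT {f : α → β} (h : PT f) : ∃ k, CT f (fun a => (esize a + 1) ^ k) := by
  obtain ⟨t, ⟨k, ht⟩, h⟩ := h
  exact ⟨k, TC.mono h ht⟩

theorem CT.toPT {f : α → β} {t : α → ℕ} (h : CT f t) (ht : PB t) : PT f := ⟨t, ht, h⟩

/-- Padding: if the number `N a` is computable in polynomial time (in binary; it may be huge) then
a unary pad of that length is produced in time polynomial in `esize a + N a`. -/
theorem PT.exists_CT_pad {N : α → ℕ} (hN : PT N) :
    ∃ k, CT (fun a => (a, List.replicate (N a) ())) (fun a => (esize a + N a + 2) ^ k) := by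
  let step : ℕ × α × List Unit → ℕ × α × List Unit := fun s => (s.1 - 1, s.2.1, () :: s.2.2)
  have key : ∀ a i, step^[i] (N a, a, []) = (N a - i, a, List.replicate i ()) := by
    intro a i
    induction i with
    | zero => simp
    | succ i ih => rw [iterate_succ_apply', ih]; simp [step, List.replicate_succ, Nat.sub_sub]
  obtain ⟨k, h⟩ := PT.whileLoop_time (step := step)
    (cont := fun s => Decidable.decide (s.1 ≠ 0)) (by fun_prop) (by fun_prop)
  have h1 := h (fun a => (N a, a, ([] : List Unit))) N (fun a => esize a + 8 * N a + 4)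
    (fun a i hi => by rw [key]; simp; omega) (fun a => by rw [key]; simp) (fun a i hi => by
      rw [key]
      have h1 := esize_nat_mono (Nat.sub_le (N a) i)
      have h2 := esize_list_le (l := List.replicate i ()) (B := 1) (fun y _ => by simp)
      have h3 := esize_nat_le_self (N a)
      simp only [esize_pair, List.length_replicate] at *; omega)
  obtain ⟨k0, h0⟩ := (show PT fun a : α => (N a, a, ([] : List Unit)) by fun_prop).exists_CT
  obtain ⟨k2, h2⟩ := (PT.snd' (α := ℕ) (β := α × List Unit)).exists_CT
  have h3 := (TC.comp h0 h1).comp (TC.reindex h2 fun a => step^[N a] (N a, a, []))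
  have b1 : PolyIn (fun a => esize a + N a) fun a => esize a := .of_le fun a => by omega
  have b2 : PolyIn (fun a => esize a + N a) N := .of_le fun a => by omega
  have b3 : PolyIn (fun a => esize a + N a) fun a => (esize a + 1) ^ k0 +
      ((N a + 1) * ((esize a + 8 * N a + 4 + 1) ^ k + 9) + 2) + (esize a + 2 * N a + 4 + 1) ^ k2 := by
    poly_in
  obtain ⟨k3, b3⟩ := b3
  refine ⟨k3, (TC.congr h3 (fun _ => rfl) fun a => by rw [key]).mono fun a => ?_⟩
  have e : esize (step^[N a] (N a, a, [])) = esize a + 2 * N a + 4 := by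
    rw [key, esize_pair, esize_pair, esize_list]; simp; omega
  rw [e]
  exact b3 a

/-- A polynomial-time function of the input and a unary pad of length `N a` runs in time polynomial
in `esize a + N a`.  Use it for quasi-polynomial and exponential time bounds. -/
theorem PT.exists_CT_of_pad {N : α → ℕ} {g : α × List Unit → β} (hN : PT N) (hg : PT g) :
    ∃ k, CT (fun a => g (a, List.replicate (N a) ())) (fun a => (esize a + N a + 2) ^ k) := by
  obtain ⟨k, h⟩ := hN.exists_CT_pad
  obtain ⟨k', h'⟩ := hg.exists_CT
  have b1 : PolyIn (fun a => esize a + N a) fun a => esize a := .of_le fun a => by omega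
  have b2 : PolyIn (fun a => esize a + N a) N := .of_le fun a => by omega
  have b3 : PolyIn (fun a => esize a + N a) fun a => (esize a + N a + 2) ^ k +
      (esize a + 2 * N a + 2 + 1) ^ k' := by poly_in
  obtain ⟨k3, b3⟩ := b3
  refine ⟨k3, (h'.comp h).mono fun a => ?_⟩
  have e : esize (a, List.replicate (N a) ()) = esize a + 2 * N a + 2 := by
    rw [esize_pair, esize_list]; simp; omega
  rw [e]
  exact b3 a

end CT

/-- Group a bit string into pairs. -/
def pairUp (r : List Bool) : List (Bool × Bool) :=
  (List.range (r.length / 2)).map fun i => (r.getD (2 * i) false, r.getD (2 * i + 1) false)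

theorem pairUp_pt : PT pairUp := by unfold pairUp; fun_prop

theorem pairUp_flatMap {G : Type} (c1 c2 : G → Bool) (l : List G) :
    pairUp (l.flatMap fun g => [c1 g, c2 g]) = l.map fun g => (c1 g, c2 g) := by
  induction l with
  | nil => simp [pairUp]
  | cons g l ih =>
    rw [List.map_cons, ← ih]
    simp only [pairUp, List.flatMap_cons, List.cons_append, List.nil_append, List.length_cons]
    rw [show ((l.flatMap fun g => [c1 g, c2 g]).length + 1 + 1) / 2 =
      (l.flatMap fun g => [c1 g, c2 g]).length / 2 + 1 by omega, List.range_succ_eq_map]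
    simp [Nat.mul_succ, Function.comp_def]

/-- General explicit-time bridge. -/
theorem timeBoundComputable_of_CT {α β G : Type} [Fintype G] (ea : α → List G)
    (eb : β → List Bool) (f : α → β) (c1 c2 : G → Bool) (F : List (Bool × Bool) → List Bool)
    (t : List (Bool × Bool) → ℕ) (hF : CT F t)
    (h : ∀ a, F ((ea a).map fun g => (c1 g, c2 g)) = eb (f a)) (T : ℕ → ℕ)
    (hT : ∀ a, t ((ea a).map fun g => (c1 g, c2 g)) ≤ T (ea a).length) :
    ∃ k, TimeBoundComputable ea eb f (fun n => 10 * T n + (n + 2) ^ k) := by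
  obtain ⟨k, h0⟩ := (pairUp_pt.comp (PT.reverse PT.id')).exists_CT
  have h1 := TC.reindex (hF.comp h0) fun a => ((ea a).flatMap fun g => [c1 g, c2 g]).reverse
  simp only [List.reverse_reverse, pairUp_flatMap, h] at h1
  have b0 : PolyIn (fun n : ℕ => n) fun n => n := .self
  obtain ⟨k3, b3⟩ : PolyIn (fun n : ℕ => n) fun n => (8 * n + 2) ^ k + 72 * n + 9 + 15 * n + 8 := by
    poly_in
  refine ⟨k3, timeBoundComputable_mono (timeBoundComputable_of_TC ea eb f c1 c2 _
    (fun n => 10 * T n + (8 * n + 2) ^ k + 72 * n + 9) h1 fun a => ?_) fun n => ?_⟩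
  · have h2 := hF.esize_le ((ea a).map fun g => (c1 g, c2 g))
    rw [h] at h2
    have h3 := length_lt_esize (eb (f a))
    have h4 := hT a
    have h5 : esize ((ea a).map fun g => (c1 g, c2 g)) ≤ 8 * (ea a).length + 1 := by
      have := esize_list_le (l := (ea a).map fun g => (c1 g, c2 g)) (B := 7) fun p _ => by
        have := esize_bool_le p.1; have := esize_bool_le p.2; rw [esize_prod]; omega
      simp only [List.length_map] at this; omega
    have h6 : (esize ((ea a).flatMap fun g => [c1 g, c2 g]).reverse + 1) ^ k ≤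
        (8 * (ea a).length + 2) ^ k := by
      refine Nat.pow_le_pow_left ?_ _
      have := esize_boolList_le ((ea a).flatMap fun g => [c1 g, c2 g]).reverse
      have hl : ((ea a).flatMap fun g => [c1 g, c2 g]).reverse.length = 2 * (ea a).length := by
        simp [List.length_flatMap, Nat.mul_comm]
      omega
    omega
  · have := b3 n
    simp only at this; omega

/-- General polynomial-time bridge. -/
theorem polyTimeComputable_of_PT {α β G : Type} [Fintype G] (ea : α → List G)
    (eb : β → List Bool) (f : α → β) (c1 c2 : G → Bool) (F : List (Bool × Bool) → List Bool)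
    (hF : PT F) (h : ∀ a, F ((ea a).map fun g => (c1 g, c2 g)) = eb (f a)) :
    PolyTimeComputable ea eb f := by
  obtain ⟨k, hF⟩ := hF.exists_CT
  obtain ⟨k', h'⟩ := timeBoundComputable_of_CT ea eb f c1 c2 F _ hF h (fun n => (8 * n + 2) ^ k)
    fun a => Nat.pow_le_pow_left (by
      have := esize_list_le (l := (ea a).map fun g => (c1 g, c2 g)) (B := 7) fun p _ => by
        have := esize_bool_le p.1; have := esize_bool_le p.2; rw [esize_prod]; omega
      simp only [List.length_map] at this; omega) _
  exact polyTimeComputable_of_timeBound h'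
    (10 * (8 * Polynomial.X + 2) ^ k + (Polynomial.X + 2) ^ k') fun n => by simp

/-- Input given by an arbitrary presentation as a bit string. -/
theorem PT.polyTimeComputable {α β : Type} (ea : α → List Bool) (eb : β → List Bool) (f : α → β)
    {F : List Bool → List Bool} (hF : PT F) (h : ∀ a, F (ea a) = eb (f a)) :
    PolyTimeComputable ea eb f :=
  polyTimeComputable_of_PT ea eb f id id (fun l => F (l.map Prod.fst)) (by fun_prop)
    fun a => by simp [Function.comp_def, h]

theorem PT.polyTime {f : List Bool → List Bool} (hf : PT f) : PolyTime f :=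
  hf.polyTimeComputable _ _ f fun _ => rfl

theorem PT.polyTimePred {f : List Bool → Bool} (hf : PT f) : PolyTimePred f :=
  PT.polyTimeComputable (F := fun x => [f x]) _ _ f (by fun_prop) fun _ => rfl

/-- Decode the tagged presentation of a pair of strings. -/
def unTag (l : List (Bool × Bool)) : List Bool × List Bool :=
  ((l.filter fun p => !p.1).map Prod.snd, (l.filter fun p => p.1).map Prod.snd)

theorem unTag_pt : PT unTag := by unfold unTag; fun_prop

theorem unTag_pairEnc (p : List Bool × List Bool) :
    unTag ((pairEnc p).map fun g => (g.isRight, g.elim id id)) = p := by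
  obtain ⟨x, y⟩ := p
  have e : pairEnc (x, y) = x.map Sum.inl ++ y.map Sum.inr := rfl
  simp [e, unTag, List.filter_map, Function.comp_def]

theorem PT.polyTimeComputable₂ {β : Type} (eb : β → List Bool) (f : List Bool × List Bool → β)
    (hf : PT fun p => eb (f p)) : PolyTimeComputable pairEnc eb f :=
  polyTimeComputable_of_PT pairEnc eb f Sum.isRight (Sum.elim id id) (fun l => eb (f (unTag l)))
    (hf.comp unTag_pt) fun p => by rw [unTag_pairEnc]

theorem PT.polyTime₂ {f : List Bool × List Bool → List Bool} (hf : PT f) :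
    PolyTimeComputable pairEnc (Computability.encodingList Bool).encode f :=
  PT.polyTimeComputable₂ _ f hf

theorem PT.randPolyTime {A : List Bool × List Bool → List Bool} (hA : PT A) :
    Crest.Randomized.RandPolyTime A := hA.polyTime₂

theorem PT.polyTimePred₂ {f : List Bool × List Bool → Bool} (hf : PT f) : PolyTimePred₂ f :=
  PT.polyTimeComputable₂ _ f (show PT fun p => [f p] by fun_prop)

theorem PT.inP {L : Set (List Bool)} (hL : PT fun x => x ∈ L) : InP L := by
  classical
  exact ⟨fun x => Decidable.decide (x ∈ L), hL.decide.polyTimePred, fun x => by simp⟩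

theorem PT.inNP {L : Set (List Bool)} {R : List Bool → List Bool → Prop}
    (hR : PT fun p : List Bool × List Bool => R p.1 p.2) (p : Polynomial ℕ)
    (h : ∀ x, x ∈ L ↔ ∃ w : List Bool, w.length ≤ p.eval x.length ∧ R x w) : InNP L := by
  classical
  exact ⟨fun q => Decidable.decide (R q.1 q.2), p, hR.decide.polyTimePred₂, fun x => by simp [h]⟩

theorem PT.polyTimeReducible {A B : Set (List Bool)} {f : List Bool → List Bool} (hf : PT f)
    (h : ∀ x, x ∈ A ↔ f x ∈ B) : PolyTimeReducible A B := ⟨f, hf.polyTime, h⟩

/-- Explicit-time bridge for inputs presented as bit strings. -/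
theorem CT.timeBoundComputable {α β : Type} (ea : α → List Bool) (eb : β → List Bool) (f : α → β)
    {F : List Bool → List Bool} {t : List Bool → ℕ} (hF : CT F t) (h : ∀ a, F (ea a) = eb (f a))
    (T : ℕ → ℕ) (hT : ∀ x, t x ≤ T x.length) :
    ∃ k, TimeBoundComputable ea eb f (fun n => 10 * T n + (n + 2) ^ k) := by
  obtain ⟨k, h0⟩ := (show PT fun l : List (Bool × Bool) => l.map Prod.fst by fun_prop).exists_CT
  obtain ⟨k', h'⟩ := timeBoundComputable_of_CT ea eb f id id _ _ (hF.comp h0)
    (fun a => by simp [Function.comp_def, h]) (fun n => T n + (8 * n + 2) ^ k) fun a => by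
      have h1 := hT (ea a)
      have h2 : (esize ((ea a).map fun g => (id g, id g)) + 1) ^ k ≤ (8 * (ea a).length + 2) ^ k :=
        Nat.pow_le_pow_left (by
          have := esize_list_le (l := (ea a).map fun g => (id g, id g)) (B := 7) fun p _ => by
            have := esize_bool_le p.1; have := esize_bool_le p.2; rw [esize_prod]; omega
          simp only [List.length_map] at this; omega) _
      simp only [List.map_map, Function.comp_def, id, List.map_id'] at *
      omega
  have b0 : PolyIn (fun n : ℕ => n) fun n => n := .self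
  obtain ⟨k3, b3⟩ : PolyIn (fun n : ℕ => n) fun n => 10 * (8 * n + 2) ^ k + (n + 2) ^ k' := by
    poly_in
  refine ⟨k3, timeBoundComputable_mono h' fun n => ?_⟩
  have := b3 n
  simp only at this; omega

theorem CT.timeBound {f : List Bool → List Bool} {t : List Bool → ℕ} (hf : CT f t) (T : ℕ → ℕ)
    (hT : ∀ x, t x ≤ T x.length) : ∃ k, TimeBound f (fun n => 10 * T n + (n + 2) ^ k) :=
  CT.timeBoundComputable (Computability.encodingList Bool).encode
    (Computability.encodingList Bool).encode f hf (fun _ => rfl) T hT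

/-- Padded form: `g` is polynomial-time in the input and a unary pad of length `N |x|`. -/
theorem PT.timeBoundComputable_pad {α β : Type} (ea : α → List Bool) (eb : β → List Bool)
    (f : α → β) {N : ℕ → ℕ} {g : List Bool × List Unit → List Bool}
    (hN : PT fun x : List Bool => N x.length) (hg : PT g)
    (h : ∀ a, g (ea a, List.replicate (N (ea a).length) ()) = eb (f a)) :
    ∃ k, TimeBoundComputable ea eb f (fun n => (N n + n + 2) ^ k) := by
  obtain ⟨k, h0⟩ := hN.exists_CT_of_pad hg
  obtain ⟨k', h1⟩ := h0.timeBoundComputable ea eb f h (fun n => (4 * n + N n + 3) ^ k) fun x =>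
    Nat.pow_le_pow_left (by have := esize_boolList_le x; omega) _
  have b1 : PolyIn (fun n => N n + n) fun n => n := .of_le fun a => by omega
  have b2 : PolyIn (fun n => N n + n) N := .of_le fun a => by omega
  obtain ⟨k3, b3⟩ : PolyIn (fun n => N n + n) fun n =>
    10 * (4 * n + N n + 3) ^ k + (n + 2) ^ k' := by poly_in
  exact ⟨k3, timeBoundComputable_mono h1 b3⟩

/-- Membership in EXPTIME: a predicate that is polynomial-time given a pad of length `2 ^ |x| ^ c`. -/
theorem PT.inEXP {L : Set (List Bool)} (c : ℕ) {R : List Bool × List Unit → Prop} (hR : PT R)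
    (h : ∀ x, x ∈ L ↔ R (x, List.replicate (2 ^ x.length ^ c) ())) : Crest.ExpTime.InEXP L := by
  classical
  obtain ⟨k, h1⟩ := PT.timeBoundComputable_pad (Computability.encodingList Bool).encode
    Computability.encodeBool (fun x => Decidable.decide (x ∈ L)) (N := fun n => 2 ^ n ^ c)
    (g := fun p => [Decidable.decide (R p)]) (by fun_prop) (by fun_prop)
    fun x => by
      show [Decidable.decide (R (x, List.replicate (2 ^ x.length ^ c) ()))] = [_]
      simp [h]
  refine ⟨c + 2, fun x => Decidable.decide (x ∈ L), 2 ^ (k * (k ^ c + k + 2)) * 2 ^ (3 * k),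
    timeBoundComputable_mono h1 fun n => ?_, fun x => by simp⟩
  have a1 : 2 ^ n ^ c + n + 2 ≤ 2 ^ (n ^ c + n + 2) := by
    have h1 : n + 2 < 2 ^ (n + 2) := Nat.lt_two_pow_self
    have h2 : 1 ≤ 2 ^ n ^ c := Nat.one_le_two_pow
    rw [add_assoc (n ^ c), pow_add]; nlinarith
  have a2 : (2 ^ n ^ c + n + 2) ^ k ≤ 2 ^ (k * (n ^ c + n + 2)) := by
    rw [mul_comm, pow_mul]; exact Nat.pow_le_pow_left a1 _
  refine a2.trans (le_trans ?_ (Nat.le_add_right _ _))
  rw [← pow_add, ← pow_add]
  refine Nat.pow_le_pow_right (by omega) ?_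
  rcases le_total n k with hn | hn
  · have : n ^ c ≤ k ^ c := Nat.pow_le_pow_left hn _
    have : k * (n ^ c + n + 2) ≤ k * (k ^ c + k + 2) := Nat.mul_le_mul_left _ (by omega)
    omega
  · rcases Nat.lt_or_ge n 2 with h2 | h2
    · have : n ^ c ≤ 1 := by
        rcases (by omega : n = 0 ∨ n = 1) with rfl | rfl
        · exact zero_pow_le_one c
        · simp
      have : k * (n ^ c + n + 2) ≤ k * 4 := Nat.mul_le_mul_left _ (by omega)
      have : k * 2 ≤ k * (k ^ c + k + 2) := Nat.mul_le_mul_left _ (by omega)
      omega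
    · rcases Nat.eq_zero_or_pos c with rfl | hc
      · simp only [pow_zero, zero_add]; nlinarith
      · have h3 : n ≤ n ^ c := Nat.le_self_pow hc.ne' n
        have h4 : k * n ^ c ≤ n * n ^ c := Nat.mul_le_mul_right _ hn
        have h5 : k * n ≤ n * n ^ c := Nat.mul_le_mul hn h3
        have h6 : 2 * (n * n ^ c) ≤ n * (n * n ^ c) := Nat.mul_le_mul_right _ h2
        have h7 : n ^ (c + 2) = n * (n * n ^ c) := by ring
        have h8 : k * (n ^ c + n + 2) = k * n ^ c + k * n + 2 * k := by ring
        omega

end Crest.Agent.Lib.PolyTime
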