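/-
Lib/PolyTime/IntRat: arithmetic on `ℤ` and `ℚ` is polynomial-time.  Author: helper82.
-/
import Crest.Agent.Lib.PolyTime.Nat

set_option autoImplicit false

namespace Crest.Agent.Lib.PolyTime

open Function

namespace PT
variable {α β γ : Type} [Enc α] [Enc β] [Enc γ]

theorem int_split {f : α → ℤ} (hf : PT f) :
    PT fun a => ((Decidable.decide (f a < 0), !Decidable.decide (f a < 0)), (f a).natAbs) :=
  hf.of_enc_eq_out fun _ => rfl

@[fun_prop] theorem natAbs {f : α → ℤ} (hf : PT f) : PT fun a => (f a).natAbs := hf.int_split.snd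

theorem int_neg_test {f : α → ℤ} (hf : PT f) : PT fun a => f a < 0 :=
  hf.int_split.fst.fst.of_decide

@[fun_prop] theorem int_natCast {f : α → ℕ} (hf : PT f) : PT fun a => (f a : ℤ) :=
  ((const (false, true)).prodMk hf).of_enc_eq_out fun a => by
    show enc ((Decidable.decide ((f a : ℤ) < 0), !Decidable.decide ((f a : ℤ) < 0)),
      (f a : ℤ).natAbs) = _
    have : ¬ (f a : ℤ) < 0 := by omega
    simp [this]

@[fun_prop] theorem int_ofNat {f : α → ℕ} (hf : PT f) : PT fun a => Int.ofNat (f a) :=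
  hf.int_natCast

@[fun_prop] theorem int_neg {f : α → ℤ} (hf : PT f) : PT fun a => -f a := by
  have h : PT fun a => Decidable.decide (¬ f a < 0 ∧ (f a).natAbs ≠ 0) :=
    (hf.int_neg_test.not.and (hf.natAbs.ne (const 0))).decide
  refine ((h.prodMk h.bnot).prodMk hf.natAbs).of_enc_eq_out fun a => ?_
  show enc ((Decidable.decide (-f a < 0), !Decidable.decide (-f a < 0)), (-f a).natAbs) = _
  have : (-f a < 0) ↔ (¬ f a < 0 ∧ (f a).natAbs ≠ 0) := by omega
  simp only [this, Int.natAbs_neg]

@[fun_prop] theorem int_toNat {f : α → ℤ} (hf : PT f) : PT fun a => (f a).toNat :=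
  (hf.int_neg_test.ite (const 0) hf.natAbs).of_eq fun a => by split_ifs <;> omega

theorem int_subNat {f g : α → ℕ} (hf : PT f) (hg : PT g) : PT fun a => (f a : ℤ) - (g a : ℤ) :=
  ((nat_le hg hf).ite (nat_sub hf hg).int_natCast (nat_sub hg hf).int_natCast.int_neg).of_eq
    fun a => by split_ifs <;> omega

@[fun_prop] theorem int_add {f g : α → ℤ} (hf : PT f) (hg : PT g) : PT fun a => f a + g a :=
  (int_subNat (hf.int_toNat.nat_add hg.int_toNat)
    (hf.int_neg.int_toNat.nat_add hg.int_neg.int_toNat)).of_eq fun a => by omega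

@[fun_prop] theorem int_sub {f g : α → ℤ} (hf : PT f) (hg : PT g) : PT fun a => f a - g a :=
  (hf.int_add hg.int_neg).of_eq fun a => by omega

@[fun_prop] theorem int_lt {f g : α → ℤ} (hf : PT f) (hg : PT g) : PT fun a => f a < g a :=
  (hf.int_sub hg).int_neg_test.of_iff fun a => by omega

@[fun_prop] theorem int_le {f g : α → ℤ} (hf : PT f) (hg : PT g) : PT fun a => f a ≤ g a :=
  (int_lt hg hf).not.of_iff fun _ => not_lt

@[fun_prop] theorem int_gt {f g : α → ℤ} (hf : PT f) (hg : PT g) : PT fun a => f a > g a :=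
  int_lt hg hf

@[fun_prop] theorem int_ge {f g : α → ℤ} (hf : PT f) (hg : PT g) : PT fun a => f a ≥ g a :=
  int_le hg hf

@[fun_prop] theorem int_max {f g : α → ℤ} (hf : PT f) (hg : PT g) :
    PT fun a => max (f a) (g a) :=
  ((int_le hf hg).ite hg hf).of_eq fun _ => (max_def _ _).symm

@[fun_prop] theorem int_min {f g : α → ℤ} (hf : PT f) (hg : PT g) :
    PT fun a => min (f a) (g a) :=
  ((int_le hf hg).ite hf hg).of_eq fun _ => (min_def _ _).symm

@[fun_prop] theorem int_abs {f : α → ℤ} (hf : PT f) : PT fun a => |f a| :=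
  hf.natAbs.int_natCast.of_eq fun _ => Int.natCast_natAbs _

@[fun_prop] theorem int_sign {f : α → ℤ} (hf : PT f) : PT fun a => (f a).sign :=
  (hf.int_neg_test.ite (const (-1)) ((hf.eq (const 0)).ite (const 0) (const 1))).of_eq fun a => by
    split_ifs with h1 h2
    · exact (Int.sign_eq_neg_one_of_neg h1).symm
    · simp [h2]
    · exact (Int.sign_eq_one_of_pos (by omega)).symm

@[fun_prop] theorem int_mul {f g : α → ℤ} (hf : PT f) (hg : PT g) : PT fun a => f a * g a :=
  ((hf.int_neg_test.iff hg.int_neg_test).ite (hf.natAbs.nat_mul hg.natAbs).int_natCast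
    (hf.natAbs.nat_mul hg.natAbs).int_natCast.int_neg).of_eq fun a => by
      push_cast
      by_cases h1 : f a < 0 <;> by_cases h2 : g a < 0 <;>
        simp [h1, h2, abs_of_neg, abs_of_nonneg, not_lt.mp]

@[fun_prop] theorem int_negSucc {f : α → ℕ} (hf : PT f) : PT fun a => Int.negSucc (f a) :=
  hf.succ.int_natCast.int_neg.of_eq fun a => by rw [Int.negSucc_eq]; simp

@[fun_prop] theorem int_emod {f g : α → ℤ} (hf : PT f) (hg : PT g) : PT fun a => f a % g a := by
  have h1 := (hf.natAbs.nat_mod hg.natAbs).int_natCast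
  refine ((hf.int_neg_test.and (hg.ne (const 0))).ite
    ((h1.eq (const 0)).ite (const 0) (hg.int_abs.int_sub h1))
    (hf.int_neg_test.ite hf h1)).of_eq fun a => ?_
  generalize f a = x; generalize g a = y
  rw [← Int.emod_abs x y]
  push_cast
  split_ifs with h2 h3 h4
  · rw [abs_of_neg h2.1] at h3
    exact (Int.emod_eq_zero_of_dvd (by simpa using Int.dvd_of_emod_eq_zero h3)).symm
  · have hy : 0 < |y| := abs_pos.mpr h2.2
    have e1 := Int.emod_nonneg |x| hy.ne'
    have e2 := Int.emod_lt_of_pos |x| hy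
    have e3 := Int.emod_add_mul_ediv |x| |y|
    symm
    rw [abs_of_neg h2.1] at *
    refine ((Int.ediv_emod_unique (q := -(-x / |y|) - 1) hy).mpr ⟨?_, by omega, by omega⟩).2
    linarith
  · have : y = 0 := by by_contra h; exact h2 ⟨h4, h⟩
    simp [this]
  · rw [abs_of_nonneg (not_lt.mp h4)]

@[fun_prop] theorem int_ediv {f g : α → ℤ} (hf : PT f) (hg : PT g) : PT fun a => f a / g a := by
  have h1 := hf.int_sub (hf.int_emod hg)
  refine (((h1.int_sign.int_mul hg.int_sign).int_mul
    (h1.natAbs.nat_div hg.natAbs).int_natCast)).of_eq fun a => ?_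
  generalize f a = x; generalize g a = y
  rcases eq_or_ne y 0 with rfl | hy
  · simp
  have e : x - x % y = y * (x / y) := by have := Int.emod_add_mul_ediv x y; omega
  rw [e, Int.natAbs_mul, Nat.mul_div_cancel_left _ (Int.natAbs_pos.mpr hy), Int.sign_mul]
  have : y.sign * y.sign = 1 := by
    rcases lt_or_gt_of_ne hy with h | h
    · simp [Int.sign_eq_neg_one_of_neg h]
    · simp [Int.sign_eq_one_of_pos h]
  calc y.sign * (x / y).sign * y.sign * ((x / y).natAbs : ℤ)
      = (y.sign * y.sign) * ((x / y).sign * ((x / y).natAbs : ℤ)) := by ring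
    _ = x / y := by rw [this, one_mul, Int.sign_mul_natAbs]

@[fun_prop] theorem int_dvd {f g : α → ℤ} (hf : PT f) (hg : PT g) : PT fun a => f a ∣ g a :=
  (hf.natAbs.nat_dvd hg.natAbs).of_iff fun _ => Int.natAbs_dvd_natAbs

@[fun_prop] theorem int_gcd {f g : α → ℤ} (hf : PT f) (hg : PT g) :
    PT fun a => Int.gcd (f a) (g a) := hf.natAbs.nat_gcd hg.natAbs

@[fun_prop] theorem int_pow {f : α → ℤ} {k : α → ℕ} (hf : PT f) (hk : PT k) (hk' : PB k) :
    PT fun a => f a ^ k a :=
  (iterate_grow (x := fun _ => (1 : ℤ)) (f := fun a c => c * f a) (fun a => esize (f a)) hk hk'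
    (const 1) (by fun_prop) (by fun_prop) fun a c => esize_int_mul_le _ _).of_eq fun a => by
      generalize k a = m
      induction m with
      | zero => simp
      | succ m ih => rw [iterate_succ_apply', ih, pow_succ]

@[fun_prop] theorem int_sum {l : α → List ℤ} (hl : PT l) : PT fun a => (l a).sum :=
  (foldr_grow (f := fun _ x c => x + c) (fun p => esize p.2) hl (const 0) (by fun_prop)
    (by fun_prop) fun a x c _ => by have := esize_int_add_le x c; simp only; omega).of_eq
    fun _ => rfl

@[fun_prop] theorem int_prod {l : α → List ℤ} (hl : PT l) : PT fun a => (l a).prod :=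
  (foldr_grow (f := fun _ x c => x * c) (fun p => esize p.2) hl (const 1) (by fun_prop)
    (by fun_prop) fun a x c _ => by have := esize_int_mul_le x c; simp only; omega).of_eq
    fun _ => rfl

/-! ### Rationals -/

theorem rat_split {f : α → ℚ} (hf : PT f) : PT fun a => ((f a).num, (f a).den) :=
  hf.of_enc_eq_out fun _ => rfl

@[fun_prop] theorem rat_num {f : α → ℚ} (hf : PT f) : PT fun a => (f a).num := hf.rat_split.fst
@[fun_prop] theorem rat_den {f : α → ℚ} (hf : PT f) : PT fun a => (f a).den := hf.rat_split.snd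

theorem rat_of_num_den {f : α → ℚ} (h1 : PT fun a => (f a).num) (h2 : PT fun a => (f a).den) :
    PT f := (h1.prodMk h2).of_enc_eq_out fun _ => rfl

@[fun_prop] theorem mkRat {n : α → ℤ} {d : α → ℕ} (hn : PT n) (hd : PT d) :
    PT fun a => mkRat (n a) (d a) :=
  rat_of_num_den
    ((show PT fun a => if d a = 0 then 0 else n a / ((d a).gcd (n a).natAbs : ℕ) by
      fun_prop).of_eq fun a => (Rat.num_mkRat _ _).symm)
    ((show PT fun a => if d a = 0 then 1 else d a / (d a).gcd (n a).natAbs by
      fun_prop).of_eq fun a => (Rat.den_mkRat _ _).symm)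

@[fun_prop] theorem rat_intCast {f : α → ℤ} (hf : PT f) : PT fun a => (f a : ℚ) :=
  rat_of_num_den (hf.of_eq fun a => by simp) ((const 1).of_eq fun a => by simp)

@[fun_prop] theorem rat_natCast {f : α → ℕ} (hf : PT f) : PT fun a => (f a : ℚ) :=
  hf.int_natCast.rat_intCast.of_eq fun a => by simp

@[fun_prop] theorem rat_neg {f : α → ℚ} (hf : PT f) : PT fun a => -f a :=
  rat_of_num_den (hf.rat_num.int_neg.of_eq fun a => by simp) (hf.rat_den.of_eq fun a => by simp)

@[fun_prop] theorem rat_add {f g : α → ℚ} (hf : PT f) (hg : PT g) : PT fun a => f a + g a :=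
  (show PT fun a => _root_.mkRat ((f a).num * (g a).den + (g a).num * (f a).den)
    ((f a).den * (g a).den) by fun_prop).of_eq fun a => by
      rw [Rat.add_def, Rat.normalize_eq_mkRat]

@[fun_prop] theorem rat_mul {f g : α → ℚ} (hf : PT f) (hg : PT g) : PT fun a => f a * g a :=
  (show PT fun a => _root_.mkRat ((f a).num * (g a).num) ((f a).den * (g a).den) by
    fun_prop).of_eq fun a => by rw [Rat.mul_def, Rat.normalize_eq_mkRat]

@[fun_prop] theorem rat_sub {f g : α → ℚ} (hf : PT f) (hg : PT g) : PT fun a => f a - g a :=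
  (hf.rat_add hg.rat_neg).of_eq fun a => by ring

@[fun_prop] theorem rat_inv {f : α → ℚ} (hf : PT f) : PT fun a => (f a)⁻¹ :=
  (show PT fun a => _root_.mkRat ((f a).num.sign * (f a).den) (f a).num.natAbs by
    fun_prop).of_eq fun a => by
      rw [Rat.mkRat_eq_div]
      generalize f a = q
      rcases eq_or_ne q.num 0 with h | h
      · have : q = 0 := Rat.num_eq_zero.mp h
        simp [this]
      · have h1 : (q.num.sign : ℚ) * (q.num.natAbs : ℚ) = q.num := by
          have := congrArg (Int.cast : ℤ → ℚ) (Int.sign_mul_natAbs q.num)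
          rwa [Int.cast_mul, Int.cast_natCast] at this
        have h2 : (q.num.sign : ℚ) * (q.num.sign : ℚ) = 1 := by
          rcases lt_or_gt_of_ne h with h | h
          · simp [Int.sign_eq_neg_one_of_neg h]
          · simp [Int.sign_eq_one_of_pos h]
        have h3 : (q.num.natAbs : ℚ) ≠ 0 := by exact_mod_cast Int.natAbs_ne_zero.mpr h
        have h4 : (q.num : ℚ) ≠ 0 := by exact_mod_cast h
        conv_rhs => rw [← Rat.num_div_den q, inv_div]
        rw [div_eq_div_iff h3 h4, ← h1]
        push_cast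
        linear_combination (q.den * (q.num.natAbs : ℚ)) * h2

@[fun_prop] theorem rat_div {f g : α → ℚ} (hf : PT f) (hg : PT g) : PT fun a => f a / g a :=
  (hf.rat_mul hg.rat_inv).of_eq fun a => by rw [div_eq_mul_inv]

@[fun_prop] theorem rat_lt {f g : α → ℚ} (hf : PT f) (hg : PT g) : PT fun a => f a < g a :=
  (hf.rat_sub hg).rat_num.int_neg_test.of_iff fun a => by rw [Rat.num_neg, sub_neg]

@[fun_prop] theorem rat_le {f g : α → ℚ} (hf : PT f) (hg : PT g) : PT fun a => f a ≤ g a :=
  (rat_lt hg hf).not.of_iff fun _ => not_lt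

@[fun_prop] theorem rat_gt {f g : α → ℚ} (hf : PT f) (hg : PT g) : PT fun a => f a > g a :=
  rat_lt hg hf

@[fun_prop] theorem rat_ge {f g : α → ℚ} (hf : PT f) (hg : PT g) : PT fun a => f a ≥ g a :=
  rat_le hg hf

@[fun_prop] theorem rat_max {f g : α → ℚ} (hf : PT f) (hg : PT g) :
    PT fun a => max (f a) (g a) :=
  ((rat_le hf hg).ite hg hf).of_eq fun _ => (max_def _ _).symm

@[fun_prop] theorem rat_min {f g : α → ℚ} (hf : PT f) (hg : PT g) :
    PT fun a => min (f a) (g a) :=
  ((rat_le hf hg).ite hf hg).of_eq fun _ => (min_def _ _).symm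

@[fun_prop] theorem rat_abs {f : α → ℚ} (hf : PT f) : PT fun a => |f a| := hf.rat_max hf.rat_neg

@[fun_prop] theorem rat_floor {f : α → ℚ} (hf : PT f) : PT fun a => ⌊f a⌋ :=
  (hf.rat_num.int_ediv hf.rat_den.int_natCast).of_eq fun _ => (Rat.floor_def' ..).symm

@[fun_prop] theorem rat_ceil {f : α → ℚ} (hf : PT f) : PT fun a => ⌈f a⌉ :=
  hf.rat_neg.rat_floor.int_neg.of_eq fun a => by rw [Int.floor_neg, neg_neg]

@[fun_prop] theorem rat_natFloor {f : α → ℚ} (hf : PT f) : PT fun a => ⌊f a⌋₊ :=
  hf.rat_floor.int_toNat.of_eq fun _ => Int.floor_toNat _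

@[fun_prop] theorem rat_natCeil {f : α → ℚ} (hf : PT f) : PT fun a => ⌈f a⌉₊ :=
  hf.rat_ceil.int_toNat.of_eq fun _ => Int.ceil_toNat _

@[fun_prop] theorem rat_pow {f : α → ℚ} {k : α → ℕ} (hf : PT f) (hk : PT k) (hk' : PB k) :
    PT fun a => f a ^ k a :=
  rat_of_num_den ((hf.rat_num.int_pow hk hk').of_eq fun a => by simp)
    ((hf.rat_den.nat_pow hk hk').of_eq fun a => by simp)

end PT

/-- Logarithmic height of a rational: subadditive (up to `1`) under `+` and `*`. -/
def ratH (q : ℚ) : ℕ := (max q.num.natAbs q.den).size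

theorem esize_rat_le (q : ℚ) : esize q ≤ 12 * ratH q + 9 := by
  have h1 := Nat.size_le_size (le_max_left q.num.natAbs q.den)
  have h2 := Nat.size_le_size (le_max_right q.num.natAbs q.den)
  rw [esize_rat, esize_int, esize_nat, esize_nat, ratH]; omega

theorem ratH_le_esize (q : ℚ) : ratH q ≤ esize q := by
  rw [esize_rat, esize_int, esize_nat, esize_nat, ratH]
  rcases le_total q.num.natAbs q.den with h | h
  · rw [max_eq_right h]; omega
  · rw [max_eq_left h]; omega

theorem ratH_mkRat_le (n : ℤ) (d : ℕ) (hd : d ≠ 0) : ratH (mkRat n d) ≤ (max n.natAbs d).size := by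
  refine Nat.size_le_size (max_le_max ?_ ?_)
  · rw [Rat.num_mkRat, if_neg hd]; exact Int.natAbs_ediv_le_natAbs _ _
  · rw [Rat.den_mkRat, if_neg hd]; exact Nat.div_le_self _ _

theorem ratH_mul_le (p q : ℚ) : ratH (p * q) ≤ ratH p + ratH q := by
  rw [Rat.mul_def, Rat.normalize_eq_mkRat]
  refine (ratH_mkRat_le _ _ (Nat.mul_ne_zero p.den_nz q.den_nz)).trans
    ((Nat.size_le_size ?_).trans (natSize_mul_le _ _))
  rw [Int.natAbs_mul]
  exact max_le (Nat.mul_le_mul (le_max_left _ _) (le_max_left _ _))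
    (Nat.mul_le_mul (le_max_right _ _) (le_max_right _ _))

theorem ratH_add_le (p q : ℚ) : ratH (p + q) ≤ ratH p + ratH q + 1 := by
  rw [Rat.add_def, Rat.normalize_eq_mkRat]
  refine (ratH_mkRat_le _ _ (Nat.mul_ne_zero p.den_nz q.den_nz)).trans ?_
  have h1 : max (p.num * q.den + q.num * p.den).natAbs (p.den * q.den) ≤
      2 * (max p.num.natAbs p.den * max q.num.natAbs q.den) := by
    have a1 := Nat.mul_le_mul (le_max_left p.num.natAbs p.den) (le_max_right q.num.natAbs q.den)
    have a2 := Nat.mul_le_mul (le_max_right p.num.natAbs p.den) (le_max_left q.num.natAbs q.den)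
    have a3 := Nat.mul_le_mul (le_max_right p.num.natAbs p.den) (le_max_right q.num.natAbs q.den)
    have a4 := Int.natAbs_add_le (p.num * q.den) (q.num * p.den)
    simp only [Int.natAbs_mul, Int.natAbs_natCast] at a4
    rw [Nat.mul_comm q.num.natAbs] at a4
    exact max_le (by omega) (by omega)
  refine (Nat.size_le_size h1).trans ?_
  have h2 := natSize_add_le_max (max p.num.natAbs p.den * max q.num.natAbs q.den)
    (max p.num.natAbs p.den * max q.num.natAbs q.den)
  have h3 := natSize_mul_le (max p.num.natAbs p.den) (max q.num.natAbs q.den)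
  rw [two_mul]
  simp only [max_self] at h2
  unfold ratH; omega

@[simp] theorem ratH_neg (q : ℚ) : ratH (-q) = ratH q := by simp [ratH]

theorem ratH_sub_le (p q : ℚ) : ratH (p - q) ≤ ratH p + ratH q + 1 := by
  rw [sub_eq_add_neg]; simpa using ratH_add_le p (-q)

theorem ratH_inv_le (q : ℚ) : ratH q⁻¹ ≤ ratH q := by
  rcases eq_or_ne q 0 with rfl | h
  · simp
  · unfold ratH
    rw [Rat.num_inv, Rat.den_inv_of_ne_zero h, Int.natAbs_mul, Int.natAbs_sign_of_ne_zero
      (Rat.num_ne_zero.mpr h), one_mul, Int.natAbs_natCast, max_comm]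

theorem ratH_div_le (p q : ℚ) : ratH (p / q) ≤ ratH p + ratH q := by
  rw [div_eq_mul_inv]
  have := ratH_inv_le q
  have := ratH_mul_le p q⁻¹
  omega

namespace PT
variable {α β γ : Type} [Enc α] [Enc β] [Enc γ]

@[fun_prop] theorem _root_.Crest.Agent.Lib.PolyTime.PB.ratH {f : α → ℚ} (hf : PT f) :
    PB fun a => ratH (f a) := (PB.esize hf).mono fun _ => ratH_le_esize _

/-- Left fold controlled by a measure `μ` of the accumulator that grows additively and bounds the
size polynomially (`esize c ≤ (μ c + 2) ^ e`). -/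
theorem foldl_measure {l : α → List β} {ini : α → γ} {f : α → γ → β → γ} (μ : γ → ℕ) (e : ℕ)
    (g : α × β → ℕ) (hl : PT l) (hini : PT ini) (hf : PT fun p : α × γ × β => f p.1 p.2.1 p.2.2)
    (hg : PB g) (h0 : PB fun a => μ (ini a)) (hμ : ∀ c, esize c ≤ (μ c + 2) ^ e)
    (h : ∀ a c x, x ∈ l a → μ (f a c x) ≤ μ c + g (a, x)) :
    PT fun a => (l a).foldl (f a) (ini a) := by
  have hi : PB (fun a : α => esize a) := PB.esize_id
  obtain ⟨G, hG, hGg⟩ := hg.exists_bound (s := fun a => esize a + esize (l a) + 1) (by fun_prop)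
  refine foldl (fun a => (μ (ini a) + (l a).length * G a + 2) ^ e) hl hini hf
    (((h0.add ((PB.length hl).mul hG)).add (PB.const 2)).pow e) fun a i => ?_
  have : ∀ (m : List β) (c : γ), (∀ x ∈ m, x ∈ l a) →
      μ (m.foldl (f a) c) ≤ μ c + m.length * G a := by
    intro m
    induction m with
    | nil => intro c _; simp
    | cons x m ih =>
      intro c hm
      have hx := hm x (by simp)
      have h1 := ih (f a c x) (fun y hy => hm y (by simp [hy]))
      have h2 := h a c x hx
      have h3 := hGg a (a, x) (by have := esize_lt_of_mem hx; simp only [esize_pair]; omega)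
      simp only [List.foldl_cons, List.length_cons]
      nlinarith
  refine (hμ _).trans (Nat.pow_le_pow_left ?_ _)
  have h1 := this _ (ini a) fun x hx => List.mem_of_mem_take (i := i) hx
  have h2 : ((l a).take i).length * G a ≤ (l a).length * G a :=
    Nat.mul_le_mul_right _ (by simp)
  omega

theorem esize_rat_le_pow (q : ℚ) : esize q ≤ (ratH q + 2) ^ 5 := by
  have h1 := esize_rat_le q
  have h2 : 2 ^ 4 ≤ (ratH q + 2) ^ 4 := Nat.pow_le_pow_left (by omega) _
  rw [pow_succ]; nlinarith

@[fun_prop] theorem rat_sum {l : α → List ℚ} (hl : PT l) : PT fun a => (l a).sum :=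
  (foldl_measure (f := fun _ c x => c + x) ratH 5 (fun p => ratH p.2 + 1) hl (const 0)
    (by fun_prop) (by fun_prop) (PB.const _) esize_rat_le_pow
    fun a c x _ => ratH_add_le c x).of_eq fun _ => List.sum_eq_foldl.symm

@[fun_prop] theorem rat_prod {l : α → List ℚ} (hl : PT l) : PT fun a => (l a).prod :=
  (foldl_measure (f := fun _ c x => c * x) ratH 5 (fun p => ratH p.2) hl (const 1)
    (by fun_prop) (by fun_prop) (PB.const _) esize_rat_le_pow
    fun a c x _ => ratH_mul_le c x).of_eq fun _ => List.prod_eq_foldl.symm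

end PT

end Crest.Agent.Lib.PolyTime
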