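/-
Lib/PolyTime/Codes: the codes of `Crest.Enc` are polynomial-time computable and polynomial-time
parsable; parser combinators `Parses`.  Author: helper82.
-/
import Crest.Agent.Lib.PolyTime.Bridge
import Crest.Agent.Lib.PolyTime.IntRat
import Crest.Prelude.Def_BitEnc
import Crest.Prelude.Def_CNF

set_option autoImplicit false

namespace Crest.Agent.Lib.PolyTime

open Function Crest.Enc

namespace PT
variable {α : Type} [Enc α]

@[fun_prop] theorem natCode {f : α → ℕ} (hf : PT f) : PT fun a => natCode (f a) := by
  unfold Crest.Enc.natCode; fun_prop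

@[fun_prop] theorem intCode {f : α → ℤ} (hf : PT f) : PT fun a => intCode (f a) := by
  unfold Crest.Enc.intCode; fun_prop

@[fun_prop] theorem ratCode {f : α → ℚ} (hf : PT f) : PT fun a => ratCode (f a) := by
  unfold Crest.Enc.ratCode; fun_prop

@[fun_prop] theorem listCode {f : α → List ℕ} (hf : PT f) : PT fun a => listCode (f a) := by
  unfold Crest.Enc.listCode; fun_prop

@[fun_prop] theorem pairUp {f : α → List Bool} (hf : PT f) : PT fun a => pairUp (f a) :=
  pairUp_pt.comp hf

end PT

theorem map_finRange_val {β : Type} (n : ℕ) (f : ℕ → β) :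
    (List.finRange n).map (fun i => f i.val) = (List.range n).map f := by
  rw [← List.map_coe_finRange_eq_range, List.map_map]; rfl

theorem ofFn_eq_map_range {β : Type} {n : ℕ} (g : Fin n → β) (f : ℕ → β)
    (h : ∀ i : Fin n, g i = f i.val) : List.ofFn g = (List.range n).map f := by
  rw [List.ofFn_eq_map, ← map_finRange_val]; exact List.map_congr_left fun i _ => h i

theorem map_finRange_eq_map_range {β : Type} {n : ℕ} (g : Fin n → β) (f : ℕ → β)
    (h : ∀ i : Fin n, g i = f i.val) : (List.finRange n).map g = (List.range n).map f := by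
  rw [← List.ofFn_eq_map]; exact ofFn_eq_map_range g f h

theorem graphCode_eq_range (n : ℕ) (G : SimpleGraph (Fin n)) [DecidableRel G.Adj]
    (adj : ℕ → ℕ → Bool) (h : ∀ i j : Fin n, decide (G.Adj i j) = adj i j) :
    graphCode n G = natCode n ++
      ((List.range n).map fun i => (List.range n).map fun j => adj i j).flatten := by
  unfold graphCode
  rw [map_finRange_eq_map_range _ (fun i => (List.range n).map fun j => adj i j)
    fun i => map_finRange_eq_map_range _ _ fun j => h i j]

theorem tableCode_eq_range (n : ℕ) (t : Fin n → Fin n → ℚ) (t' : ℕ → ℕ → ℚ)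
    (h : ∀ i j : Fin n, t i j = t' i j) :
    tableCode n t = natCode n ++
      ((List.range n).map fun i => ((List.range n).map fun j => ratCode (t' i j)).flatten).flatten := by
  unfold tableCode
  rw [map_finRange_eq_map_range _ (fun i => ((List.range n).map fun j => ratCode (t' i j)).flatten)
    fun i => by rw [map_finRange_eq_map_range _ (fun j => ratCode (t' i j)) fun j => by rw [h]]]

theorem maskCode_eq_range (n : ℕ) (s : Finset (Fin n)) (m : ℕ → Bool)
    (h : ∀ i : Fin n, decide (i ∈ s) = m i) : maskCode n s = (List.range n).map m :=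
  map_finRange_eq_map_range _ _ h

theorem pairUp_cons_cons (a b : Bool) (s : List Bool) :
    pairUp (a :: b :: s) = (a, b) :: pairUp s := by
  simp only [pairUp, List.length_cons]
  rw [show (s.length + 1 + 1) / 2 = s.length / 2 + 1 by omega, List.range_succ_eq_map]
  simp [Nat.mul_succ, Function.comp_def]

theorem natCode_ne_nil (n : ℕ) : natCode n ≠ [] := by simp [natCode]
theorem intCode_ne_nil (z : ℤ) : intCode z ≠ [] := by simp [intCode]
theorem ratCode_ne_nil (q : ℚ) : ratCode q ≠ [] := by simp [ratCode]
theorem listCode_ne_nil (l : List ℕ) : listCode l ≠ [] := by simp [listCode, natCode]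

theorem length_natCode (n : ℕ) : (natCode n).length = 2 * n.size + 2 := by
  simp [natCode, List.length_flatten, Function.comp_def, ← Nat.size_eq_bits_len, Nat.mul_comm]

/-- `Parses code dom`: a polynomial-time parser, which may use a parameter `i`, reads the code of
any `a` with `dom i a` off the front of a bit string. -/
def Parses {ι α : Type} [Enc ι] [Enc α] (code : ι → α → List Bool) (dom : ι → α → Prop) : Prop :=
  ∃ run : ι × List Bool → α × List Bool, PT run ∧ (∀ p, (run p).2.length ≤ p.2.length) ∧
    ∀ i a r, dom i a → run (i, code i a ++ r) = (a, r)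

namespace Parses
variable {ι κ α β : Type} [Enc ι] [Enc κ] [Enc α] [Enc β]

theorem congr {c c' : ι → α → List Bool} {d d' : ι → α → Prop} (h : Parses c d)
    (e : ∀ i a, d' i a → d i a ∧ c' i a = c i a) : Parses c' d' := by
  obtain ⟨run, h1, h2, h3⟩ := h
  exact ⟨run, h1, h2, fun i a r hd => by rw [(e i a hd).2]; exact h3 i a r (e i a hd).1⟩

theorem reindex {c : ι → α → List Bool} {d : ι → α → Prop} (h : Parses c d) {φ : κ → ι}
    (hφ : PT φ) : Parses (fun k => c (φ k)) (fun k => d (φ k)) := by
  obtain ⟨run, h1, h2, h3⟩ := h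
  exact ⟨fun p => run (φ p.1, p.2), by fun_prop, fun p => h2 _, fun i a r hd => h3 _ a r hd⟩

/-- Post-process the parsed value. -/
theorem map {c : ι → α → List Bool} {d : ι → α → Prop} (h : Parses c d) (f : ι → α → β)
    (hf : PT fun p : ι × α => f p.1 p.2) (g : ι → β → α) :
    Parses (fun i b => c i (g i b)) (fun i b => d i (g i b) ∧ f i (g i b) = b) := by
  obtain ⟨run, h1, h2, h3⟩ := h
  refine ⟨fun p => (f p.1 (run p).1, (run p).2),
    (hf.comp (g := fun p : ι × List Bool => (p.1, (run p).1)) (by fun_prop)).prodMk (by fun_prop),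
    fun p => h2 _, fun i a r hd => ?_⟩
  simp only [h3 i _ r hd.1, hd.2]

theorem bool : Parses (fun (_ : ι) (b : Bool) => [b]) (fun _ _ => True) :=
  ⟨fun p => (p.2.headD false, p.2.tail), by fun_prop, fun p => by simp, fun _ _ _ _ => rfl⟩

/-- A block of `k i` raw bits. -/
theorem bits {k : ι → ℕ} (hk : PT k) :
    Parses (fun (_ : ι) (l : List Bool) => l) (fun i l => l.length = k i) :=
  ⟨fun p => (p.2.take (k p.1), p.2.drop (k p.1)), by fun_prop, fun p => by simp,
    fun i l r h => by simp [← h]⟩

theorem nat : Parses (fun (_ : ι) (n : ℕ) => natCode n) (fun _ _ => True) := by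
  refine ⟨fun p => (ofBits (((pairUp p.2).takeWhile fun q => q.1).map Prod.snd),
    p.2.drop (2 * ((pairUp p.2).takeWhile fun q => q.1).length + 2)), by fun_prop,
    fun p => by simp, fun i n r _ => ?_⟩
  have key : ∀ l : List Bool, (pairUp ((l.map fun b => [true, b]).flatten ++ [false, false] ++ r)).takeWhile
      (fun q => q.1) = l.map fun b => (true, b) := by
    intro l
    induction l with
    | nil => simp [pairUp_cons_cons]
    | cons b l ih =>
      simp only [List.map_cons, List.flatten_cons, List.cons_append, List.nil_append,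
        pairUp_cons_cons]
      rw [List.takeWhile_cons_of_pos (by simp), ih]
  have hl : (natCode n).length = 2 * n.bits.length + 2 := by
    rw [length_natCode, Nat.size_eq_bits_len]
  simp only
  rw [show pairUp (natCode n ++ r) = pairUp ((n.bits.map fun b => [true, b]).flatten ++
    [false, false] ++ r) from rfl, key, List.length_map, ← hl]
  simp [Function.comp_def]

/-- Sequential composition; the second parser sees the first value. -/
theorem seq {c1 : ι → α → List Bool} {d1 : ι → α → Prop} {c2 : ι × α → β → List Bool}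
    {d2 : ι × α → β → Prop} (h1 : Parses c1 d1) (h2 : Parses c2 d2) :
    Parses (fun i (p : α × β) => c1 i p.1 ++ c2 (i, p.1) p.2)
      (fun i p => d1 i p.1 ∧ d2 (i, p.1) p.2) := by
  obtain ⟨run1, a1, a2, a3⟩ := h1
  obtain ⟨run2, b1, b2, b3⟩ := h2
  refine ⟨fun p => (((run1 p).1, (run2 ((p.1, (run1 p).1), (run1 p).2)).1),
    (run2 ((p.1, (run1 p).1), (run1 p).2)).2), by fun_prop,
    fun p => (b2 _).trans (a2 _), fun i p r hd => ?_⟩
  simp only [List.append_assoc, a3 i _ _ hd.1, b3 _ _ _ hd.2]

/-- `k i` consecutive nonempty codes. -/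
theorem many {c : ι → α → List Bool} {d : ι → α → Prop} (h : Parses c d) {k : ι → ℕ}
    (hk : PT k) : Parses (fun i (l : List α) => (l.map (c i)).flatten)
      (fun i l => l.length = k i ∧ ∀ a ∈ l, d i a ∧ c i a ≠ []) := by
  obtain ⟨run, h1, h2, h3⟩ := h
  let step : ι → List α × List Bool → List α × List Bool := fun i s =>
    ((run (i, s.2)).1 :: s.1, (run (i, s.2)).2)
  have hlen : ∀ i n s, ((step i)^[n] s).2.length ≤ s.2.length := by
    intro i n s
    induction n with
    | zero => simp
    | succ n ih => rw [iterate_succ_apply']; exact (h2 _).trans ih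
  obtain ⟨G, hG, hGg⟩ := (PB.esize h1.fst (f := fun p => (run p).1)).exists_bound
    (s := fun p : ι × List Bool => esize p.1 + 4 * p.2.length + 2) (by fun_prop)
  have hsz : ∀ (p : ι × List Bool) n,
      esize ((step p.1)^[n] ([], p.2)).1 ≤ n * (G p + 1) + 1 := by
    intro p n
    induction n with
    | zero => simp
    | succ n ih =>
      rw [iterate_succ_apply']
      have a1 := hlen p.1 n ([], p.2)
      have a2 := hGg p (p.1, ((step p.1)^[n] ([], p.2)).2) (by
        have := esize_boolList_le ((step p.1)^[n] ([], p.2)).2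
        simp only [esize_pair] at *; omega)
      simp only [step, esize_cons] at *
      nlinarith
  have hpt := PT.iterate (n := fun p : ι × List Bool => min (k p.1) p.2.length)
    (x := fun p => (([] : List α), p.2)) (f := fun p => step p.1)
    (fun p => p.2.length * (G p + 1) + 4 * p.2.length + 3) (by fun_prop) (by fun_prop)
    (by fun_prop) (by fun_prop) (by fun_prop) fun p n hn => by
      have a1 := hlen p.1 n ([], p.2)
      have a2 := hsz p n
      have a3 := esize_boolList_le ((step p.1)^[n] ([], p.2)).2
      have a4 : n * (G p + 1) ≤ p.2.length * (G p + 1) := Nat.mul_le_mul_right _ (by omega)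
      rw [esize_prod]; simp only at *; omega
  refine ⟨fun p => (((step p.1)^[min (k p.1) p.2.length] ([], p.2)).1.reverse,
    ((step p.1)^[min (k p.1) p.2.length] ([], p.2)).2), hpt.fst.reverse.prodMk hpt.snd,
    fun p => hlen _ _ _, fun i l r hd => ?_⟩
  have key : ∀ (l acc : List α), (∀ a ∈ l, d i a) →
      (step i)^[l.length] (acc, (l.map (c i)).flatten ++ r) = (l.reverse ++ acc, r) := by
    intro l
    induction l with
    | nil => simp
    | cons a l ih =>
      intro acc hl
      rw [List.length_cons, iterate_succ_apply]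
      simp only [step, List.map_cons, List.flatten_cons, List.append_assoc,
        h3 i a _ (hl a (by simp))]
      rw [ih _ fun x hx => hl x (by simp [hx])]
      simp
  have hle : ∀ l : List α, (∀ a ∈ l, c i a ≠ []) → l.length ≤ (l.map (c i)).flatten.length := by
    intro l
    induction l with
    | nil => simp
    | cons a l ih =>
      intro hl
      have a1 := List.length_pos_iff.mpr (hl a (by simp))
      have a2 := ih fun x hx => hl x (by simp [hx])
      simp only [List.map_cons, List.flatten_cons, List.length_append, List.length_cons]; omega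
  have a1 := hle l fun a ha => (hd.2 a ha).2
  simp only
  rw [min_eq_left (by rw [← hd.1, List.length_append]; omega), ← hd.1,
    key l [] fun a ha => (hd.2 a ha).1]
  simp

/-- The number of items in binary, then the items. -/
theorem list {c : ι → α → List Bool} {d : ι → α → Prop} (h : Parses c d) :
    Parses (fun i (l : List α) => natCode l.length ++ (l.map (c i)).flatten)
      (fun i l => ∀ a ∈ l, d i a ∧ c i a ≠ []) :=
  ((nat.seq ((h.reindex (φ := fun p : ι × ℕ => p.1) (by fun_prop)).many (k := fun p => p.2)
    (by fun_prop))).map (fun _ p => p.2) (by fun_prop) (fun _ l => (l.length, l))).congr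
    fun _ _ hd => ⟨⟨⟨trivial, rfl, hd⟩, rfl⟩, rfl⟩

theorem int : Parses (fun (_ : ι) (z : ℤ) => intCode z) (fun _ _ => True) :=
  ((bool.seq nat).map (fun _ p => bif p.1 then -(p.2 : ℤ) else (p.2 : ℤ)) (by fun_prop)
    (fun _ z => (decide (z < 0), z.natAbs))).congr fun _ z _ =>
      ⟨⟨⟨trivial, trivial⟩, by
        by_cases h : z < 0
        · simp only [h, decide_true, cond_true]; omega
        · simp only [h, decide_false, cond_false]; omega⟩, rfl⟩

theorem rat : Parses (fun (_ : ι) (q : ℚ) => ratCode q) (fun _ _ => True) :=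
  ((int.seq nat).map (fun _ p => mkRat p.1 p.2) (by fun_prop)
    (fun _ q => (q.num, q.den))).congr fun _ q _ =>
      ⟨⟨⟨trivial, trivial⟩, Rat.mkRat_num_den' q⟩, by simp [ratCode, intCode]⟩

theorem natList : Parses (fun (_ : ι) (l : List ℕ) => listCode l) (fun _ _ => True) :=
  nat.list.congr fun _ _ _ => ⟨fun a _ => ⟨trivial, natCode_ne_nil a⟩, rfl⟩

/-- A unary number terminated by `false`. -/
theorem unary : Parses (fun (_ : ι) (n : ℕ) => List.replicate n true ++ [false])
    (fun _ _ => True) :=
  ⟨fun p => ((p.2.takeWhile fun b => b).length, p.2.drop ((p.2.takeWhile fun b => b).length + 1)),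
    by fun_prop, fun p => by simp, fun i n r _ => by
      have : (List.replicate n true ++ [false] ++ r).takeWhile (fun b => b) =
          List.replicate n true := by
        induction n with
        | zero => simp
        | succ n ih => simp [List.replicate_succ]
      simp only [this, List.length_replicate]
      rw [List.drop_left' (by simp)]⟩

/-- `n` in binary followed by an `n × n` table of bits. -/
theorem bitTable : Parses (fun (_ : ι) (p : ℕ × List (List Bool)) => natCode p.1 ++ p.2.flatten)
    (fun _ p => p.2.length = p.1 ∧ ∀ r ∈ p.2, r.length = p.1) :=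
  (nat.seq ((bits (k := fun p : ι × ℕ => p.2) (by fun_prop)).many (k := fun p => p.2)
    (by fun_prop))).congr fun _ p hd => ⟨⟨trivial, hd.1, fun r hr => ⟨hd.2 r hr, by
      have h1 := List.length_pos_of_mem hr
      have h2 := hd.2 r hr
      intro h; rw [h] at h2; simp at h2; omega⟩⟩, by simp⟩

/-- `n` in binary followed by an `n × n` table of items. -/
theorem table {c : ι → α → List Bool} {d : ι → α → Prop} (h : Parses c d) :
    Parses (fun i (p : ℕ × List (List α)) =>
        natCode p.1 ++ (p.2.map fun r => (r.map (c i)).flatten).flatten)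
      (fun i p => p.2.length = p.1 ∧ ∀ r ∈ p.2, r.length = p.1 ∧ ∀ a ∈ r, d i a ∧ c i a ≠ []) :=
  (nat.seq (((h.reindex (φ := fun p : ι × ℕ => p.1) (by fun_prop)).many (k := fun p => p.2)
    (by fun_prop)).many (k := fun p => p.2) (by fun_prop))).congr fun i p hd =>
      ⟨⟨trivial, hd.1, fun r hr => ⟨hd.2 r hr, by
        have h1 := List.length_pos_of_mem hr
        have h2 := hd.2 r hr
        cases r with
        | nil => simp at h2; omega
        | cons a r => simp [(h2.2 a (by simp)).2]⟩⟩, rfl⟩

/-- A decoder for whole strings. -/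
theorem exists_decoder {c : Unit → α → List Bool} {d : Unit → α → Prop} (h : Parses c d) :
    ∃ dec : List Bool → α, PT dec ∧ ∀ a, d () a → dec (c () a) = a := by
  obtain ⟨run, h1, -, h3⟩ := h
  exact ⟨fun s => (run ((), s)).1, by fun_prop, fun a ha => by
    have := h3 () a [] ha
    rw [List.append_nil] at this
    simp only [this]⟩

/-- A decoder returning the value and the rest of the string. -/
theorem exists_decoder_rest {c : Unit → α → List Bool} {d : Unit → α → Prop} (h : Parses c d) :
    ∃ dec : List Bool → α × List Bool, PT dec ∧ ∀ a r, d () a → dec (c () a ++ r) = (a, r) := by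
  obtain ⟨run, h1, -, h3⟩ := h
  exact ⟨fun s => run ((), s), by fun_prop, fun a r ha => h3 () a r ha⟩

end Parses

/-- The rows of a square table as lists. -/
def rowsOf {α : Type} {n : ℕ} (t : Fin n → Fin n → α) : List (List α) :=
  (List.finRange n).map fun i => (List.finRange n).map fun j => t i j

@[simp] theorem length_rowsOf {α : Type} {n : ℕ} (t : Fin n → Fin n → α) :
    (rowsOf t).length = n := by simp [rowsOf]

theorem length_of_mem_rowsOf {α : Type} {n : ℕ} {t : Fin n → Fin n → α} {r : List α}
    (h : r ∈ rowsOf t) : r.length = n := by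
  simp only [rowsOf, List.mem_map] at h
  obtain ⟨i, -, rfl⟩ := h
  simp

@[simp] theorem getD_rowsOf {α : Type} {n : ℕ} (t : Fin n → Fin n → α) (i j : Fin n) (d : α) :
    ((rowsOf t).getD i []).getD j d = t i j := by
  simp [rowsOf]

/-- Decoder for `natCode n` followed by an `n × n` bit table (`graphCode`, `precCode`,
`digraphCode`, `adjMatrixCode`). -/
theorem exists_bitTable_decoder : ∃ dec : List Bool → (ℕ × List (List Bool)) × List Bool, PT dec ∧
    ∀ (n : ℕ) (t : Fin n → Fin n → Bool) (r : List Bool),
      dec (natCode n ++ (rowsOf t).flatten ++ r) = ((n, rowsOf t), r) := by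
  obtain ⟨dec, h1, h2⟩ := (Parses.bitTable (ι := Unit)).exists_decoder_rest
  exact ⟨dec, h1, fun n t r => h2 (n, rowsOf t) r ⟨by simp, fun _ h => length_of_mem_rowsOf h⟩⟩

theorem graphCode_eq_rowsOf (n : ℕ) (G : SimpleGraph (Fin n)) [DecidableRel G.Adj] :
    graphCode n G = natCode n ++ (rowsOf fun i j => decide (G.Adj i j)).flatten := rfl

theorem exists_graphCode_decoder :
    ∃ dec : List Bool → (ℕ × List (List Bool)) × List Bool, PT dec ∧
    ∀ (n : ℕ) (G : SimpleGraph (Fin n)) [DecidableRel G.Adj] (r : List Bool),
      dec (graphCode n G ++ r) = ((n, rowsOf fun i j => decide (G.Adj i j)), r) := by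
  obtain ⟨dec, h1, h2⟩ := exists_bitTable_decoder
  exact ⟨dec, h1, fun n G _ r => h2 n _ r⟩

theorem exists_tableCode_decoder : ∃ dec : List Bool → (ℕ × List (List ℚ)) × List Bool, PT dec ∧
    ∀ (n : ℕ) (t : Fin n → Fin n → ℚ) (r : List Bool),
      dec (tableCode n t ++ r) = ((n, rowsOf t), r) := by
  obtain ⟨dec, h1, h2⟩ := (Parses.table (Parses.rat (ι := Unit))).exists_decoder_rest
  refine ⟨dec, h1, fun n t r => ?_⟩
  have := h2 (n, rowsOf t) r ⟨by simp, fun _ h => ⟨length_of_mem_rowsOf h,
    fun q _ => ⟨trivial, ratCode_ne_nil q⟩⟩⟩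
  rw [← this]
  simp [tableCode, rowsOf, Function.comp_def]

/-- A CNF formula as plain data. -/
def cnfData {n : ℕ} (F : Crest.LogicCS.CNF.Formula n) : List (List (ℕ × Bool)) :=
  F.map fun c => c.map fun l => (l.1.val, l.2)

theorem exists_cnf_decoder :
    ∃ dec : List Bool → (ℕ × List (List (ℕ × Bool))) × List Bool, PT dec ∧
    ∀ (n : ℕ) (F : Crest.LogicCS.CNF.Formula n) (r : List Bool),
      dec (Crest.LogicCS.CNF.code n F ++ r) = ((n, cnfData F), r) := by
  obtain ⟨dec, h1, h2⟩ := ((Parses.nat (ι := Unit)).seq
    ((Parses.nat.seq Parses.bool).list.list)).exists_decoder_rest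
  refine ⟨dec, h1, fun n F r => ?_⟩
  have := h2 (n, cnfData F) r ⟨trivial, fun c _ => ⟨fun l _ => ⟨⟨trivial, trivial⟩, by simp⟩,
    by simp [natCode_ne_nil]⟩⟩
  rw [← this]
  simp [Crest.LogicCS.CNF.code, cnfData, Function.comp_def]

/-- Decoder for a family of lists of numbers (number of members, then their `listCode`s). -/
theorem exists_listList_decoder : ∃ dec : List Bool → List (List ℕ), PT dec ∧
    ∀ S : List (List ℕ), dec (natCode S.length ++ (S.map listCode).flatten) = S := by
  obtain ⟨dec, h1, h2⟩ := (Parses.natList (ι := Unit)).list.exists_decoder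
  exact ⟨dec, h1, fun S => h2 S fun l _ => ⟨trivial, listCode_ne_nil l⟩⟩

end Crest.Agent.Lib.PolyTime
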