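/-
Lib/PolyTime/More: further list operations (sorting, dedup, extrema, finite sums, recursors) and
the tactic `pt`.  Author: helper82.
-/
import Crest.Agent.Lib.PolyTime.Codes

set_option autoImplicit false

namespace Crest.Agent.Lib.PolyTime

open Function

namespace PT
variable {α β γ δ : Type} [Enc α] [Enc β] [Enc γ] [Enc δ]

/-- Structural recursion on a list, with access to the tail; `B` bounds all intermediate values. -/
theorem list_rec {l : α → List β} {f : α → γ} {g : α → β → List β → γ → γ} (B : α → ℕ)
    (hl : PT l) (hf : PT f)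
    (hg : PT fun p : α × β × List β × γ => g p.1 p.2.1 p.2.2.1 p.2.2.2) (hB : PB B)
    (hsz : ∀ a i, esize (List.rec (motive := fun _ => γ) (f a) (g a) ((l a).drop i)) ≤ B a) :
    PT fun a => List.rec (motive := fun _ => γ) (f a) (g a) (l a) := by
  have key : ∀ a (m : List β), m.foldr (fun x (s : List β × γ) => (x :: s.1, g a x s.1 s.2))
      ([], f a) = (m, List.rec (motive := fun _ => γ) (f a) (g a) m) := by
    intro a m
    induction m with
    | nil => rfl
    | cons x m ih => rw [List.foldr_cons, ih]
  refine (foldr (f := fun a x (s : List β × γ) => (x :: s.1, g a x s.1 s.2))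
    (ini := fun a => ([], f a)) (fun a => esize (l a) + B a + 1) hl (by fun_prop)
    (prodMk (by fun_prop) (hg.comp (g := fun p : α × β × List β × γ =>
      (p.1, p.2.1, p.2.2.1, p.2.2.2)) (by fun_prop))) (by fun_prop) fun a i => ?_).snd.of_eq
    fun a => by rw [key]
  rw [key]
  have h1 := hsz a i
  have h2 := esize_sublist (List.drop_sublist i (l a))
  rw [esize_pair]; omega

/-- A function defined by structural recursion on a list. -/
theorem of_list_rec {l : α → List β} {F : α → List β → γ} {g : α → β → List β → γ → γ}
    (B : α → ℕ) (hl : PT l) (h0 : PT fun a => F a [])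
    (hg : PT fun p : α × β × List β × γ => g p.1 p.2.1 p.2.2.1 p.2.2.2)
    (hF : ∀ a x m, F a (x :: m) = g a x m (F a m)) (hB : PB B)
    (hsz : ∀ a m, m <:+ l a → esize (F a m) ≤ B a) : PT fun a => F a (l a) := by
  have key : ∀ a m, List.rec (motive := fun _ => γ) (F a []) (g a) m = F a m := by
    intro a m
    induction m with
    | nil => rfl
    | cons x m ih => rw [hF, ← ih]
  exact (list_rec B hl h0 hg hB fun a i => by
    rw [key]; exact hsz a _ (List.drop_suffix _ _)).of_eq fun a => key a _

/-- Primitive recursion on a polynomially bounded number. -/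
theorem of_nat_rec {n : α → ℕ} {F : α → ℕ → γ} {g : α → ℕ → γ → γ} (B : α → ℕ) (hn : PT n)
    (hn' : PB n) (h0 : PT fun a => F a 0) (hg : PT fun p : α × ℕ × γ => g p.1 p.2.1 p.2.2)
    (hF : ∀ a i, F a (i + 1) = g a i (F a i)) (hB : PB B)
    (hsz : ∀ a i, i ≤ n a → esize (F a i) ≤ B a) : PT fun a => F a (n a) := by
  have key : ∀ a m, (List.range m).foldl (fun c i => g a i c) (F a 0) = F a m := by
    intro a m
    induction m with
    | zero => rfl
    | succ m ih => rw [List.range_succ, List.foldl_append, ih, hF]; rfl
  exact (foldl (f := fun a c i => g a i c) B (range hn hn') h0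
    (hg.comp (g := fun p : α × γ × ℕ => (p.1, p.2.2, p.2.1)) (by fun_prop)) hB fun a i => by
      rw [List.take_range, key]; exact hsz a _ (min_le_right _ _)).of_eq fun a => key a _

@[fun_prop] theorem unzip {l : α → List (β × γ)} (hl : PT l) : PT fun a => (l a).unzip :=
  ((hl.map (f := fun _ p => p.1) (by fun_prop)).prodMk
    (hl.map (f := fun _ p => p.2) (by fun_prop))).of_eq fun a => by simp [List.unzip_eq_map]

@[fun_prop] theorem product {l : α → List β} {m : α → List γ} (hl : PT l) (hm : PT m) :
    PT fun a => (l a).product (m a) := by unfold List.product; fun_prop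

@[fun_prop] theorem sprod {l : α → List β} {m : α → List γ} (hl : PT l) (hm : PT m) :
    PT fun a => l a ×ˢ m a := product hl hm

@[fun_prop] theorem rotate {l : α → List β} {n : α → ℕ} (hl : PT l) (hn : PT n) :
    PT fun a => (l a).rotate (n a) :=
  (show PT fun a => (l a).drop (n a % (l a).length) ++ (l a).take (n a % (l a).length) by
    fun_prop).of_eq fun _ => List.rotate_eq_drop_append_take_mod.symm

@[fun_prop] theorem modify {l : α → List β} {n : α → ℕ} {f : α → β → β} (hl : PT l) (hn : PT n)
    (hf : PT fun p : α × β => f p.1 p.2) : PT fun a => (l a).modify (n a) (f a) :=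
  (hl.mapIdx (f := fun a i y => if i = n a then f a y else y) (ite (by fun_prop)
    (hf.comp (g := fun p : α × ℕ × β => (p.1, p.2.2)) (by fun_prop)) (by fun_prop))).of_eq
    fun a => by
      apply List.ext_getElem
      · simp
      · intro i h1 h2
        simp [List.getElem_modify, eq_comm]

@[fun_prop] theorem lookup [BEq β] [LawfulBEq β] {l : α → List (β × γ)} {x : α → β} (hx : PT x)
    (hl : PT l) : PT fun a => (l a).lookup (x a) :=
  ((hl.find? (f := fun a p => x a == p.1) (by fun_prop)).option_map (g := fun _ p => p.2)
    (by fun_prop)).of_eq fun a => by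
      generalize l a = m
      induction m with
      | nil => rfl
      | cons p m ih =>
        obtain ⟨p1, p2⟩ := p
        cases h : x a == p1 <;> simp [List.lookup_cons, h, ih]

@[fun_prop] theorem eraseP {l : α → List β} {f : α → β → Bool} (hl : PT l)
    (hf : PT fun p : α × β => f p.1 p.2) : PT fun a => (l a).eraseP (f a) :=
  (eraseIdx hl (findIdx hl hf)).of_eq fun a => by
    generalize l a = m
    induction m with
    | nil => rfl
    | cons x m ih => cases h : f a x <;> simp [List.findIdx_cons, h, ih]

@[fun_prop] theorem erase [BEq β] [LawfulBEq β] {l : α → List β} {x : α → β} (hl : PT l)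
    (hx : PT x) : PT fun a => (l a).erase (x a) :=
  (hl.eraseP (f := fun a y => x a == y) (by fun_prop)).of_eq fun _ => (List.erase_eq_eraseP _ _).symm

@[fun_prop] theorem diff [BEq β] [LawfulBEq β] {l m : α → List β} (hl : PT l) (hm : PT m) :
    PT fun a => (l a).diff (m a) :=
  (foldl_grow (f := fun _ c x => List.erase c x) (fun _ => 0) hm hl (by fun_prop) (by fun_prop)
    fun _ _ _ _ => esize_sublist List.erase_sublist).of_eq fun _ => (List.diff_eq_foldl _ _).symm

@[fun_prop] theorem list_insert [BEq β] [LawfulBEq β] {l : α → List β} {x : α → β} (hx : PT x)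
    (hl : PT l) : PT fun a => (l a).insert (x a) := by unfold List.insert; fun_prop

@[fun_prop] theorem dedup [DecidableEq β] {l : α → List β} (hl : PT l) :
    PT fun a => (l a).dedup :=
  of_list_rec (F := fun _ m => m.dedup) (g := fun _ x m r => if x ∈ m then r else x :: r)
    (fun a => esize (l a)) hl (const _) (by fun_prop) (fun _ x m => List.dedup_cons x m)
    (by fun_prop) fun a m hm => esize_sublist ((List.dedup_sublist m).trans hm.sublist)

@[fun_prop] theorem pairwise {l : α → List β} {R : α → β → β → Prop} (hl : PT l)
    (hR : PT fun p : α × β × β => R p.1 p.2.1 p.2.2) : PT fun a => (l a).Pairwise (R a) :=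
  of_list_rec (F := fun a m => m.Pairwise (R a)) (g := fun a x m r => (∀ y ∈ m, R a x y) ∧ r)
    (fun _ => 3) hl (by simpa using const True)
    (and (forall_mem (by fun_prop) (hR.comp (g := fun p : (α × β × List β × Prop) × β =>
      (p.1.1, p.1.2.1, p.2)) (by fun_prop))) (by fun_prop))
    (fun _ _ _ => propext List.pairwise_cons) (by fun_prop) fun _ _ _ => esize_prop_le _

@[fun_prop] theorem nodup {l : α → List β} (hl : PT l) : PT fun a => (l a).Nodup :=
  hl.pairwise (R := fun _ x y => x ≠ y) (by fun_prop)

@[fun_prop] theorem list_disjoint {l m : α → List β} (hl : PT l) (hm : PT m) :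
    PT fun a => (l a).Disjoint (m a) :=
  (hl.forall_mem (p := fun a x => ¬ x ∈ m a) (by fun_prop)).of_iff fun _ => Iff.rfl

@[fun_prop] theorem perm {l m : α → List β} (hl : PT l) (hm : PT m) :
    PT fun a => (l a).Perm (m a) := by
  classical
  exact ((hl.append hm).forall_mem (p := fun a x => (l a).count x = (m a).count x)
    (by fun_prop)).of_iff fun a => by
      rw [List.perm_iff_count]
      refine ⟨fun h x => ?_, fun h x _ => h x⟩
      by_cases hx : x ∈ l a ++ m a
      · exact h x hx
      · simp only [List.mem_append, not_or] at hx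
        rw [List.count_eq_zero_of_not_mem hx.1, List.count_eq_zero_of_not_mem hx.2]

theorem orderedInsert {r : α → β → β → Prop} [∀ a, DecidableRel (r a)] {x : α → β}
    {l : α → List β} (hr : PT fun p : α × β × β => r p.1 p.2.1 p.2.2) (hx : PT x) (hl : PT l) :
    PT fun a => List.orderedInsert (r a) (x a) (l a) := by
  have h : PT fun p : α × β => Decidable.decide (¬ r p.1 (x p.1) p.2) :=
    (hr.comp (g := fun p : α × β => (p.1, x p.1, p.2)) (by fun_prop)).not.decide
  exact ((hl.takeWhile h).append (hx.cons (hl.dropWhile h))).of_eq fun a =>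
    (List.orderedInsert_eq_take_drop _ _ _).symm

@[fun_prop] theorem insertionSort {r : α → β → β → Prop} [∀ a, DecidableRel (r a)]
    {l : α → List β} (hr : PT fun p : α × β × β => r p.1 p.2.1 p.2.2) (hl : PT l) :
    PT fun a => List.insertionSort (r a) (l a) :=
  of_list_rec (F := fun a m => m.insertionSort (r a))
    (g := fun a x _ s => List.orderedInsert (r a) x s) (fun a => esize (l a)) hl (const _)
    (orderedInsert (r := fun p : α × β × List β × List β => r p.1)
      (hr.comp (g := fun p : (α × β × List β × List β) × β × β => (p.1.1, p.2.1, p.2.2))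
        (by fun_prop)) (by fun_prop) (by fun_prop))
    (fun _ _ _ => rfl) (by fun_prop) fun a m hm => by
      rw [esize_perm (List.perm_insertionSort _ m)]; exact esize_sublist hm.sublist

theorem foldl_argAux {r : α → β → β → Prop} [∀ a, DecidableRel (r a)] {l : α → List β}
    (hr : PT fun p : α × β × β => r p.1 p.2.1 p.2.2) (hl : PT l) :
    PT fun a => (l a).foldl (List.argAux (r a)) none := by
  refine foldl_inv (f := fun a => List.argAux (r a)) (fun a => esize (l a) + 2)
    (fun a c => ∀ x ∈ c, x ∈ l a) hl (const _) ?_ (by fun_prop) (by simp) ?_ ?_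
  · unfold List.argAux
    exact option_casesOn (by fun_prop) (by fun_prop) (ite (hr.comp
      (g := fun p : (α × Option β × β) × β => (p.1.1, p.1.2.2, p.2)) (by fun_prop))
      (by fun_prop) (by fun_prop))
  · intro a c x hx hc
    cases c with
    | none => simpa [List.argAux] using hx
    | some y =>
      simp only [List.argAux]
      split_ifs
      · simpa using hx
      · exact hc
  · intro a c hc
    cases c with
    | none => simp
    | some y => have := esize_lt_of_mem (hc y rfl); simp; omega

/-- `argmax` for any preorder whose strict comparison is polynomial-time. -/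
theorem argmax' [Preorder γ] [DecidableLT γ] {l : α → List β} {f : α → β → γ}
    (hlt : PT fun p : γ × γ => p.1 < p.2) (hf : PT fun p : α × β => f p.1 p.2) (hl : PT l) :
    PT fun a => (l a).argmax (f a) :=
  foldl_argAux (r := fun a b c => f a c < f a b) (hlt.comp (prodMk
    (hf.comp (g := fun p : α × β × β => (p.1, p.2.2)) (by fun_prop))
    (hf.comp (g := fun p : α × β × β => (p.1, p.2.1)) (by fun_prop)))) hl

theorem argmin' [Preorder γ] [DecidableLT γ] {l : α → List β} {f : α → β → γ}
    (hlt : PT fun p : γ × γ => p.1 < p.2) (hf : PT fun p : α × β => f p.1 p.2) (hl : PT l) :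
    PT fun a => (l a).argmin (f a) :=
  foldl_argAux (r := fun a b c => f a b < f a c) (hlt.comp (prodMk
    (hf.comp (g := fun p : α × β × β => (p.1, p.2.1)) (by fun_prop))
    (hf.comp (g := fun p : α × β × β => (p.1, p.2.2)) (by fun_prop)))) hl

@[fun_prop] theorem argmax_nat {l : α → List β} {f : α → β → ℕ}
    (hf : PT fun p : α × β => f p.1 p.2) (hl : PT l) : PT fun a => (l a).argmax (f a) :=
  argmax' (by fun_prop) hf hl
@[fun_prop] theorem argmin_nat {l : α → List β} {f : α → β → ℕ}
    (hf : PT fun p : α × β => f p.1 p.2) (hl : PT l) : PT fun a => (l a).argmin (f a) :=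
  argmin' (by fun_prop) hf hl
@[fun_prop] theorem argmax_int {l : α → List β} {f : α → β → ℤ}
    (hf : PT fun p : α × β => f p.1 p.2) (hl : PT l) : PT fun a => (l a).argmax (f a) :=
  argmax' (by fun_prop) hf hl
@[fun_prop] theorem argmin_int {l : α → List β} {f : α → β → ℤ}
    (hf : PT fun p : α × β => f p.1 p.2) (hl : PT l) : PT fun a => (l a).argmin (f a) :=
  argmin' (by fun_prop) hf hl
@[fun_prop] theorem argmax_rat {l : α → List β} {f : α → β → ℚ}
    (hf : PT fun p : α × β => f p.1 p.2) (hl : PT l) : PT fun a => (l a).argmax (f a) :=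
  argmax' (by fun_prop) hf hl
@[fun_prop] theorem argmin_rat {l : α → List β} {f : α → β → ℚ}
    (hf : PT fun p : α × β => f p.1 p.2) (hl : PT l) : PT fun a => (l a).argmin (f a) :=
  argmin' (by fun_prop) hf hl

/-- A fold that always returns one of its two arguments (max, min, ...). -/
theorem foldr_select {l : α → List β} {ini : α → β} {f : α → β → β → β} (hl : PT l)
    (hini : PT ini) (hf : PT fun p : α × β × β => f p.1 p.2.1 p.2.2)
    (h : ∀ a x c, f a x c = x ∨ f a x c = c) : PT fun a => (l a).foldr (f a) (ini a) :=
  foldr_grow (fun p => esize p.2) hl hini hf (by fun_prop) fun a x c _ => by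
    rcases h a x c with e | e <;> rw [e] <;> simp

theorem foldl_select {l : α → List β} {ini : α → β} {f : α → β → β → β} (hl : PT l)
    (hini : PT ini) (hf : PT fun p : α × β × β => f p.1 p.2.1 p.2.2)
    (h : ∀ a c x, f a c x = x ∨ f a c x = c) : PT fun a => (l a).foldl (f a) (ini a) :=
  foldl_grow (fun p => esize p.2) hl hini hf (by fun_prop) fun a c x _ => by
    rcases h a c x with e | e <;> rw [e] <;> simp

@[fun_prop] theorem foldr_max_nat {l : α → List ℕ} {ini : α → ℕ} (hl : PT l) (hini : PT ini) :
    PT fun a => (l a).foldr max (ini a) :=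
  foldr_select (f := fun _ => max) hl hini (by fun_prop) fun _ x c => max_choice x c

@[fun_prop] theorem foldr_min_nat {l : α → List ℕ} {ini : α → ℕ} (hl : PT l) (hini : PT ini) :
    PT fun a => (l a).foldr min (ini a) :=
  foldr_select (f := fun _ => min) hl hini (by fun_prop) fun _ x c => min_choice x c

/-! #### Finite sums, products, suprema and counts over `Finset.range` and `Fin` -/

theorem sum_range_eq {M : Type} [AddCommMonoid M] (n : ℕ) (f : ℕ → M) :
    ∑ i ∈ Finset.range n, f i = ((List.range n).map f).sum := rfl

theorem prod_range_eq {M : Type} [CommMonoid M] (n : ℕ) (f : ℕ → M) :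
    ∏ i ∈ Finset.range n, f i = ((List.range n).map f).prod := rfl

@[fun_prop] theorem sum_range_nat {n : α → ℕ} {f : α → ℕ → ℕ} (hn : PT n) (hn' : PB n)
    (hf : PT fun p : α × ℕ => f p.1 p.2) : PT fun a => ∑ i ∈ Finset.range (n a), f a i :=
  ((range hn hn').map hf).nat_sum
@[fun_prop] theorem sum_range_int {n : α → ℕ} {f : α → ℕ → ℤ} (hn : PT n) (hn' : PB n)
    (hf : PT fun p : α × ℕ => f p.1 p.2) : PT fun a => ∑ i ∈ Finset.range (n a), f a i :=
  ((range hn hn').map hf).int_sum
@[fun_prop] theorem sum_range_rat {n : α → ℕ} {f : α → ℕ → ℚ} (hn : PT n) (hn' : PB n)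
    (hf : PT fun p : α × ℕ => f p.1 p.2) : PT fun a => ∑ i ∈ Finset.range (n a), f a i :=
  ((range hn hn').map hf).rat_sum
@[fun_prop] theorem prod_range_nat {n : α → ℕ} {f : α → ℕ → ℕ} (hn : PT n) (hn' : PB n)
    (hf : PT fun p : α × ℕ => f p.1 p.2) : PT fun a => ∏ i ∈ Finset.range (n a), f a i :=
  ((range hn hn').map hf).nat_prod
@[fun_prop] theorem prod_range_int {n : α → ℕ} {f : α → ℕ → ℤ} (hn : PT n) (hn' : PB n)
    (hf : PT fun p : α × ℕ => f p.1 p.2) : PT fun a => ∏ i ∈ Finset.range (n a), f a i :=
  ((range hn hn').map hf).int_prod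
@[fun_prop] theorem prod_range_rat {n : α → ℕ} {f : α → ℕ → ℚ} (hn : PT n) (hn' : PB n)
    (hf : PT fun p : α × ℕ => f p.1 p.2) : PT fun a => ∏ i ∈ Finset.range (n a), f a i :=
  ((range hn hn').map hf).rat_prod

@[fun_prop] theorem sup_range_nat {n : α → ℕ} {f : α → ℕ → ℕ} (hn : PT n) (hn' : PB n)
    (hf : PT fun p : α × ℕ => f p.1 p.2) : PT fun a => (Finset.range (n a)).sup (f a) :=
  (foldr_max_nat ((range hn hn').map hf) (const 0)).of_eq fun _ => rfl

@[fun_prop] theorem card_filter_range {n : α → ℕ} {p : α → ℕ → Prop} [∀ a, DecidablePred (p a)]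
    (hn : PT n) (hn' : PB n) (hp : PT fun x : α × ℕ => p x.1 x.2) :
    PT fun a => ((Finset.range (n a)).filter (p a)).card :=
  ((range hn hn').filter (f := fun a i => Decidable.decide (p a i)) hp.decide).length.of_eq
    fun _ => rfl

@[fun_prop] theorem card_toFinset [DecidableEq β] {l : α → List β} (hl : PT l) :
    PT fun a => (l a).toFinset.card := hl.dedup.length.of_eq fun _ => (List.card_toFinset _).symm

/-! #### Logarithms and roots -/

@[fun_prop] theorem log2 {f : α → ℕ} (hf : PT f) : PT fun a => Nat.log2 (f a) :=
  (hf.natSize.nat_sub (const 1)).of_eq fun a => by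
    rcases Nat.eq_zero_or_pos (f a) with h | h
    · simp [h]
    · rw [Nat.log2_eq_log_two, eq_comm, Nat.log_eq_iff (Or.inr ⟨by omega, h.ne'⟩)]
      have h1 := Nat.size_pos.mpr h
      refine ⟨Nat.lt_size.mp (by omega), ?_⟩
      rw [Nat.sub_add_cancel h1]; exact Nat.lt_size_self _

@[fun_prop] theorem nat_log {b f : α → ℕ} (hb : PT b) (hf : PT f) :
    PT fun a => Nat.log (b a) (f a) :=
  (show PT fun a => if b a ≤ 1 then 0 else
      (List.range (f a).size).countP fun i => Decidable.decide (b a ^ (min i (f a).size + 1) ≤ f a) by
    fun_prop).of_eq fun a => by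
      generalize b a = b; generalize f a = n
      split_ifs with h
      · rw [Nat.log_of_left_le_one h]
      rcases Nat.eq_zero_or_pos n with rfl | hn
      · simp
      have h1 : Nat.log b n < n.size := by
        rw [Nat.lt_size]
        exact (Nat.pow_le_pow_left (by omega) _).trans (Nat.pow_log_le_self b hn.ne')
      rw [List.countP_congr (q := fun i => Decidable.decide (i < Nat.log b n)) fun i hi => by
        rw [List.mem_range] at hi
        simp only [min_eq_left hi.le, decide_eq_true_eq]
        rw [← Nat.le_log_iff_pow_le (by omega) hn.ne']; omega]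
      obtain ⟨k, hk⟩ := Nat.exists_eq_add_of_le h1.le
      rw [hk, List.range_add, List.countP_append, List.countP_eq_length.mpr (by simp),
        List.countP_eq_zero.mpr (by simp)]
      simp

@[fun_prop] theorem nat_clog {b f : α → ℕ} (hb : PT b) (hf : PT f) :
    PT fun a => Nat.clog (b a) (f a) :=
  (show PT fun a => if b a ≤ 1 ∨ f a ≤ 1 then 0 else Nat.log (b a) (f a - 1) + 1 by
    fun_prop).of_eq fun a => by
      generalize b a = b; generalize f a = n
      split_ifs with h
      · rcases h with h | h
        · rw [Nat.clog_of_left_le_one h]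
        · rw [Nat.clog_of_right_le_one h]
      · apply le_antisymm
        · rw [Nat.succ_le_iff, Nat.lt_clog_iff_pow_lt (by omega)]
          have := Nat.pow_log_le_self b (x := n - 1) (by omega)
          omega
        · rw [Nat.clog_le_iff_le_pow (by omega)]
          have := Nat.lt_pow_succ_log_self (b := b) (by omega) (n - 1)
          simp only [Nat.succ_eq_add_one] at this
          omega

end PT

namespace PB
variable {α β : Type} [Enc α] [Enc β]

@[fun_prop] theorem log {b f : α → ℕ} (hf : PT f) : PB fun a => Nat.log (b a) (f a) :=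
  (PB.natSize hf).mono fun a => by
    rcases Nat.eq_zero_or_pos (f a) with h | h
    · simp [h]
    rcases le_or_gt (b a) 1 with hb | hb
    · simp [Nat.log_of_left_le_one hb]
    · exact (Nat.lt_size.mpr ((Nat.pow_le_pow_left hb _).trans (Nat.pow_log_le_self _ h.ne'))).le

@[fun_prop] theorem log2 {f : α → ℕ} (hf : PT f) : PB fun a => Nat.log2 (f a) :=
  (log (b := fun _ => 2) hf).mono fun _ => Nat.log2_eq_log_two.le

@[fun_prop] theorem clog {b f : α → ℕ} (hf : PT f) : PB fun a => Nat.clog (b a) (f a) :=
  (PB.natSize hf).mono fun a => by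
    rcases le_or_gt (b a) 1 with hb | hb
    · simp [Nat.clog_of_left_le_one hb]
    · rw [Nat.clog_le_iff_le_pow hb]
      exact (Nat.lt_size_self _).le.trans (Nat.pow_le_pow_left hb _)

@[fun_prop] theorem mod_left {f g : α → ℕ} (hf : PB f) : PB fun a => f a % g a :=
  hf.mono fun _ => Nat.mod_le _ _

@[fun_prop] theorem countP {l : α → List β} {f : α → β → Bool} (hl : PT l) :
    PB fun a => (l a).countP (f a) := (PB.length hl).mono fun _ => List.countP_le_length

@[fun_prop] theorem findIdx {l : α → List β} {f : α → β → Bool} (hl : PT l) :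
    PB fun a => (l a).findIdx (f a) := (PB.length hl).mono fun _ => List.findIdx_le_length

@[fun_prop] theorem sqrt {f : α → ℕ} (hf : PB f) : PB fun a => Nat.sqrt (f a) :=
  hf.mono fun _ => Nat.sqrt_le_self _

/-- A sum of polynomially bounded terms over a list. -/
@[fun_prop] theorem sum_map {l : α → List β} {g : α → β → ℕ} (hl : PT l)
    (hg : PB fun p : α × β => g p.1 p.2) : PB fun a => ((l a).map (g a)).sum := by
  have hi : PB (fun a : α => PolyTime.esize a) := PB.esize_id
  obtain ⟨G, hG, hGg⟩ := hg.exists_bound
    (s := fun a => PolyTime.esize a + PolyTime.esize (l a) + 1) (by fun_prop)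
  refine ((PB.length hl).mul hG).mono fun a => ?_
  have := List.sum_le_card_nsmul ((l a).map (g a)) (G a) fun y hy => by
    obtain ⟨x, hx, rfl⟩ := List.mem_map.mp hy
    exact hGg a (a, x) (by have := esize_lt_of_mem hx; simp only [esize_pair]; omega)
  simpa using this

end PB

@[fun_prop] theorem PT.sqrt {α : Type} [Enc α] {f : α → ℕ} (hf : PT f) :
    PT fun a => Nat.sqrt (f a) := by
  -- binary search on the digits of the root
  let step : ℕ → ℕ → ℕ → ℕ := fun n i r => if (r + 2 ^ i) * (r + 2 ^ i) ≤ n then r + 2 ^ i else r
  have key : ∀ n k r, r * r ≤ n → n < (r + 2 ^ k) * (r + 2 ^ k) →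
      (List.range k).foldr (step n) r = Nat.sqrt n := by
    intro n k
    induction k with
    | zero => intro r h1 h2; simpa [Nat.eq_sqrt] using ⟨h1, h2⟩
    | succ k ih =>
      intro r h1 h2
      rw [List.range_succ, List.foldr_append]
      simp only [List.foldr_cons, List.foldr_nil, step]
      split_ifs with h
      · exact ih _ h (by rwa [add_assoc, ← two_mul, ← pow_succ'])
      · exact ih _ h1 (not_le.mp h)
  refine (PT.foldr_inv (l := fun a => List.range (f a).size) (ini := fun _ => 0)
    (f := fun a i r => step (f a) (min i (f a).size) r) (fun a => esize (f a))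
    (fun a r => r * r ≤ f a) (by fun_prop) (by fun_prop) (by simp only [step]; fun_prop)
    (by fun_prop)
    (by simp) (fun a x c _ hc => ?_) (fun a c hc => esize_nat_mono ?_)).of_eq fun a => ?_
  · simp only [step]; split_ifs with h; exacts [h, hc]
  · nlinarith
  · rw [← key (f a) (f a).size 0 (by simp) (by
      have h1 := Nat.lt_size_self (f a)
      have h2 : 1 ≤ 2 ^ (f a).size := Nat.one_le_two_pow
      simp only [zero_add]; nlinarith)]
    exact List.foldr_ext _ _ _ fun i hi r => by rw [min_eq_left (List.mem_range.mp hi).le]

/-- Unfold the auxiliary definitions produced by `match` into recursors, and replace case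
distinctions on pairs by projections. -/
elab "unfold_matchers" : tactic => do
  let g ← Lean.Elab.Tactic.getMainGoal
  let env ← Lean.getEnv
  let t ← Lean.instantiateMVars (← g.getType)
  let t ← Lean.Meta.deltaExpand t (fun n => Lean.Meta.isMatcherCore env n)
  let t ← Lean.Core.betaReduce t
  let t ← Lean.Core.transform t (post := fun e => do
    if e.isAppOf ``Prod.casesOn && e.getAppNumArgs ≥ 5 then
      let args := e.getAppArgs
      match e.getAppFn.constLevels! with
      | [_, u, v] =>
        let p1 := Lean.mkApp3 (Lean.mkConst ``Prod.fst [u, v]) args[0]! args[1]! args[3]!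
        let p2 := Lean.mkApp3 (Lean.mkConst ``Prod.snd [u, v]) args[0]! args[1]! args[3]!
        return .done ((args[4]!).beta (#[p1, p2] ++ args.extract 5 args.size))
      | _ => return .done e
    else return .done e)
  let g' ← g.replaceTargetDefEq t
  Lean.Elab.Tactic.replaceMainGoal [g']

/-- One structural step on a goal `PT fun a => body`, chosen by the head symbol of `body`. -/
elab "pt_step" : tactic => do
  let g ← Lean.Elab.Tactic.getMainGoal
  let t ← Lean.Core.betaReduce (← Lean.instantiateMVars (← g.getType))
  unless t.isAppOfArity ``PT 5 do throwError "pt_step: not a PT goal"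
  let f := t.appArg!
  unless f.isLambda do throwError "pt_step: not a lambda"
  let body := f.bindingBody!.consumeMData
  let cands : List Lean.Name :=
    if body.isForall then
      (if body.bindingBody!.hasLooseBVar 0 then [``PT.forall_mem, ``PT.forall_lt] else [``PT.imp])
    else match body.getAppFn.constName? with
      | some ``List.casesOn => [``PT.list_casesOn]
      | some ``Option.casesOn => [``PT.option_casesOn]
      | some ``Sum.casesOn => [``PT.sum_casesOn]
      | some ``Nat.casesOn => [``PT.nat_casesOn]
      | some ``Bool.casesOn => [``PT.bool_casesOn]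
      | some ``ite => [``PT.ite]
      | some ``cond => [``PT.cond]
      | some ``Decidable.decide => [``PT.decide]
      | some ``Not => [``PT.not]
      | some ``And => [``PT.and]
      | some ``Or => [``PT.or]
      | some ``Iff => [``PT.iff]
      | some ``Exists => [``PT.exists_mem, ``PT.exists_lt]
      | some ``Eq => [``PT.eq]
      | some ``Ne => [``PT.ne]
      | some ``Membership.mem => [``PT.mem_list]
      | some ``Bool.not => [``PT.bnot]
      | some ``Bool.and => [``PT.band]
      | some ``Bool.or => [``PT.bor]
      | some ``Prod.mk => [``PT.prodMk]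
      | some ``Prod.fst => [``PT.fst]
      | some ``Prod.snd => [``PT.snd]
      | some ``List.cons => [``PT.cons]
      | some ``Option.some => [``PT.some]
      | some ``Option.getD => [``PT.option_getD]
      | some ``Option.map => [``PT.option_map]
      | some ``Option.bind => [``PT.option_bind]
      | some ``Option.elim => [``PT.option_elim]
      | some ``List.map => [``PT.map]
      | some ``List.filter => [``PT.filter]
      | some ``List.flatMap => [``PT.flatMap]
      | some ``List.filterMap => [``PT.filterMap]
      | some ``List.flatten => [``PT.flatten]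
      | some ``List.all => [``PT.all]
      | some ``List.any => [``PT.any]
      | some ``List.find? => [``PT.find?]
      | some ``List.findIdx => [``PT.findIdx]
      | some ``List.countP => [``PT.countP]
      | some ``List.length => [``PT.length]
      | some ``List.reverse => [``PT.reverse]
      | some ``List.head? => [``PT.head?]
      | some ``List.headD => [``PT.headD]
      | some ``List.getD => [``PT.getD]
      | some ``List.take => [``PT.take]
      | some ``List.drop => [``PT.drop]
      | some ``List.zip => [``PT.zip]
      | some ``List.dedup => [``PT.dedup]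
      | some ``List.Pairwise => [``PT.pairwise]
      | some ``List.insertionSort => [``PT.insertionSort]
      | some ``List.argmax => [``PT.argmax_nat, ``PT.argmax_int, ``PT.argmax_rat]
      | some ``List.argmin => [``PT.argmin_nat, ``PT.argmin_int, ``PT.argmin_rat]
      | some ``List.sum => [``PT.nat_sum, ``PT.int_sum, ``PT.rat_sum]
      | some ``List.prod => [``PT.nat_prod, ``PT.int_prod, ``PT.rat_prod]
      | some ``HAppend.hAppend => [``PT.append]
      | some ``HAdd.hAdd => [``PT.nat_add, ``PT.int_add, ``PT.rat_add]
      | some ``HSub.hSub => [``PT.nat_sub, ``PT.int_sub, ``PT.rat_sub]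
      | some ``HMul.hMul => [``PT.nat_mul, ``PT.int_mul, ``PT.rat_mul]
      | some ``HDiv.hDiv => [``PT.nat_div, ``PT.int_ediv, ``PT.rat_div]
      | some ``LE.le => [``PT.nat_le, ``PT.int_le, ``PT.rat_le]
      | some ``LT.lt => [``PT.nat_lt, ``PT.int_lt, ``PT.rat_lt]
      | some ``Crest.Enc.natCode => [``PT.natCode]
      | some ``Crest.Enc.listCode => [``PT.listCode]
      | some ``Crest.Enc.ratCode => [``PT.ratCode]
      | some ``Crest.Enc.intCode => [``PT.intCode]
      | _ => []
  for c in cands do
    let s ← Lean.Elab.Tactic.saveState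
    try
      Lean.Elab.Tactic.evalTactic (← `(tactic| (apply $(Lean.mkIdent c) <;> try beta_reduce)))
      return
    catch _ => s.restore
  throwError "pt_step: no rule applies"

/-- Prove `PT` / `PB` goals: `fun_prop`, plus bounded quantifiers, implications and `match`.
Goals it cannot decompose (typically folds, or unknown functions) are left to the user. -/
macro "pt" : tactic =>
  `(tactic| (try unfold_matchers) <;> repeat' (first
    | with_reducible assumption | fun_prop | pt_step))

section tests

example : PT fun p : List ℕ × ℕ => match p.1 with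
    | [] => p.2
    | x :: xs => x + xs.length := by pt

example : PT fun p : List (ℕ × ℕ) => p.map fun (x, y) => x * y := by pt

example : PT fun p : List ℕ × List ℕ => if ∀ x ∈ p.1, ∃ y ∈ p.2, x ≤ y then p.1 else p.2 := by pt

example : PT fun p : List ℕ × Option ℚ => match p with
    | (x :: _, some q) => q + x
    | ([], some q) => q
    | (_ :: _, none) => 1
    | ([], none) => 0 := by pt

example : PT fun l : List (List ℕ) => l.filter fun s => decide (∀ t ∈ l, s <:+: t → s = t) := by pt

end tests

end Crest.Agent.Lib.PolyTime
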