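/-
Lib/PolyTime/Converse: the converse bridge `PolyTime f → PT f` (needed for hardness results, where a
machine is GIVEN and has to be composed with our own polynomial-time maps).
Skeleton by helper15, proof by helper35 (adapted from `R290/GmSim`).
`PT.of_polyTimeComputable` is the general form (any finite alphabets, any `PT` input encoding).
-/
import Crest.Agent.Lib.PolyTime.More
import Crest.Agent.Lib.PolyTime.Bridge
import Crest.Agent.R290.GmSim

set_option autoImplicit false

namespace Crest.Agent.Lib.PolyTime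

open Turing Function Crest.Agent.R290 Crest.Agent.R290.GmSim

namespace Converse

theorem exists_code' {X : Type} {S : Set X} (hS : S.Finite) :
    ∃ (c : X → ℕ) (d : ℕ → Option X) (N : ℕ), (∀ x, c x < N) ∧ ∀ x ∈ S, d (c x) = some x := by
  classical
  refine ⟨fun x => hS.toFinset.toList.idxOf x, fun n => hS.toFinset.toList[n]?, _,
    fun x => Nat.lt_succ_of_le List.idxOf_le_length, fun x hx => ?_⟩
  have hx' : x ∈ hS.toFinset.toList := by simp [hx]
  beta_reduce
  rw [List.getElem?_eq_getElem (List.idxOf_lt_length_of_mem hx'), List.getElem_idxOf]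

/-- An abstract stack machine is simulated by a `GM`, stack contents included. -/
theorem exists_gm_stk {L K Sym : Type} [Finite K] [DecidableEq K] (stk : L → K)
    (op : L → Option (Option Sym)) (nxt : L → Option Sym → L) {Ls : Set L} (hfin : Ls.Finite)
    (hcl : ∀ l ∈ Ls, ∀ o, nxt l o ∈ Ls) {l₀ : L} (h0 : l₀ ∈ Ls) (k₀ k₁ : K) {S₀ : Set Sym}
    (hS₀ : S₀.Finite) :
    ∃ (τ : GM) (q₀ A c₀ c₁ : ℕ) (cS : Sym → ℕ), Set.InjOn cS S₀ ∧
      ∀ x : List Sym, (∀ s ∈ x, s ∈ S₀) → ∀ t,
        ((GM.step τ)^[t] (q₀, (List.replicate A []).set c₀ (x.map cS))).2.getD c₁ [] =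
          (((astep stk op nxt)^[t] (l₀, update (fun _ => []) k₀ x)).2 k₁).map cS := by
  obtain ⟨cL, dL', NL, cLN, hL'⟩ := exists_code' hfin
  let dL : ℕ → L := fun n => (dL' n).getD l₀
  have hL : ∀ x ∈ Ls, dL (cL x) = x := fun x hx => by simp [dL, hL' x hx]
  let Ss : Set Sym := S₀ ∪ (fun s => some (some s)) ⁻¹' (op '' Ls)
  have hSs : Ss.Finite := hS₀.union
    ((hfin.image op).preimage fun _ _ _ _ h => by simpa using h)
  obtain ⟨cS, dS, NS, cSN, hS⟩ := exists_code' hSs
  obtain ⟨cK, dK, NK, cKN, hK⟩ := exists_code' (Set.finite_univ (α := K))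
  have cKinj : ∀ k k', cK k = cK k' → k = k' := fun k k' h => by
    have := hK k trivial
    rw [h, hK _ trivial] at this
    exact (Option.some.inj this).symm
  obtain ⟨A, hA⟩ : ∃ A, A = NL + NS + NK + 3 := ⟨_, rfl⟩
  let opc : Option (Option Sym) → ℕ := fun o => o.elim 0 fun o => o.elim 1 fun s => cS s + 2
  let top : ℕ → Option Sym := fun a => if a = 0 then none else dS (a - 1)
  let τ : GM := ((List.range A).map fun q => cK (stk (dL q)),
    (List.range A).map fun q => opc (op (dL q)),
    (List.range A).map fun q => (List.range A).map fun a => cL (nxt (dL q) (top a)))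
  refine ⟨τ, cL l₀, A, cK k₀, cK k₁, fun s => cS s + 1, fun s hs s' hs' h => ?_, fun x hx t => ?_⟩
  · have := hS s (Or.inl hs)
    rw [Nat.succ_injective h, hS s' (Or.inl hs')] at this
    exact (Option.some.inj this).symm
  let R : L × (K → List Sym) → ℕ × List (List ℕ) → Prop := fun c e =>
    c.1 ∈ Ls ∧ e.1 = cL c.1 ∧ e.2.length = A ∧ (∀ k, ∀ s ∈ c.2 k, s ∈ Ss) ∧
      ∀ k, e.2.getD (cK k) [] = (c.2 k).map fun s => cS s + 1
  have hset : ∀ (S : K → List Sym) (st : List (List ℕ)) (k : K) (l : List Sym), st.length = A →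
      (∀ k, st.getD (cK k) [] = (S k).map fun s => cS s + 1) →
      ∀ k', (st.set (cK k) (l.map fun s => cS s + 1)).getD (cK k') [] =
        (update S k l k').map fun s => cS s + 1 := by
    intro S st k l hlen h k'
    by_cases hk : k' = k
    · subst hk
      have := cKN k'
      simp [List.getD_eq_getElem?_getD, List.getElem?_set_self (show cK k' < st.length by omega)]
    · rw [update_of_ne hk, ← h k', List.getD_eq_getElem?_getD, List.getD_eq_getElem?_getD,
        List.getElem?_set_ne fun e => hk (cKinj _ _ e).symm]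
  have hstep : ∀ c e, R c e → R (astep stk op nxt c) (GM.step τ e) := by
    rintro ⟨l, S⟩ ⟨q, st⟩ ⟨h1, rfl : q = cL l, h3, h4, h5⟩
    have hq : cL l < A := by have := cLN l; omega
    have e1 : GM.stk τ (cL l) = cK (stk l) := by
      rw [GM.stk, getD_range_map _ _ _ hq, hL l h1]
    have e2 : GM.op τ (cL l) = opc (op l) := by rw [GM.op, getD_range_map _ _ _ hq, hL l h1]
    have e3 : GM.nxt τ (cL l) ((st.getD (cK (stk l)) []).headD 0) =
        cL (nxt l (S (stk l)).head?) := by
      rw [GM.nxt, getD_range_map _ _ _ hq, hL l h1, h5]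
      have h6 := h4 (stk l)
      dsimp only at h6 ⊢
      generalize S (stk l) = w at h6 ⊢
      rcases w with _ | ⟨s, r⟩
      · rw [getD_range_map _ _ _ (by simp; omega)]
        simp [top]
      · have := cSN s
        rw [getD_range_map _ _ _ (by simp; omega)]
        simp [top, hS s (h6 s (by simp))]
    refine ⟨hcl l h1 _, ?_, ?_⟩
    · simp only [GM.step, e1, e3, astep]
    · simp only [GM.step, e1, e2, astep]
      rcases hop : op l with _ | _ | s
      · exact ⟨h3, h4, h5⟩
      · simp only [opc, Option.elim_some, Option.elim_none, one_ne_zero, if_false, if_true]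
        refine ⟨by simpa using h3, fun k s hs => ?_, ?_⟩
        · by_cases hk : k = stk l
          · subst hk
            exact h4 _ s (List.mem_of_mem_tail (by simpa using hs))
          · exact h4 k s (by simpa [update_of_ne hk] using hs)
        · rw [h5, ← List.map_tail]
          exact hset S st _ _ h3 h5
      · simp only [opc, Option.elim_some, show cS s + 2 ≠ 0 by omega, show cS s + 2 ≠ 1 by omega,
          if_false]
        refine ⟨by simpa using h3, fun k s' hs => ?_, ?_⟩
        · by_cases hk : k = stk l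
          · subst hk
            rw [update_self] at hs
            rcases List.mem_cons.1 hs with rfl | hs
            · exact Or.inr ⟨l, h1, hop⟩
            · exact h4 _ s' hs
          · exact h4 k s' (by simpa [update_of_ne hk] using hs)
        · rw [h5]
          exact hset S st _ (s :: S (stk l)) h3 h5
  have hR : R ((astep stk op nxt)^[t] (l₀, update (fun _ => []) k₀ x))
      ((GM.step τ)^[t] (cL l₀, (List.replicate A []).set (cK k₀) (x.map fun s => cS s + 1))) := by
    induction t with
    | zero =>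
      refine ⟨h0, rfl, by simp, fun k s hs => ?_, ?_⟩
      · by_cases hk : k = k₀
        · subst hk
          exact Or.inl (hx s (by simpa using hs))
        · simp [update_of_ne hk] at hs
      · exact hset (fun _ => []) (List.replicate A []) k₀ x (by simp) fun k => by
          simp [List.getD_eq_getElem?_getD, List.getElem?_replicate]
          split_ifs <;> rfl
    | succ t ih =>
      rw [iterate_succ_apply', iterate_succ_apply']
      exact hstep _ _ ih
  exact hR.2.2.2.2 k₁

/-- Every `FinTM2` is simulated by a `GM`, output stack included. -/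
theorem exists_gm_out (tm : FinTM2) {S₀ : Set (Σ k, tm.Γ k)} (hS₀ : S₀.Finite) :
    ∃ (τ : GM) (q₀ A c₀ c₁ c : ℕ) (cS : (Σ k, tm.Γ k) → ℕ), Set.InjOn cS S₀ ∧
      ∀ (x : List (tm.Γ tm.k₀)) (out : List (tm.Γ tm.k₁)) (T : ℕ),
        (∀ s ∈ x, (⟨tm.k₀, s⟩ : Σ k, tm.Γ k) ∈ S₀) → Nonempty (TM2OutputsInTime tm x (some out) T) →
        ((GM.step τ)^[c * T] (q₀, (List.replicate A []).set c₀
          (x.map fun s => cS ⟨tm.k₀, s⟩))).2.getD c₁ [] = out.map fun s => cS ⟨tm.k₁, s⟩ := by
  classical
  let := tm.kFin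
  let := tm.ΛFin
  let := tm.σFin
  let Q : Finset (TM2.Stmt tm.Γ tm.Λ tm.σ) := Finset.univ.biUnion fun l => TM2.stmts₁ (tm.m l)
  have hQ : ∀ q ∈ Q, ∀ q' ∈ TM2.stmts₁ q, q' ∈ Q := fun q hq q' hq' => by
    obtain ⟨l, -, hl⟩ := Finset.mem_biUnion.1 hq
    exact Finset.mem_biUnion.2 ⟨l, Finset.mem_univ _, TM2.stmts₁_trans hl hq'⟩
  have hQm : ∀ l, tm.m l ∈ Q := fun l =>
    Finset.mem_biUnion.2 ⟨l, Finset.mem_univ _, TM2.stmts₁_self⟩
  let Ls : Set (ALab tm.Γ tm.Λ tm.σ) := {l | ∀ q v, l = .inl (some (q, v)) → q ∈ Q}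
  have hfin : Ls.Finite := by
    refine ((((Q.finite_toSet.prod (Set.finite_univ (α := tm.σ))).image
      fun p => Sum.inl (some p)).insert (Sum.inl none)).union
        (Set.finite_range Sum.inr)).subset ?_
    rintro ((_ | ⟨q, v⟩) | b) h
    · exact Or.inl (Or.inl rfl)
    · exact Or.inl (Or.inr ⟨(q, v), ⟨h q v rfl, trivial⟩, rfl⟩)
    · exact Or.inr ⟨b, rfl⟩
  obtain ⟨τ, q₀, A, c₀, c₁, cS, hinj, h⟩ := exists_gm_stk (aStk tm.k₁) aOp
    (aNxt tm.m tm.k₁ fun _ => true) hfin
    (l₀ := .inl (some (tm.m tm.main, tm.initialState))) (by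
      rintro ((_ | ⟨q, v⟩) | b) h o q' v' e
      · cases e
      · have hq := hQ q (h q v rfl)
        cases q with
        | branch f q₁ q₂ =>
          obtain ⟨rfl, -⟩ : cond (f v) q₁ q₂ = q' ∧ _ := by simpa [aNxt] using e
          cases f v <;> exact hq _ (by simp [TM2.stmts₁, TM2.stmts₁_self])
        | goto f =>
          obtain ⟨rfl, -⟩ : tm.m (f v) = q' ∧ _ := by simpa [aNxt] using e
          exact hQm _
        | halt => cases e
        | push _ _ q | peek _ _ q | pop _ _ q | load _ q =>
          obtain ⟨rfl, -⟩ : q = q' ∧ _ := by simpa [aNxt] using e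
          exact hq _ (by simp [TM2.stmts₁, TM2.stmts₁_self])
      · cases e) (by rintro _ _ ⟨⟩; exact hQm _) tm.k₀ tm.k₁ hS₀
  refine ⟨τ, q₀, A, c₀, c₁, Finset.univ.sup fun l => depth (tm.m l), cS, hinj,
    fun x out T hx ⟨hT⟩ => ?_⟩
  obtain ⟨n, hn, h1⟩ := sim_steps tm.m tm.k₁ (fun _ => true) _
    (fun l => Finset.le_sup (f := fun l => depth (tm.m l)) (Finset.mem_univ l)) _ _ _
    hT.evals_in_steps
  have e0 : aCfg tm.m (initList tm x) = (.inl (some (tm.m tm.main, tm.initialState)),
      update (fun _ => []) tm.k₀ (x.map fun b => ⟨tm.k₀, b⟩)) := by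
    refine Prod.ext rfl (funext fun k => ?_)
    by_cases hk : k = tm.k₀
    · subst hk
      simp [aCfg, aStacks, initList]
    · simp [aCfg, aStacks, initList, hk]
  have absorb : ∀ (m : ℕ) (c : ALab tm.Γ tm.Λ tm.σ × (tm.K → List (Σ k, tm.Γ k))),
      (c.1 = .inl none ∨ c.1 = .inr true) →
      ((astep (aStk tm.k₁) aOp (aNxt tm.m tm.k₁ fun _ => true))^[m] c).2 = c.2 := by
    intro m
    induction m with
    | zero => exact fun _ _ => rfl
    | succ m ih =>
      rintro ⟨l, S⟩ (rfl | rfl)
      · rw [iterate_succ_apply, ih _ (Or.inr rfl)]; rfl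
      · rw [iterate_succ_apply, ih _ (Or.inr rfl)]; rfl
  have h2 := h (x.map fun b => ⟨tm.k₀, b⟩) (by simpa using hx)
    ((Finset.univ.sup fun l => depth (tm.m l)) * T)
  have hle : n ≤ (Finset.univ.sup fun l => depth (tm.m l)) * T :=
    hn.trans (Nat.mul_le_mul_left _ hT.steps_le_m)
  obtain ⟨m, hm⟩ := Nat.exists_eq_add_of_le' hle
  rw [List.map_map] at h2
  refine h2.trans ?_
  rw [hm, ← e0, iterate_add_apply, h1, absorb m _ (Or.inl rfl)]
  simp [aCfg, aStacks, haltList]

theorem pt_gm_run {α : Type} [Enc α] (τ : GM) {n : α → ℕ} {x : α → ℕ × List (List ℕ)}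
    (hn : PT n) (hn' : PB n) (hx : PT x) : PT fun a => (GM.step τ)^[n a] (x a) := by
  refine PT.iterate_grow (f := fun _ : α => GM.step τ) (fun _ => 2 * esize τ + 2) hn hn' hx
    (by unfold GM.step GM.nxt GM.op GM.stk; fun_prop) (by fun_prop) ?_
  obtain ⟨τ₁, τ₂, τ₃⟩ := τ
  rintro - ⟨q, st⟩
  have h1 := esize_getD_le (τ₃.getD q []) ((st.getD (τ₁.getD q 0) []).headD 0) 0
  have h2 := esize_getD_le τ₃ q []
  have h3 := esize_getD_le τ₂ q 0
  have h4 := esize_nat_mono (Nat.sub_le (τ₂.getD q 0) 1)
  have h5 := esize_sublist (List.tail_sublist (st.getD (τ₁.getD q 0) []))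
  have h6 := esize_set_le st (τ₁.getD q 0) []
  have h7 := esize_pos q
  simp only [GM.step, GM.nxt, GM.op, GM.stk, esize_pair, esize_nat_zero, esize_nil] at *
  split_ifs
  · omega
  · have := h6 (st.getD (τ₁.getD q 0) []).tail
    omega
  · have := h6 ((τ₂.getD q 0 - 1) :: st.getD (τ₁.getD q 0) [])
    rw [esize_cons] at this
    omega

theorem exists_dec {G : Type} [Enc G] [Finite G] {c : G → ℕ} (hc : Injective c) :
    ∃ d : ℕ → Option G, PT d ∧ ∀ g, d (c g) = some g := by
  classical
  have := Fintype.ofFinite G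
  let tab : List (ℕ × G) := (Finset.univ.toList).map fun g => (c g, g)
  refine ⟨fun n => (tab.find? fun p => p.1 == n).map fun p => p.2, by fun_prop, fun g => ?_⟩
  have hex : (tab.find? fun p => p.1 == c g).isSome := by
    rw [List.find?_isSome]
    exact ⟨(c g, g), by simp [tab], by simp⟩
  obtain ⟨q, hq⟩ := Option.isSome_iff_exists.mp hex
  have h1 := List.find?_some hq
  have h2 := List.mem_of_find?_eq_some hq
  simp only [tab, List.mem_map] at h2
  obtain ⟨b, -, rfl⟩ := h2
  simp only [beq_iff_eq] at h1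
  beta_reduce
  rw [hq, Option.map_some, hc h1]

end Converse

open Converse

/-- Evaluating a fixed polynomial. -/
theorem PT.polyEval {α : Type} [Enc α] (p : Polynomial ℕ) {f : α → ℕ} (hf : PT f) :
    PT fun a => p.eval (f a) := by
  induction p using Polynomial.induction_on' with
  | add p q hp hq => simpa using hp.nat_add hq
  | monomial n c => simpa using (PT.const c).nat_mul (hf.nat_pow (PT.const n) (PB.const n))

/-- The converse bridge in general form: finite alphabets, polynomial-time input encoding. -/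
theorem PT.of_polyTimeComputable {α β Γα Γβ : Type} [Enc α] [Enc Γα] [Enc Γβ] [Finite Γα]
    [Finite Γβ] {ea : α → List Γα} {eb : β → List Γβ} {f : α → β}
    (h : Crest.Complexity.PolyTimeComputable ea eb f) (hea : PT ea) : PT fun a => eb (f a) := by
  obtain ⟨M⟩ := h
  let i : Γα → Σ k, M.tm.Γ k := fun g => ⟨M.tm.k₀, M.inputAlphabet.invFun g⟩
  let o : Γβ → Σ k, M.tm.Γ k := fun g => ⟨M.tm.k₁, M.outputAlphabet.invFun g⟩
  obtain ⟨τ, q₀, A, c₀, c₁, c, cS, hinj, h⟩ := exists_gm_out M.tm
    ((Set.finite_range i).union (Set.finite_range o))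
  obtain ⟨d, hd, hd'⟩ := exists_dec (c := fun g => cS (o g)) fun g g' e => by
    have := hinj (Or.inr ⟨g, rfl⟩) (Or.inr ⟨g', rfl⟩) e
    simp only [o, Sigma.mk.injEq, heq_eq_eq, true_and] at this
    exact M.outputAlphabet.symm.injective this
  have hi : PT fun g => cS (i g) := PT.of_finite _
  have hrun := pt_gm_run τ (n := fun a => c * M.time.eval (ea a).length)
    (x := fun a => (q₀, (List.replicate A []).set c₀ ((ea a).map fun g => cS (i g))))
    ((PT.const c).nat_mul (hea.length.polyEval _)) (by fun_prop)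
    ((PT.const q₀).prodMk ((PT.const _).set (PT.const c₀)
      (hea.map (f := fun _ g => cS (i g)) (hi.comp PT.snd'))))
  have hfin : PT fun a => (((GM.step τ)^[c * M.time.eval (ea a).length]
      (q₀, (List.replicate A []).set c₀ ((ea a).map fun g => cS (i g)))).2.getD c₁ []).filterMap d := by
    fun_prop
  refine hfin.of_eq fun a => ?_
  have h1 := h _ _ _ (fun s hs => by
    obtain ⟨g, -, rfl⟩ := List.mem_map.1 hs
    exact Or.inl ⟨g, rfl⟩) ⟨M.outputsFun a⟩
  rw [List.map_map, List.map_map] at h1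
  rw [show ((ea a).map fun g => cS (i g)) = (ea a).map
    ((fun s => cS ⟨M.tm.k₀, s⟩) ∘ M.inputAlphabet.invFun) from rfl, h1, List.filterMap_map]
  exact (List.filterMap_congr fun g _ => hd' g).trans (by simp)

/-- The converse bridge. -/
theorem PT.of_polyTime {f : List Bool → List Bool} (h : Crest.Complexity.PolyTime f) : PT f :=
  PT.of_polyTimeComputable (eb := (Computability.encodingList Bool).encode) (f := f) h PT.id'

/-- Tests. -/
theorem PT.of_polyTimePred {f : List Bool → Bool} (h : Crest.Complexity.PolyTimePred f) : PT f :=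
  ((PT.of_polyTimeComputable h PT.id').headD (PT.const false)).of_eq fun _ => rfl

theorem pt_pairEnc : PT Crest.Complexity.pairEnc := by
  have : PT fun p : List Bool × List Bool =>
      (p.1.map Sum.inl ++ p.2.map Sum.inr : List (Bool ⊕ Bool)) := by fun_prop
  exact this.of_eq fun _ => rfl

/-- Maps on pairs. -/
theorem PT.of_polyTime₂ {f : List Bool × List Bool → List Bool}
    (h : Crest.Complexity.PolyTimeComputable Crest.Complexity.pairEnc
      (Computability.encodingList Bool).encode f) : PT f :=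
  PT.of_polyTimeComputable (eb := (Computability.encodingList Bool).encode) (f := f) h pt_pairEnc

/-- Tests on pairs (verifiers). -/
theorem PT.of_polyTimePred₂ {f : List Bool × List Bool → Bool}
    (h : Crest.Complexity.PolyTimePred₂ f) : PT f :=
  ((PT.of_polyTimeComputable h pt_pairEnc).headD (PT.const false)).of_eq fun _ => rfl

end Crest.Agent.Lib.PolyTime
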